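import Crest.Agent.N111.Lib.BM

/-!
# Row 111, library: bounded measurable functions and the monotone class principle.
-/

set_option autoImplicit false
set_option linter.unusedSectionVars false

namespace Crest.Agent.N111

open MeasureTheory Filter Topology Set
open scoped InnerProductSpace ENNReal

section Op

variable {H : Type*} [NormedAddCommGroup H] [InnerProductSpace ℂ H]

theorem op_ext {S T : H →L[ℂ] H} (h : ∀ ξ, ⟪ξ, S ξ⟫_ℂ = ⟪ξ, T ξ⟫_ℂ) : S = T := by
  have := (ext_inner_map (S : H →ₗ[ℂ] H) (T : H →ₗ[ℂ] H)).1 fun ξ => by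
    rw [← inner_conj_symm, ← inner_conj_symm ((T : H →ₗ[ℂ] H) ξ)]
    exact congrArg (starRingEnd ℂ) (h ξ)
  exact ContinuousLinearMap.coe_injective this

theorem inner_polar (T : H →L[ℂ] H) (η ξ : H) :
    ⟪η, T ξ⟫_ℂ = (⟪η + ξ, T (η + ξ)⟫_ℂ - ⟪η - ξ, T (η - ξ)⟫_ℂ
      - Complex.I * ⟪η + Complex.I • ξ, T (η + Complex.I • ξ)⟫_ℂ
      + Complex.I * ⟪η - Complex.I • ξ, T (η - Complex.I • ξ)⟫_ℂ) / 4 := by
  simp only [map_add, map_sub, map_smul, inner_add_left, inner_add_right, inner_sub_left,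
    inner_sub_right, inner_smul_left, inner_smul_right, Complex.conj_I]
  ring_nf
  simp only [Complex.I_sq]
  ring

theorem wtends_of_inner {α : Type*} {l : Filter α} {T : α → H →L[ℂ] H} {T₀ : H →L[ℂ] H}
    (h : ∀ ξ, Tendsto (fun t => ⟪ξ, T t ξ⟫_ℂ) l (𝓝 ⟪ξ, T₀ ξ⟫_ℂ)) : WTends l T T₀ := by
  intro η ξ
  simp only [inner_polar _ η ξ]
  exact ((((h _).sub (h _)).sub ((h _).const_mul _)).add ((h _).const_mul _)).div_const _

/-- the norm is at most twice the numerical radius (with a lazy constant) -/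
theorem norm_le_of_inner {T : H →L[ℂ] H} {C : ℝ} (hC : 0 ≤ C)
    (h : ∀ ξ, ‖⟪ξ, T ξ⟫_ℂ‖ ≤ C * ‖ξ‖ ^ 2) : ‖T‖ ≤ 4 * C := by
  refine ContinuousLinearMap.opNorm_le_of_unit_norm (by positivity) fun ξ hξ => ?_
  have key : ∀ η : H, ‖η‖ ≤ 1 → ‖⟪η, T ξ⟫_ℂ‖ ≤ 4 * C := fun η hη => by
    have b : ∀ c : ℂ, ‖c‖ = 1 → ‖⟪η + c • ξ, T (η + c • ξ)⟫_ℂ‖ ≤ C * 4 := fun c hc => by
      refine (h _).trans (mul_le_mul_of_nonneg_left ?_ hC)
      have : ‖η + c • ξ‖ ≤ 2 := (norm_add_le _ _).trans (by rw [norm_smul, hc, hξ]; linarith)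
      nlinarith [norm_nonneg (η + c • ξ)]
    have nI : ∀ z : ℂ, ‖z‖ ≤ C * 4 → ‖Complex.I * z‖ ≤ C * 4 := fun z hz => by
      rwa [norm_mul, Complex.norm_I, one_mul]
    have b1 := b 1 (by simp)
    have b2 := b (-1) (by simp)
    have b3 := b Complex.I (by simp)
    have b4 := b (-Complex.I) (by simp)
    simp only [one_smul, neg_smul, ← sub_eq_add_neg] at b1 b2 b4
    rw [inner_polar, norm_div]
    have := norm_add_le_of_le (norm_sub_le_of_le (norm_sub_le_of_le b1 b2)
      (nI _ b3)) (nI _ b4)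
    rw [div_le_iff₀ (by simp), show ‖(4 : ℂ)‖ = 4 by simp]
    linarith
  rcases eq_or_ne (T ξ) 0 with h0 | h0
  · rw [h0, norm_zero]; positivity
  have h1 : 0 < ‖T ξ‖ := norm_pos_iff.2 h0
  have := key ((‖T ξ‖⁻¹ : ℂ) • T ξ) (by rw [norm_smul]; simp [h1.ne'])
  rw [inner_smul_left, inner_self_eq_norm_sq_to_K, norm_mul] at this
  simpa [sq, h1.ne'] using this

theorem WTends.of_strong {α H' : Type*} [NormedAddCommGroup H'] [InnerProductSpace ℂ H']
    {l : Filter α} {T : α → H →L[ℂ] H'} {T₀ : H →L[ℂ] H'}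
    (h : ∀ v, Tendsto (fun t => T t v) l (𝓝 (T₀ v))) : WTends l T T₀ :=
  fun _ v => tendsto_const_nhds.inner (h v)

theorem WTends.mul_left [CompleteSpace H] {α : Type*} {l : Filter α} {T : α → H →L[ℂ] H}
    {T₀ : H →L[ℂ] H} (h : WTends l T T₀) (A : H →L[ℂ] H) :
    WTends l (fun t => A * T t) (A * T₀) := fun w v => by
  simpa only [ContinuousLinearMap.mul_apply, ← ContinuousLinearMap.adjoint_inner_left]
    using h (ContinuousLinearMap.adjoint A w) v

theorem WTends.mul_right {α : Type*} {l : Filter α} {T : α → H →L[ℂ] H}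
    {T₀ : H →L[ℂ] H} (h : WTends l T T₀) (A : H →L[ℂ] H) :
    WTends l (fun t => T t * A) (T₀ * A) := fun w v => h w (A v)

end Op

variable {Y Z : Type} [MeasurableSpace Y] [MeasurableSpace Z] {a b f g : Y → ℂ}

namespace BM

theorem one : BM (fun _ : Y => (1 : ℂ)) := const 1

theorem zero : BM (fun _ : Y => (0 : ℂ)) := const 0

theorem prod {ι : Type*} (s : Finset ι) {a : ι → Y → ℂ} (h : ∀ i ∈ s, BM (a i)) :
    BM (fun y => ∏ i ∈ s, a i y) := by
  classical
  induction s using Finset.induction_on with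
  | empty => simpa using one
  | insert i s hi ih =>
    simp only [Finset.prod_insert hi]
    exact (h i (by simp)).mul (ih fun j hj => h j (by simp [hj]))

theorem indicator (ha : BM a) {s : Set Y} (hs : MeasurableSet s) : BM (s.indicator a) :=
  let ⟨C, hC, h⟩ := ha.exists_nonneg
  ⟨ha.1.indicator hs, C, fun y => by
    by_cases hy : y ∈ s
    · rw [indicator_of_mem hy]; exact h y
    · rw [indicator_of_notMem hy, norm_zero]; exact hC⟩

theorem norm (ha : BM a) : BM (fun y => ((‖a y‖ : ℝ) : ℂ)) :=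
  let ⟨C, h⟩ := ha.2
  ofReal ha.1.norm (C := C) fun y => by rw [abs_norm]; exact h y

theorem integrable (ha : BM a) (ν : Measure Y) [IsFiniteMeasure ν] : Integrable a ν :=
  let ⟨C, h⟩ := ha.2
  Integrable.of_bound ha.1.aestronglyMeasurable C (Eventually.of_forall h)

theorem of_continuous [TopologicalSpace Y] [OpensMeasurableSpace Y] (ha : Continuous a) {C : ℝ}
    (h : ∀ y, ‖a y‖ ≤ C) : BM a := ⟨ha.measurable, C, h⟩

theorem of_compactSupport [TopologicalSpace Y] [OpensMeasurableSpace Y] (ha : Continuous a)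
    (h : HasCompactSupport a) : BM a :=
  ⟨ha.measurable, ha.bounded_above_of_compact_support h⟩

theorem of_compactSpace [TopologicalSpace Y] [OpensMeasurableSpace Y] [CompactSpace Y]
    (ha : Continuous a) : BM a :=
  of_compactSupport ha (HasCompactSupport.of_compactSpace a)

theorem of_cm [TopologicalSpace Y] [OpensMeasurableSpace Y] [CompactSpace Y] (a : C(Y, ℂ)) :
    BM a := of_compactSpace a.continuous

theorem of_bcf [TopologicalSpace Y] [OpensMeasurableSpace Y] (a : BoundedContinuousFunction Y ℂ) :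
    BM a := ⟨a.continuous.measurable, ‖a‖, a.norm_coe_le_norm⟩

theorem of_tendsto {f : ℕ → Y → ℂ} {C : ℝ} (hm : ∀ n, Measurable (f n))
    (hC : ∀ n y, ‖f n y‖ ≤ C) (h : ∀ y, Tendsto (fun n => f n y) atTop (𝓝 (g y))) : BM g :=
  ⟨measurable_of_tendsto_metrizable hm (tendsto_pi_nhds.2 h), C,
    fun y => le_of_tendsto' (h y).norm fun n => hC n y⟩

theorem update {κ : Type} [DecidableEq κ] {f : κ → Y → ℂ} (hf : ∀ k, BM (f k)) (i : κ)
    (hg : BM g) (k : κ) : BM (Function.update f i g k) := by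
  rcases eq_or_ne k i with rfl | h
  · simpa using hg
  · simpa [h] using hf k

end BM

omit [MeasurableSpace Y] in
theorem ic_empty : ic (∅ : Set Y) = fun _ => 0 := by funext y; simp

omit [MeasurableSpace Y] [MeasurableSpace Z] in
theorem ic_preimage (s : Set Y) (φ : Z → Y) (z : Z) : ic (φ ⁻¹' s) z = ic s (φ z) := by
  by_cases h : φ z ∈ s <;> simp [h]

omit [MeasurableSpace Y] in
theorem ic_eq_ofReal (s : Set Y) : ic s = fun y => ((s.indicator (fun _ => (1 : ℝ)) y : ℝ) : ℂ) := by
  funext y; by_cases h : y ∈ s <;> simp [h]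

omit [MeasurableSpace Y] in
theorem tendsto_ic_of_monotone {s : ℕ → Set Y} (hs : Monotone s) (y : Y) :
    Tendsto (fun n => ic (s n) y) atTop (𝓝 (ic (⋃ n, s n) y)) := by
  by_cases h : y ∈ ⋃ n, s n
  · obtain ⟨n, hn⟩ := mem_iUnion.1 h
    rw [ic_of_mem h]
    exact tendsto_const_nhds.congr' ((eventually_ge_atTop n).mono fun m hm =>
      (ic_of_mem (hs hm hn)).symm)
  · rw [ic_of_notMem h]
    exact tendsto_const_nhds.congr fun n => (ic_of_notMem fun h' => h (mem_iUnion.2 ⟨n, h'⟩)).symm

/-- a class of functions closed under linear combinations and bounded pointwise limits -/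
structure MClass (p : (Y → ℂ) → Prop) : Prop where
  add : ∀ f g, BM f → BM g → p f → p g → p fun y => f y + g y
  smul : ∀ (c : ℂ) f, BM f → p f → p fun y => c * f y
  lim : ∀ (f : ℕ → Y → ℂ) (g : Y → ℂ) (C : ℝ), (∀ n, Measurable (f n)) → (∀ n y, ‖f n y‖ ≤ C) →
    (∀ y, Tendsto (fun n => f n y) atTop (𝓝 (g y))) → (∀ n, p (f n)) → p g

namespace MClass

variable {p : (Y → ℂ) → Prop}

/-- from indicator functions to all bounded measurable functions -/
theorem of_ic (hp : MClass p) (h : ∀ s, MeasurableSet s → p (ic s)) (hf : BM f) : p f := by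
  have simple : ∀ φ : SimpleFunc Y ℂ, BM φ ∧ p φ := fun φ => by
    induction φ using SimpleFunc.induction with
    | @const c s hs =>
      have e : ⇑(SimpleFunc.piecewise s hs (SimpleFunc.const Y c) (SimpleFunc.const Y 0))
          = fun y => c * ic s y := by
        funext y; by_cases hy : y ∈ s <;> simp [hy]
      rw [e]
      exact ⟨(BM.ic hs).const_mul c, hp.smul c _ (BM.ic hs) (h s hs)⟩
    | add _ h1 h2 => exact ⟨h1.1.add h2.1, hp.add _ _ h1.1 h2.1 h1.2 h2.2⟩
  obtain ⟨C, hC⟩ := hf.2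
  exact hp.lim (fun n => SimpleFunc.approxOn f hf.1 univ 0 (mem_univ _) n) f (C + C)
    (fun n => SimpleFunc.measurable _)
    (fun n y => (SimpleFunc.norm_approxOn_zero_le hf.1 (mem_univ _) y n).trans
      (add_le_add (hC y) (hC y)))
    (fun y => SimpleFunc.tendsto_approxOn hf.1 (mem_univ _) (by simp)) fun n => (simple _).2

/-- from a generating π-system -/
theorem of_pi (hp : MClass p) {S : Set (Set Y)}
    (hS : (inferInstance : MeasurableSpace Y) = MeasurableSpace.generateFrom S) (hπ : IsPiSystem S)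
    (h1 : p fun _ => 1) (h : ∀ s ∈ S, p (ic s)) (hf : BM f) : p f := by
  refine hp.of_ic (fun s hs => ?_) hf
  have h0 : p (ic ∅) := by simpa [ic_empty] using hp.smul 0 _ BM.one h1
  induction s, hs using MeasurableSpace.induction_on_inter hS hπ with
  | empty => exact h0
  | basic t ht => exact h t ht
  | compl t ht ih =>
    have := hp.add _ _ BM.one ((BM.ic ht).const_mul (-1)) h1 (hp.smul (-1) _ (BM.ic ht) ih)
    convert this using 2 with y
    simp only [ic_compl]; ring
  | iUnion t hd ht ih =>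
    have hm : ∀ n, MeasurableSet (accumulate t n) := fun n =>
      MeasurableSet.biUnion (to_countable _) fun i _ => ht i
    have : ∀ n, p (ic (accumulate t n)) := fun n => by
      induction n with
      | zero => simpa using ih 0
      | succ n ihn =>
        have := hp.add _ _ (BM.ic (hm n)) (BM.ic (ht (n + 1))) ihn (ih (n + 1))
        convert this using 2 with y
        rw [accumulate_succ]
        by_cases h1 : y ∈ accumulate t n <;> by_cases h2 : y ∈ t (n + 1) <;> simp [h1, h2]
        obtain ⟨i, hi, hy⟩ := mem_accumulate.1 h1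
        exact Set.disjoint_left.1 (hd (show i ≠ n + 1 by omega)) hy h2
    rw [← iUnion_accumulate]
    exact hp.lim _ _ 1 (fun n => (BM.ic (hm n)).1) (fun n => norm_ic_le _)
      (tendsto_ic_of_monotone monotone_accumulate) this

/-- from bounded continuous functions -/
theorem of_cont [TopologicalSpace Y] [HasOuterApproxClosed Y] [BorelSpace Y] (hp : MClass p)
    (h : ∀ f, Continuous f → BM f → p f) (hf : BM f) : p f := by
  refine hp.of_pi (S := {s | IsClosed s}) (BorelSpace.measurable_eq.trans borel_eq_generateFrom_isClosed)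
    isPiSystem_isClosed (h _ continuous_const BM.one) (fun s hs => ?_) hf
  have hs : IsClosed s := hs
  have c : ∀ n, Continuous fun y => (((hs.apprSeq n y : NNReal) : ℝ) : ℂ) := fun n => by fun_prop
  have b : ∀ n y, ‖(((hs.apprSeq n y : NNReal) : ℝ) : ℂ)‖ ≤ 1 := fun n y => by
    simpa using HasOuterApproxClosed.apprSeq_apply_le_one hs n y
  refine hp.lim _ _ 1 (fun n => (c n).measurable) b (fun y => ?_)
    fun n => h _ (c n) ⟨(c n).measurable, 1, b n⟩
  have := (Complex.continuous_ofReal.comp NNReal.continuous_coe).continuousAt.tendsto.comp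
    (tendsto_pi_nhds.1 (HasOuterApproxClosed.tendsto_apprSeq hs) y)
  have e : ic s y = (Complex.ofReal ∘ NNReal.toReal) (s.indicator (fun _ => 1) y) := by
    by_cases hy : y ∈ s <;> simp [hy]
  rw [e]; exact this

/-- from continuous functions on a compact metrizable space -/
theorem of_cm [TopologicalSpace Y] [HasOuterApproxClosed Y] [BorelSpace Y] (hp : MClass p)
    (h : ∀ f : C(Y, ℂ), p f) (hf : BM f) : p f :=
  hp.of_cont (fun f hc _ => h ⟨f, hc⟩) hf

/-- from compactly supported continuous functions -/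
theorem of_cc [TopologicalSpace Y] [HasOuterApproxClosed Y] [BorelSpace Y] [T2Space Y]
    [LocallyCompactSpace Y] [SigmaCompactSpace Y] (hp : MClass p)
    (h : ∀ f, Continuous f → HasCompactSupport f → p f) (hf : BM f) : p f := by
  refine hp.of_cont (fun f hc hb => ?_) hf
  let K := CompactExhaustion.choice Y
  choose χ hχ1 _ hχc hχ using fun n =>
    exists_continuous_one_zero_of_isCompact (K.isCompact n) isClosed_empty (disjoint_empty _)
  obtain ⟨C, hC0, hC⟩ := hb.exists_nonneg
  have c : ∀ n, Continuous fun y => (χ n y : ℂ) * f y := fun n => by fun_prop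
  refine hp.lim (fun n y => (χ n y : ℂ) * f y) f C (fun n => (c n).measurable) (fun n y => ?_)
    (fun y => ?_) fun n => h _ (c n) ((hχc n).comp_left (g := fun r : ℝ => (r : ℂ)) rfl).mul_right
  · rw [norm_mul, Complex.norm_real, Real.norm_of_nonneg (hχ n y).1]
    exact (mul_le_of_le_one_left (norm_nonneg _) (hχ n y).2).trans (hC y)
  · obtain ⟨n, hn⟩ := K.exists_mem y
    exact tendsto_const_nhds.congr' ((eventually_ge_atTop n).mono fun m hm => by
      simp [hχ1 m (K.subset hm hn)])


/-- on a binary product: from product functions -/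
theorem of_prod {p : (Y × Z → ℂ) → Prop} (hp : MClass p)
    (h : ∀ (f : Y → ℂ) (g : Z → ℂ), BM f → BM g → p fun z => f z.1 * g z.2) {F : Y × Z → ℂ}
    (hF : BM F) : p F := by
  refine hp.of_pi generateFrom_prod.symm isPiSystem_prod (by simpa using h _ _ BM.one BM.one)
    ?_ hF
  rintro _ ⟨s, hs, t, ht, rfl⟩
  convert h (ic s) (ic t) (BM.ic hs) (BM.ic ht) using 2 with z
  by_cases h1 : z.1 ∈ s <;> by_cases h2 : z.2 ∈ t <;> simp [h1, h2]

end MClass

end Crest.Agent.N111
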