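import Mathlib
import Crest.Agent.N111.Lib.POVM2
import Crest.Agent.N111.Lib.MClass

-- ▼ part N111/MOI/Basic
section

/-!
# Row 111: multiple operator integrals, I (helper45)

A *word* is a bounded multilinear map `W` on `∏ C(X i, ℂ)`.  `HasMOI W k e` says that the Riemann
sums `∑ k(x_r) W(φ_r)` along fine partitions of unity converge to `e`.
-/

set_option autoImplicit false

namespace Crest.Agent.N111.MOI

open Filter Topology MeasureTheory TopologicalSpace
open scoped BigOperators

/-- a finite partition of unity with marked points -/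
structure PU (X : Type) [TopologicalSpace X] where
  J : Type
  [fin : Fintype J]
  pt : J → X
  φ : J → C(X, ℝ)
  nonneg : ∀ j x, 0 ≤ φ j x
  sum_one : ∀ x, ∑ j, φ j x = 1

attribute [instance] PU.fin

section one

variable {X : Type} [TopologicalSpace X]

/-- real functions as complex functions -/
noncomputable def ofR (f : C(X, ℝ)) : C(X, ℂ) := ⟨fun x => (f x : ℂ), by fun_prop⟩

@[simp] theorem ofR_apply (f : C(X, ℝ)) (x : X) : ofR f x = (f x : ℂ) := rfl

theorem tsupport_ofR (f : C(X, ℝ)) : tsupport (ofR f) = tsupport f := by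
  unfold tsupport; congr 1; ext x; simp


/-- the mesh of the partitions tends to zero -/
def Fine (p : ℕ → PU X) : Prop :=
  ∀ U ∈ 𝓝ˢ (Set.diagonal X), ∀ᶠ n in atTop, ∀ j, ∀ y ∈ tsupport ((p n).φ j), ((p n).pt j, y) ∈ U

theorem exists_PU {X : Type} [PseudoMetricSpace X] [CompactSpace X] {ε : ℝ} (hε : 0 < ε) :
    ∃ p : PU X, ∀ j, tsupport (p.φ j) ⊆ Metric.ball (p.pt j) ε := by
  obtain ⟨t, ht⟩ := isCompact_univ.elim_finite_subcover (fun x : X => Metric.ball x ε)
    (fun _ => Metric.isOpen_ball) fun x _ => Set.mem_iUnion.2 ⟨x, Metric.mem_ball_self hε⟩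
  obtain ⟨f, hf⟩ := PartitionOfUnity.exists_isSubordinate (ι := t) isClosed_univ
    (fun j => Metric.ball (j : X) ε) (fun _ => Metric.isOpen_ball) fun x hx => by
      obtain ⟨y, hy, h⟩ := Set.mem_iUnion₂.1 (ht hx)
      exact Set.mem_iUnion.2 ⟨⟨y, hy⟩, h⟩
  exact ⟨⟨t, fun j => j, fun j => f j, fun j x => f.nonneg j x, fun x => by
    rw [← finsum_eq_sum_of_fintype]; exact f.sum_eq_one (Set.mem_univ x)⟩, hf⟩

theorem exists_fine (X : Type) [TopologicalSpace X] [CompactSpace X] [PseudoMetrizableSpace X] :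
    ∃ p : ℕ → PU X, Fine p := by
  let := pseudoMetrizableSpacePseudoMetric X
  choose p hp using fun n : ℕ => exists_PU (X := X) (Nat.one_div_pos_of_nat (α := ℝ) (n := n))
  refine ⟨p, fun U hU => ?_⟩
  rw [nhdsSet_diagonal_eq_uniformity] at hU
  obtain ⟨δ, hδ, h⟩ := Metric.mem_uniformity_dist.1 hU
  filter_upwards [tendsto_one_div_add_atTop_nhds_zero_nat.eventually_lt_const hδ] with n hn j y hy
  exact h ((Metric.mem_ball'.1 (hp n j hy)).trans hn)

theorem Fine.ball {X : Type} [PseudoMetricSpace X] {p : ℕ → PU X} (h : Fine p) {δ : ℝ}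
    (hδ : 0 < δ) : ∀ᶠ n in atTop, ∀ j, tsupport ((p n).φ j) ⊆ Metric.ball ((p n).pt j) δ := by
  refine (h {q | dist q.1 q.2 < δ} ?_).mono fun n hn j y hy => Metric.mem_ball'.2 (hn j y hy)
  refine (isOpen_lt (by fun_prop) continuous_const).mem_nhdsSet.2 ?_
  rintro ⟨x, y⟩ (rfl : x = y)
  simpa using hδ

/-- the interpolation operator of a partition of unity -/
noncomputable def PU.P (p : PU X) (f : C(X, ℂ)) : C(X, ℂ) := ∑ j, f (p.pt j) • ofR (p.φ j)


variable [CompactSpace X]



end one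

variable {ι : Type} [Fintype ι] {X : ι → Type} [∀ i, TopologicalSpace (X i)]
  [∀ i, CompactSpace (X i)] {E : Type*} [NormedAddCommGroup E] [NormedSpace ℂ E]

/-- bounded multilinear maps on continuous functions -/
abbrev Word (X : ι → Type) [∀ i, TopologicalSpace (X i)] [∀ i, CompactSpace (X i)] (E : Type*)
    [NormedAddCommGroup E] [NormedSpace ℂ E] :=
  ContinuousMultilinearMap ℂ (fun i => C(X i, ℂ)) E

/-- `W` vanishes on functions supported near `x` -/
def NullAt (W : Word X E) (x : ∀ i, X i) : Prop :=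
  ∃ U : ∀ i, Set (X i), (∀ i, U i ∈ 𝓝 (x i)) ∧
    ∀ f : ∀ i, C(X i, ℂ), (∀ i, tsupport (f i) ⊆ U i) → W f = 0

/-- the support of a word -/
def supp (W : Word X E) : Set (∀ i, X i) := {x | ¬ NullAt W x}

omit [Fintype ι] in
theorem NullAt.eventually [Finite ι] {W : Word X E} {x : ∀ i, X i} (h : NullAt W x) :
    ∀ᶠ y in 𝓝 x, NullAt W y := by
  obtain ⟨U, hU, h⟩ := h
  have : ∀ᶠ y in 𝓝 x, ∀ i, U i ∈ 𝓝 (y i) := eventually_all.2 fun i =>
    (continuous_apply i).continuousAt.eventually (eventually_mem_nhds_iff.2 (hU i))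
  exact this.mono fun y hy => ⟨U, hy, h⟩

omit [Fintype ι] in
theorem isClosed_supp [Finite ι] (W : Word X E) : IsClosed (supp W) :=
  isOpen_compl_iff.1 (isOpen_iff_mem_nhds.2 fun _ hx =>
    (NullAt.eventually (not_not.1 hx)).mono fun _ hy => not_not.2 hy)

open Classical in
/-- Riemann sum of the kernel `k` -/
noncomputable def S (W : Word X E) (p : ∀ i, PU (X i)) (k : (∀ i, X i) → ℂ) : E :=
  ∑ r : ∀ i, (p i).J, k (fun i => (p i).pt (r i)) • W fun i => ofR ((p i).φ (r i))

/-- `e` is the multiple integral of the kernel `k` against the word `W` -/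
def HasMOI (W : Word X E) (k : (∀ i, X i) → ℂ) (e : E) : Prop :=
  ∀ p : ∀ i, ℕ → PU (X i), (∀ i, Fine (p i)) →
    Tendsto (fun n => S W (fun i => p i n) k) atTop (𝓝 e)


variable {W : Word X E} {k k' : (∀ i, X i) → ℂ} {e e' : E}

theorem HasMOI.add (h : HasMOI W k e) (h' : HasMOI W k' e') :
    HasMOI W (fun x => k x + k' x) (e + e') := fun p hp => by
  simpa only [S, add_smul, Finset.sum_add_distrib] using (h p hp).add (h' p hp)

theorem HasMOI.sub (h : HasMOI W k e) (h' : HasMOI W k' e') :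
    HasMOI W (fun x => k x - k' x) (e - e') := fun p hp => by
  simpa only [S, sub_smul, Finset.sum_sub_distrib] using (h p hp).sub (h' p hp)

theorem HasMOI.smul (h : HasMOI W k e) (c : ℂ) : HasMOI W (fun x => c * k x) (c • e) :=
  fun p hp => by simpa only [S, mul_smul, ← Finset.smul_sum] using (h p hp).const_smul c

theorem hasMOI_zero : HasMOI W (fun _ => 0) 0 := fun p _ => by simp [S]

theorem HasMOI.sum {κ : Type*} (s : Finset κ) {k : κ → (∀ i, X i) → ℂ} {e : κ → E}
    (h : ∀ j ∈ s, HasMOI W (k j) (e j)) : HasMOI W (fun x => ∑ j ∈ s, k j x) (∑ j ∈ s, e j) := by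
  classical
  induction s using Finset.induction_on with
  | empty => simpa using hasMOI_zero
  | insert a s ha ih =>
    simp only [Finset.sum_insert ha]
    exact (h a (Finset.mem_insert_self _ _)).add (ih fun j hj => h j (Finset.mem_insert_of_mem hj))

theorem HasMOI.map {F : Type*} [NormedAddCommGroup F] [NormedSpace ℂ F] (h : HasMOI W k e)
    (L : E →L[ℂ] F) : HasMOI (L.compContinuousMultilinearMap W) k (L e) := fun p hp => by
  simpa [S, Function.comp_def] using (L.continuous.tendsto e).comp (h p hp)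



variable [∀ i, PseudoMetrizableSpace (X i)]

theorem HasMOI.unique (h : HasMOI W k e) (h' : HasMOI W k e') : e = e' := by
  choose p hp using fun i => exists_fine (X i)
  exact tendsto_nhds_unique (h p hp) (h' p hp)

/-- Only the germ of the kernel along the support matters. -/
theorem HasMOI.congr (h : HasMOI W k e) (hk : k =ᶠ[𝓝ˢ (supp W)] k') : HasMOI W k' e := by
  classical
  intro p hp
  let := fun i => pseudoMetrizableSpacePseudoMetric (X i)
  obtain ⟨O, hO, hs, hOk⟩ := mem_nhdsSet_iff_exists.1 hk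
  have h1 : ∀ x : ∀ i, X i, ∃ B : Set (∀ i, X i), IsOpen B ∧ x ∈ B ∧ (B ⊆ O ∨
      ∀ f : ∀ i, C(X i, ℂ), Set.univ.pi (fun i => tsupport (f i)) ⊆ B → W f = 0) := fun x => by
    by_cases hx : x ∈ supp W
    · exact ⟨O, hO, hs hx, Or.inl subset_rfl⟩
    obtain ⟨U, hU, h⟩ := not_not.1 hx
    refine ⟨Set.univ.pi fun i => interior (U i), isOpen_set_pi Set.finite_univ
      fun _ _ => isOpen_interior, fun i _ => mem_interior_iff_mem_nhds.2 (hU i),
      Or.inr fun f hf => ?_⟩
    rcases Set.univ_pi_subset_univ_pi_iff.1 hf with h2 | ⟨i, hi⟩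
    · exact h f fun i => (h2 i).trans interior_subset
    · exact W.map_coord_zero i (by ext y; exact congrFun (tsupport_eq_empty_iff.1 hi) y)
  choose B hB hxB hB' using h1
  obtain ⟨δ, hδ, hL⟩ := lebesgue_number_lemma_of_metric (s := Set.univ) isCompact_univ hB
    fun x _ => Set.mem_iUnion.2 ⟨x, hxB x⟩
  refine (h p hp).congr' ?_
  filter_upwards [eventually_all.2 fun i => (hp i).ball hδ] with n hn
  refine Finset.sum_congr rfl fun r _ => ?_
  obtain ⟨x, hx⟩ := hL (fun i => (p i n).pt (r i)) (Set.mem_univ _)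
  rcases hB' x with h2 | h2
  · rw [hOk (h2 (hx (Metric.mem_ball_self hδ)))]
  · rw [h2 _ fun y hy => hx (Metric.mem_ball.2 <| (dist_pi_lt_iff hδ).2 fun i =>
      hn i (r i) (tsupport_ofR ((p i n).φ (r i)) ▸ hy i (Set.mem_univ _))), smul_zero, smul_zero]




end Crest.Agent.N111.MOI
end

-- ▼ part N111/MOI/Four
section

/-!
# Row 111: multiple operator integrals, II: kernels `φ (∑ i, h i (x i))` (helper45)

For a smooth compactly supported `φ` on a finite-dimensional space, the kernel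
`φ (∑ i, h i (x i)) * ∏ i, f i (x i)` has an integral `moi W φ h f`, bounded independently of `h`
and Lipschitz in `h`.
-/

set_option autoImplicit false

namespace Crest.Agent.N111.MOI

open Filter Topology MeasureTheory TopologicalSpace
open scoped BigOperators FourierTransform ContDiff RealInnerProductSpace Real

variable {V : Type} [NormedAddCommGroup V] [NormedSpace ℝ V] [FiniteDimensional ℝ V]

/-- smooth with compact support -/
structure Test (φ : V → ℂ) : Prop where
  smooth : ContDiff ℝ ∞ φ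
  cpt : HasCompactSupport φ

/-- frequencies -/
abbrev Fq (V : Type) [NormedAddCommGroup V] [NormedSpace ℝ V] : Type :=
  EuclideanSpace ℝ (Fin (Module.finrank ℝ V))

/-- the Fourier transform in linear coordinates -/
noncomputable def ft (φ : V → ℂ) : Fq V → ℂ := 𝓕 fun w => φ (toEuclidean.symm w)

/-- the `L¹` norm of the Fourier transform -/
noncomputable def A (φ : V → ℂ) : ℝ := ∫ ξ, ‖ft φ ξ‖




/-- the Schwartz function of a test function -/
noncomputable def Test.sw {φ : V → ℂ} (h : Test φ) : SchwartzMap (Fq V) ℂ :=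
  HasCompactSupport.toSchwartzMap (f := fun w => φ (toEuclidean.symm w))
    (h.cpt.comp_homeomorph (toEuclidean (E := V)).symm.toHomeomorph)
    (h.smooth.comp (toEuclidean (E := V)).symm.contDiff)

theorem Test.ft_eq {φ : V → ℂ} (h : Test φ) : ft φ = (𝓕 h.sw : SchwartzMap (Fq V) ℂ) := rfl

theorem Test.integrable {φ : V → ℂ} (h : Test φ) : Integrable (ft φ) := by
  rw [h.ft_eq]; exact SchwartzMap.integrable _


theorem Test.inv {φ : V → ℂ} (h : Test φ) (v : V) :
    φ v = ∫ ξ, ft φ ξ * Complex.exp (((2 * π * ⟪ξ, toEuclidean v⟫ : ℝ) : ℂ) * Complex.I) := by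
  have h1 := congrFun (h.sw.continuous.fourierInv_fourier_eq h.sw.integrable h.integrable)
    (toEuclidean v)
  rw [Real.fourierInv_eq'] at h1
  simp only [smul_eq_mul, mul_comm (Complex.exp _)] at h1
  refine Eq.trans ?_ h1.symm
  simp [Test.sw]

section ex

variable {X : Type} [TopologicalSpace X]

/-- exponentials -/
noncomputable def ex (h : C(X, V)) (ξ : Fq V) : C(X, ℂ) :=
  ⟨fun x => Complex.exp (((2 * π * ⟪ξ, toEuclidean (h x)⟫ : ℝ) : ℂ) * Complex.I), by fun_prop⟩

theorem ex_apply (h : C(X, V)) (ξ : Fq V) (x : X) :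
    ex h ξ x = Complex.exp (((2 * π * ⟪ξ, toEuclidean (h x)⟫ : ℝ) : ℂ) * Complex.I) := rfl

theorem ex_add (h h' : C(X, V)) (ξ : Fq V) : ex (h + h') ξ = ex h ξ * ex h' ξ := by
  ext x
  simp only [ex_apply, ContinuousMap.add_apply, map_add, inner_add_right, ContinuousMap.mul_apply,
    ← Complex.exp_add]
  congr 1; push_cast; ring

theorem ex_zero (ξ : Fq V) : ex (0 : C(X, V)) ξ = 1 := by ext x; simp [ex_apply]


theorem continuous_ex (h : C(X, V)) : Continuous (ex h) :=
  ContinuousMap.continuous_of_continuous_uncurry _ (by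
    change Continuous fun q : Fq V × X =>
      Complex.exp (((2 * π * ⟪q.1, toEuclidean (h q.2)⟫ : ℝ) : ℂ) * Complex.I)
    fun_prop)

variable [CompactSpace X]



end ex

variable {ι : Type} [Fintype ι] {X : ι → Type} [∀ i, TopologicalSpace (X i)]
  [∀ i, CompactSpace (X i)] {E : Type*} [NormedAddCommGroup E] [NormedSpace ℂ E]




variable {φ : V → ℂ}









variable [∀ i, PseudoMetrizableSpace (X i)] [CompleteSpace E]


end Crest.Agent.N111.MOI
end

-- ▼ part N111/MOI/Rep
section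

/-!
# Row 111: representations of `C(X)`, joint calculus, words of operators (helper45)
-/

set_option autoImplicit false

namespace Crest.Agent.N111.MOI

open Filter Topology MeasureTheory TopologicalSpace WeakDual
open scoped BigOperators ContDiff

/-- unital `*`-representations of `C(X)` -/
abbrev Rep (X : Type) [TopologicalSpace X] (A : Type*) [CStarAlgebra A] : Type _ :=
  C(X, ℂ) →⋆ₐ[ℂ] A

section rep

variable {X Y : Type} [TopologicalSpace X] [TopologicalSpace Y] {A : Type*} [CStarAlgebra A]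

/-- push-forward of a representation along a continuous map -/
noncomputable def Rep.map (π : Rep X A) (g : C(X, Y)) : Rep Y A := π.comp (g.compStarAlgHom' ℂ ℂ)

@[simp] theorem Rep.map_apply (π : Rep X A) (g : C(X, Y)) (f : C(Y, ℂ)) :
    π.map g f = π (f.comp g) := rfl

theorem Rep.comm (π : Rep X A) (f g : C(X, ℂ)) : Commute (π f) (π g) :=
  (Commute.all f g).map π

variable [CompactSpace X] [CompactSpace Y]

theorem Rep.norm_le (π : Rep X A) (f : C(X, ℂ)) : ‖π f‖ ≤ ‖f‖ :=
  NonUnitalStarAlgHom.norm_apply_le π f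

/-- a representation as a continuous linear map -/
noncomputable def Rep.clm (π : Rep X A) : C(X, ℂ) →L[ℂ] A :=
  (π.toAlgHom.toLinearMap).mkContinuous 1 fun f => by simpa using π.norm_le f

@[simp] theorem Rep.clm_apply (π : Rep X A) (f : C(X, ℂ)) : π.clm f = π f := rfl


theorem Rep.continuous (π : Rep X A) : Continuous π := π.clm.continuous


end rep

section joint

variable {ι : Type} {X : ι → Type} [∀ i, TopologicalSpace (X i)] [∀ i, CompactSpace (X i)]
  [∀ i, T2Space (X i)] {A : Type*} [CStarAlgebra A]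

/-- coordinate projections -/
def ev (i : ι) : C(∀ i, X i, X i) := ⟨fun x => x i, continuous_apply i⟩

omit [∀ i, CompactSpace (X i)] [∀ i, T2Space (X i)] in
@[simp] theorem ev_apply (i : ι) (x : ∀ i, X i) : ev i x = x i := rfl

/-- The joint functional calculus of a commuting family. -/
theorem exists_joint (π : ∀ i, Rep (X i) A) (hc : ∀ i j f g, Commute (π i f) (π j g)) :
    ∃ Θ : Rep (∀ i, X i) A, ∀ i, Θ.map (ev i) = π i := by
  let s : Set A := ⋃ i, Set.range (π i)
  have hs : ∀ a ∈ s, ∀ b ∈ s, a * b = b * a := by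
    simp only [s, Set.mem_iUnion]
    rintro _ ⟨i, f, rfl⟩ _ ⟨j, g, rfl⟩
    exact hc i j f g
  have : IsMulCommutative (StarAlgebra.adjoin ℂ s) :=
    StarAlgebra.isMulCommutative_adjoin ℂ hs fun a ha b hb => hs a ha _ (by
      obtain ⟨j, g, rfl⟩ := Set.mem_iUnion.1 hb
      exact Set.mem_iUnion.2 ⟨j, star g, map_star _ _⟩)
  let S : StarSubalgebra ℂ A := (StarAlgebra.adjoin ℂ s).topologicalClosure
  have hS : IsClosed (S : Set A) := StarSubalgebra.isClosed_topologicalClosure _
  let _ : CommRing S := (StarAlgebra.adjoin ℂ s).commRingTopologicalClosure fun a b =>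
    this.is_comm.comm a b
  let _ : CommCStarAlgebra S := { }
  let ρ : ∀ i, C(X i, ℂ) →⋆ₐ[ℂ] S := fun i => (π i).codRestrict S fun f =>
    StarSubalgebra.le_topologicalClosure _
      (StarAlgebra.subset_adjoin ℂ s (Set.mem_iUnion.2 ⟨i, f, rfl⟩))
  let Ψ : C(characterSpace ℂ S, ∀ i, X i) := ContinuousMap.pi fun i =>
    ((CharacterSpace.homeoEval (X i) ℂ).symm : C(_, _)).comp (CharacterSpace.compContinuousMap (ρ i))
  refine ⟨S.subtype.comp (((gelfandStarTransform S).symm : C(characterSpace ℂ S, ℂ) →⋆ₐ[ℂ] S).comp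
    (Ψ.compStarAlgHom' ℂ ℂ)), fun i => StarAlgHom.ext fun f => ?_⟩
  have h1 : (f.comp (ev i)).comp Ψ = gelfandStarTransform S (ρ i f) := by
    ext χ
    have := (CharacterSpace.homeoEval (X i) ℂ).apply_symm_apply
      (CharacterSpace.compContinuousMap (ρ i) χ)
    exact congrArg (fun φ : characterSpace ℂ C(X i, ℂ) => φ f) this
  change (((gelfandStarTransform S).symm ((f.comp (ev i)).comp Ψ) : S) : A) = π i f
  rw [h1, StarAlgEquiv.symm_apply_apply]; rfl


variable {Y Z : Type} [TopologicalSpace Y] [CompactSpace Y] [T2Space Y] [TopologicalSpace Z]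
  [CompactSpace Z] [T2Space Z]


theorem exists_joint₂ (π : Rep Y A) (ρ : Rep Z A) (hc : ∀ f g, Commute (π f) (ρ g)) :
    ∃ Θ : Rep (Y × Z) A, Θ.map .fst = π ∧ Θ.map .snd = ρ := by
  let T : Bool → Type := fun b => match b with | true => Y | false => Z
  let _ : ∀ b, TopologicalSpace (T b) := fun b => match b with
    | true => ‹TopologicalSpace Y› | false => ‹TopologicalSpace Z›
  have _ : ∀ b, CompactSpace (T b) := fun b => match b with
    | true => ‹CompactSpace Y› | false => ‹CompactSpace Z›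
  have _ : ∀ b, T2Space (T b) := fun b => match b with
    | true => ‹T2Space Y› | false => ‹T2Space Z›
  obtain ⟨Θ, h⟩ := exists_joint (X := T) (fun b => match b with | true => π | false => ρ)
    fun i j => match i, j with
      | true, true => π.comm
      | true, false => hc
      | false, true => fun f g => (hc g f).symm
      | false, false => ρ.comm
  exact ⟨Θ.map ((ev (X := T) true).prodMk (ev (X := T) false)), h true, h false⟩

/-- the joint representation of two commuting representations -/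
noncomputable def Rep.joint (π : Rep Y A) (ρ : Rep Z A) (h : ∀ f g, Commute (π f) (ρ g)) :
    Rep (Y × Z) A := (exists_joint₂ π ρ h).choose

@[simp] theorem Rep.joint_fst (π : Rep Y A) (ρ : Rep Z A) (h : ∀ f g, Commute (π f) (ρ g))
    (f : C(Y, ℂ)) : π.joint ρ h (f.comp .fst) = π f :=
  DFunLike.congr_fun (exists_joint₂ π ρ h).choose_spec.1 f

@[simp] theorem Rep.joint_snd (π : Rep Y A) (ρ : Rep Z A) (h : ∀ f g, Commute (π f) (ρ g))
    (g : C(Z, ℂ)) : π.joint ρ h (g.comp .snd) = ρ g :=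
  DFunLike.congr_fun (exists_joint₂ π ρ h).choose_spec.2 g


end joint

section spec

variable {X : Type} [TopologicalSpace X] [CompactSpace X] {A : Type*} [CStarAlgebra A]

/-- the support (spectrum) of a representation -/
def Rep.spec (π : Rep X A) : Set X :=
  {x | ¬ ∃ U ∈ 𝓝 x, ∀ f : C(X, ℂ), tsupport f ⊆ U → π f = 0}


variable [T2Space X]






end spec

end Crest.Agent.N111.MOI
end

-- ▼ part N111/Stone/BRep
section

/-!
# Row 111: representations of `C_b(Z)` (spectral measures on non-compact spaces).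
-/

set_option autoImplicit false

namespace Crest.Agent.N111

open Filter Topology BoundedContinuousFunction
open scoped InnerProductSpace

variable {K K' : Type*} [NormedAddCommGroup K] [InnerProductSpace ℂ K] [CompleteSpace K]
  [NormedAddCommGroup K'] [InnerProductSpace ℂ K'] [CompleteSpace K']

/-- unital `*`-representations of the bounded continuous functions on `Z` -/
abbrev BRep (Z : Type) [TopologicalSpace Z] (K : Type*) [NormedAddCommGroup K]
    [InnerProductSpace ℂ K] [CompleteSpace K] : Type _ := (Z →ᵇ ℂ) →⋆ₐ[ℂ] (K →L[ℂ] K)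

lemma norm_sq_eq_re_inner (a : K →L[ℂ] K) (ξ : K) :
    ‖a ξ‖ ^ 2 = (⟪ξ, (star a * a) ξ⟫_ℂ).re := by
  rw [mul_apply_eq_comp, ContinuousLinearMap.star_eq_adjoint,
    ContinuousLinearMap.adjoint_inner_right, inner_self_eq_norm_sq_to_K]
  norm_cast

lemma norm_le_of_star_mul {a b c : K →L[ℂ] K} (h : star b * b = star a * a + star c * c) (ξ : K) :
    ‖a ξ‖ ≤ ‖b ξ‖ := by
  refine le_of_sq_le_sq ?_ (norm_nonneg _)
  have := norm_sq_eq_re_inner b ξ
  rw [h, _root_.add_apply, inner_add_right, Complex.add_re, ← norm_sq_eq_re_inner,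
    ← norm_sq_eq_re_inner] at this
  nlinarith [sq_nonneg ‖c ξ‖]

lemma sqrt_aux {a b : ℂ} (h : ‖a‖ ≤ ‖b‖) :
    star b * b = star a * a + star ((√(‖b‖ ^ 2 - ‖a‖ ^ 2) : ℝ) : ℂ) * (√(‖b‖ ^ 2 - ‖a‖ ^ 2) : ℝ) := by
  have h1 : 0 ≤ ‖b‖ ^ 2 - ‖a‖ ^ 2 := by nlinarith [norm_nonneg a]
  simp only [Complex.star_def, Complex.conj_mul', Complex.conj_ofReal]
  rw [← Complex.ofReal_mul, Real.mul_self_sqrt h1]
  push_cast; ring

theorem MOI.Rep.norm_apply_mono {Y : Type} [TopologicalSpace Y] (Θ : MOI.Rep Y (K →L[ℂ] K))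
    {f g : C(Y, ℂ)} (h : ∀ y, ‖f y‖ ≤ ‖g y‖) (ξ : K) : ‖Θ f ξ‖ ≤ ‖Θ g ξ‖ := by
  let c : C(Y, ℂ) := ⟨fun y => ((√(‖g y‖ ^ 2 - ‖f y‖ ^ 2) : ℝ) : ℂ), by fun_prop⟩
  refine norm_le_of_star_mul (c := Θ c) ?_ ξ
  simp only [← map_star, ← map_mul, ← map_add]
  congr 1
  ext y
  exact sqrt_aux (h y)

omit [CompleteSpace K] [CompleteSpace K'] in
lemma eq_of_mul_denseRange {a : K →L[ℂ] K} (ha : DenseRange a) {S T : K →L[ℂ] K'}
    (h : S ∘L a = T ∘L a) : S = T := by
  ext1 ξ
  exact ha.induction_on ξ (isClosed_eq S.continuous T.continuous)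
    fun η => congrArg (fun A : K →L[ℂ] K' => A η) h

omit [CompleteSpace K] in
lemma mul_cancel_denseRange {a : K →L[ℂ] K} (ha : DenseRange a) {S T : K →L[ℂ] K}
    (h : S * a = T * a) : S = T := eq_of_mul_denseRange ha h

lemma denseRange_of_adjoint_inj {a : K →L[ℂ] K} (h : ∀ ξ, star a ξ = 0 → ξ = 0) :
    DenseRange a := by
  have : (a.range).topologicalClosure = ⊤ := by
    rw [Submodule.topologicalClosure_eq_top_iff, eq_bot_iff]
    intro ξ hξ
    refine h ξ (ext_inner_left ℂ fun η => ?_)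
    rw [ContinuousLinearMap.star_eq_adjoint, ContinuousLinearMap.adjoint_inner_right,
      inner_zero_right]
    exact hξ _ ⟨η, rfl⟩
  exact (Submodule.dense_iff_topologicalClosure_eq_top.2 this : _)

lemma adjoint_inj_of_denseRange {a : K →L[ℂ] K} (h : DenseRange a) {ξ : K} (hξ : star a ξ = 0) :
    ξ = 0 := by
  refine ext_inner_left ℂ fun η => h.induction_on η (isClosed_eq (by fun_prop) (by fun_prop))
    fun ζ => ?_
  rw [← ContinuousLinearMap.adjoint_inner_right, ← ContinuousLinearMap.star_eq_adjoint, hξ,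
    inner_zero_right, inner_zero_right]

lemma norm_star_apply_of_normal {a : K →L[ℂ] K} (h : star a * a = a * star a) (ξ : K) :
    ‖star a ξ‖ = ‖a ξ‖ := by
  refine (pow_left_inj₀ (norm_nonneg _) (norm_nonneg _) two_ne_zero).1 ?_
  rw [norm_sq_eq_re_inner, norm_sq_eq_re_inner, star_star, h]

namespace BRep

variable {Z : Type} [TopologicalSpace Z] (θ : BRep Z K)

theorem comm (F G : Z →ᵇ ℂ) : Commute (θ F) (θ G) := (Commute.all F G).map θ

theorem norm_le (F : Z →ᵇ ℂ) : ‖θ F‖ ≤ ‖F‖ := NonUnitalStarAlgHom.norm_apply_le θ F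

theorem norm_apply_le (F : Z →ᵇ ℂ) (ξ : K) : ‖θ F ξ‖ ≤ ‖F‖ * ‖ξ‖ :=
  (θ F).le_of_opNorm_le (θ.norm_le F) ξ

/-- a representation as a continuous linear map -/
noncomputable def clm : (Z →ᵇ ℂ) →L[ℂ] (K →L[ℂ] K) :=
  (θ.toAlgHom.toLinearMap).mkContinuous 1 fun f => by simpa using θ.norm_le f

@[simp] theorem clm_apply (F : Z →ᵇ ℂ) : θ.clm F = θ F := rfl

theorem continuous : Continuous θ := θ.clm.continuous

theorem norm_apply_mono {F G : Z →ᵇ ℂ} (h : ∀ y, ‖F y‖ ≤ ‖G y‖) (ξ : K) : ‖θ F ξ‖ ≤ ‖θ G ξ‖ := by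
  let c : Z →ᵇ ℂ := ofNormedAddCommGroup (fun y => ((√(‖G y‖ ^ 2 - ‖F y‖ ^ 2) : ℝ) : ℂ))
    (by fun_prop) ‖G‖ fun y => by
      rw [Complex.norm_real, Real.norm_of_nonneg (Real.sqrt_nonneg _)]
      refine Real.sqrt_le_iff.2 ⟨norm_nonneg _, ?_⟩
      nlinarith [sq_nonneg ‖F y‖, G.norm_coe_le_norm y, norm_nonneg (G y)]
  refine norm_le_of_star_mul (c := θ c) ?_ ξ
  simp only [← map_star, ← map_mul, ← map_add]
  congr 1
  ext y
  exact sqrt_aux (h y)

/-- non-degeneracy: no spectral mass at infinity -/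
def Nondeg : Prop := ∃ w : Z →ᵇ ℂ, Tendsto w (cocompact Z) (𝓝 0) ∧ DenseRange (θ w)

variable {θ}

/-- bounded, locally uniformly convergent families converge strongly -/
theorem Nondeg.tendsto_zero (h : θ.Nondeg) {α : Type*} {l : Filter α} {F : α → Z →ᵇ ℂ} {C : ℝ}
    (hC : ∀ᶠ a in l, ‖F a‖ ≤ C)
    (hF : ∀ S, IsCompact S → ∀ ε > 0, ∀ᶠ a in l, ∀ z ∈ S, ‖F a z‖ ≤ ε) (ξ : K) :
    Tendsto (fun a => θ (F a) ξ) l (𝓝 0) := by
  obtain ⟨w, hw, hd⟩ := h
  rw [Metric.tendsto_nhds]
  intro ε hε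
  set D := |C| + 1 with hD
  have hD0 : 0 < D := by positivity
  obtain ⟨η, hη⟩ := hd.exists_dist_lt ξ (by positivity : 0 < ε / (2 * D))
  set δ := ε / (2 * (‖η‖ + 1)) with hδ
  have hδ0 : 0 < δ := by positivity
  obtain ⟨S, hS, hS'⟩ := mem_cocompact.1
    (Metric.tendsto_nhds.1 hw _ (by positivity : 0 < δ / D))
  filter_upwards [hC, hF S hS _ (by positivity : 0 < δ / (‖w‖ + 1))] with a h1 h2
  have h1' : ‖F a‖ ≤ D := h1.trans (by linarith [le_abs_self C])
  have h3 : ‖F a * w‖ ≤ δ := (BoundedContinuousFunction.norm_le hδ0.le).2 fun z => by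
    rw [BoundedContinuousFunction.coe_mul, Pi.mul_apply, norm_mul]
    by_cases hz : z ∈ S
    · calc _ ≤ δ / (‖w‖ + 1) * (‖w‖ + 1) := by
            gcongr
            · exact h2 z hz
            · linarith [w.norm_coe_le_norm z]
        _ = δ := by field_simp
    · have h4 : dist (w z) 0 < δ / D := hS' hz
      rw [dist_zero_right] at h4
      calc _ ≤ D * (δ / D) := by
            gcongr
            exact ((F a).norm_coe_le_norm z).trans h1'
        _ = δ := by field_simp
  have e : θ (F a) ξ = θ (F a) (ξ - θ w η) + θ (F a * w) η := by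
    rw [map_mul, mul_apply_eq_comp, map_sub, sub_add_cancel]
  rw [dist_zero_right, e]
  rw [dist_eq_norm] at hη
  calc _ ≤ ‖F a‖ * ‖ξ - θ w η‖ + ‖F a * w‖ * ‖η‖ :=
        (norm_add_le _ _).trans (add_le_add (θ.norm_apply_le _ _) (θ.norm_apply_le _ _))
    _ ≤ D * ‖ξ - θ w η‖ + δ * (‖η‖ + 1) := by gcongr; linarith
    _ < D * (ε / (2 * D)) + δ * (‖η‖ + 1) := by gcongr
    _ = ε := by rw [hδ]; field_simp; ring

theorem Nondeg.tendsto (h : θ.Nondeg) {α : Type*} {l : Filter α} {F : α → Z →ᵇ ℂ} {F₀ : Z →ᵇ ℂ}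
    {C : ℝ} (hC : ∀ᶠ a in l, ‖F a‖ ≤ C)
    (hF : ∀ S, IsCompact S → ∀ ε > 0, ∀ᶠ a in l, ∀ z ∈ S, ‖F a z - F₀ z‖ ≤ ε) (ξ : K) :
    Tendsto (fun a => θ (F a) ξ) l (𝓝 (θ F₀ ξ)) := by
  have := h.tendsto_zero (F := fun a => F a - F₀) (C := C + ‖F₀‖)
    (hC.mono fun a ha => (norm_sub_le _ _).trans (by gcongr)) hF ξ
  simp only [map_sub, _root_.sub_apply] at this
  exact tendsto_sub_nhds_zero_iff.1 this

theorem Nondeg.denseRange (h : θ.Nondeg) {F : Z →ᵇ ℂ} (hF : ∀ z, F z ≠ 0) : DenseRange (θ F) := by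
  refine denseRange_of_adjoint_inj fun ξ hξ => ?_
  have hpos : ∀ (n : ℕ) z, (0 : ℝ) < n * ‖F z‖ ^ 2 + 1 := fun n z => by positivity
  let G : ℕ → Z →ᵇ ℂ := fun n => ofNormedAddCommGroup
    (fun z => ((n * ‖F z‖ ^ 2 + 1 : ℝ) : ℂ)⁻¹)
    (Continuous.inv₀ (by fun_prop) fun z => by exact_mod_cast (hpos n z).ne') 1 fun z => by
      rw [norm_inv, Complex.norm_real, Real.norm_of_nonneg (hpos n z).le]
      exact inv_le_one_of_one_le₀ (le_add_of_nonneg_left (by positivity))
  have hG : ∀ n z, ‖G n z‖ = (n * ‖F z‖ ^ 2 + 1)⁻¹ := fun n z => by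
    change ‖((n * ‖F z‖ ^ 2 + 1 : ℝ) : ℂ)⁻¹‖ = _
    rw [norm_inv, Complex.norm_real, Real.norm_of_nonneg (hpos n z).le]
  have h1 : ∀ n, θ (G n) ξ = ξ := fun n => by
    have e : G n = 1 - ((n : ℂ) • (G n * F)) * star F := by
      ext z
      have h2 : ((n * ‖F z‖ ^ 2 + 1 : ℝ) : ℂ) ≠ 0 := by exact_mod_cast (hpos n z).ne'
      change ((n * ‖F z‖ ^ 2 + 1 : ℝ) : ℂ)⁻¹
        = 1 - (n : ℂ) * (((n * ‖F z‖ ^ 2 + 1 : ℝ) : ℂ)⁻¹ * F z) * (starRingEnd ℂ) (F z)
      rw [mul_assoc, mul_assoc, Complex.mul_conj']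
      field_simp
      push_cast; ring
    rw [e, map_sub, map_mul, map_star, map_one, _root_.sub_apply, mul_apply_eq_comp, hξ, map_zero,
      sub_zero, one_apply_eq_self]
  have h2 := h.tendsto_zero (l := atTop) (F := G) (C := 1) (Eventually.of_forall fun n =>
    (BoundedContinuousFunction.norm_le zero_le_one).2 fun z => by
      rw [hG]; exact inv_le_one_of_one_le₀ (le_add_of_nonneg_left (by positivity)))
    (fun S hS ε hε => ?_) ξ
  · simp only [h1] at h2
    exact tendsto_const_nhds_iff.1 h2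
  · obtain ⟨c, hc, hc'⟩ := hS.exists_forall_le' (f := fun z => ‖F z‖ ^ 2) (a := 0)
      (by fun_prop) fun z _ => by have := hF z; positivity
    filter_upwards [tendsto_natCast_atTop_atTop.eventually_ge_atTop (ε * c)⁻¹] with n hn z hz
    rw [hG, inv_le_comm₀ (hpos n z) hε]
    have : ε⁻¹ = (ε * c)⁻¹ * c := by field_simp
    have h3 : (ε * c)⁻¹ * c ≤ n * ‖F z‖ ^ 2 := by gcongr; exact hc' z hz
    linarith




/-- push-forward along a continuous map -/
noncomputable def map {Z' : Type} [TopologicalSpace Z'] (θ : BRep Z K) (g : C(Z, Z')) :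
    BRep Z' K :=
  θ.comp
    { toFun := fun F => F.compContinuous g
      map_one' := rfl
      map_mul' := fun _ _ => rfl
      map_zero' := rfl
      map_add' := fun _ _ => rfl
      commutes' := fun _ => rfl
      map_star' := fun _ => rfl }

@[simp] theorem map_apply {Z' : Type} [TopologicalSpace Z'] (θ : BRep Z K) (g : C(Z, Z'))
    (F : Z' →ᵇ ℂ) : θ.map g F = θ (F.compContinuous g) := rfl

theorem Nondeg.map {Z' : Type} [TopologicalSpace Z'] (h : θ.Nondeg) (g : C(Z, Z'))
    {w : Z' →ᵇ ℂ} (hw : Tendsto w (cocompact Z') (𝓝 0)) (hw' : ∀ z, w z ≠ 0) : (θ.map g).Nondeg :=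
  ⟨w, hw, h.denseRange fun _ => hw' _⟩

/-- the representation of `C(Y)` defined by a continuous map to a compact space -/
noncomputable def toRep {Y : Type} [TopologicalSpace Y] [CompactSpace Y] (θ : BRep Z K)
    (g : C(Z, Y)) : MOI.Rep Y (K →L[ℂ] K) :=
  θ.comp
    { toFun := fun f => (mkOfCompact f).compContinuous g
      map_one' := rfl
      map_mul' := fun _ _ => rfl
      map_zero' := rfl
      map_add' := fun _ _ => rfl
      commutes' := fun _ => rfl
      map_star' := fun _ => rfl }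

theorem toRep_apply {Y : Type} [TopologicalSpace Y] [CompactSpace Y] (θ : BRep Z K)
    (g : C(Z, Y)) (f : C(Y, ℂ)) : θ.toRep g f = θ ((mkOfCompact f).compContinuous g) := rfl


section ext

variable {Y : Type} [TopologicalSpace Y] (Θ : MOI.Rep Y (K →L[ℂ] K)) (w : C(Y, ℂ))
  {p : Y → Z} (hp : ContinuousOn p {y | w y ≠ 0})

/-- `(F ∘ p) w` extended by zero -/
noncomputable def hat (F : Z →ᵇ ℂ) : C(Y, ℂ) :=
  ⟨fun y => F (p y) * w y, by
    refine continuous_iff_continuousAt.2 fun y => ?_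
    by_cases hy : w y = 0
    · have h0 : Tendsto w (𝓝 y) (𝓝 0) := hy ▸ w.continuous.tendsto y
      rw [ContinuousAt, hy, mul_zero]
      refine squeeze_zero_norm (fun y' => ?_) (by simpa using h0.norm.const_mul ‖F‖)
      rw [norm_mul]
      gcongr
      exact F.norm_coe_le_norm _
    · exact (F.continuous.continuousAt.comp (hp.continuousAt
        ((isOpen_ne_fun w.continuous continuous_const).mem_nhds hy))).mul
        w.continuous.continuousAt⟩

@[simp] lemma hat_apply (F : Z →ᵇ ℂ) (y : Y) : hat w hp F y = F (p y) * w y := rfl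

lemma norm_hat_le (F : Z →ᵇ ℂ) (ξ : K) : ‖Θ (hat w hp F) ξ‖ ≤ ‖F‖ * ‖Θ w ξ‖ := by
  refine (Θ.norm_apply_mono (g := (‖F‖ : ℂ) • w) (fun y => ?_) ξ).trans ?_
  · simp only [hat_apply, ContinuousMap.smul_apply, smul_eq_mul, norm_mul, Complex.norm_real,
      norm_norm]
    gcongr
    exact F.norm_coe_le_norm _
  · simp [norm_smul]

variable (hw : DenseRange (Θ w))

/-- the operator `T` with `T Θ(w) = Θ((F ∘ p) w)` -/
noncomputable def extOp (F : Z →ᵇ ℂ) : K →L[ℂ] K :=
  (Θ (hat w hp F) : K →ₗ[ℂ] K).extendOfNorm (Θ w : K →ₗ[ℂ] K)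

include hw

lemma extOp_mul (F : Z →ᵇ ℂ) : extOp Θ w hp F * Θ w = Θ (hat w hp F) := by
  ext1 ξ
  exact LinearMap.extendOfNorm_eq hw ⟨‖F‖, norm_hat_le Θ w hp F⟩ ξ

lemma eq_extOp {F : Z →ᵇ ℂ} {T : K →L[ℂ] K} (h : T * Θ w = Θ (hat w hp F)) :
    extOp Θ w hp F = T := eq_of_mul_denseRange hw ((extOp_mul Θ w hp hw F).trans h.symm)

lemma extOp_comm (F : Z →ᵇ ℂ) (f : C(Y, ℂ)) : extOp Θ w hp F * Θ f = Θ f * extOp Θ w hp F := by
  refine mul_cancel_denseRange hw ?_
  rw [mul_assoc, Θ.comm f w, ← mul_assoc, extOp_mul Θ w hp hw, mul_assoc, extOp_mul Θ w hp hw,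
    Θ.comm]

/-- extension of a representation along a weight with dense range -/
noncomputable def ext : BRep Z K where
  toFun := extOp Θ w hp
  map_one' := eq_extOp Θ w hp hw (by rw [one_mul]; congr 1; ext y; simp)
  map_zero' := eq_extOp Θ w hp hw (by
    rw [zero_mul, ← map_zero Θ]; congr 1; ext y; simp)
  map_add' F G := eq_extOp Θ w hp hw (by
    rw [add_mul, extOp_mul Θ w hp hw, extOp_mul Θ w hp hw, ← map_add]
    congr 1; ext y; simp [add_mul])
  map_mul' F G := eq_extOp Θ w hp hw (by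
    refine mul_cancel_denseRange hw ?_
    rw [mul_assoc (extOp Θ w hp F), extOp_mul Θ w hp hw, mul_assoc, Θ.comm, ← mul_assoc,
      extOp_mul Θ w hp hw, ← map_mul, ← map_mul]
    congr 1; ext y; simp; ring)
  commutes' c := eq_extOp Θ w hp hw (by
    rw [Algebra.algebraMap_eq_smul_one, smul_mul_assoc, one_mul, ← map_smul]
    congr 1)
  map_star' F := eq_extOp Θ w hp hw (by
    have h1 : Θ (star w) * star (extOp Θ w hp F) = Θ (star (hat w hp F)) := by
      rw [map_star, map_star, ← star_mul, extOp_mul Θ w hp hw]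
    have h2 : star (extOp Θ w hp F) * Θ (star w) = Θ (star w) * star (extOp Θ w hp F) := by
      rw [map_star, ← star_mul, ← star_mul, extOp_comm Θ w hp hw]
    have hw' : DenseRange (Θ (star w)) := by
      refine denseRange_of_adjoint_inj fun ξ hξ => adjoint_inj_of_denseRange hw ?_
      rw [map_star, star_star] at hξ
      rw [← norm_eq_zero, norm_star_apply_of_normal, hξ, norm_zero]
      rw [← map_star, Θ.comm]
    refine mul_cancel_denseRange hw' ?_
    rw [mul_assoc, Θ.comm w, ← mul_assoc, h2, h1, ← map_mul, ← map_mul]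
    congr 1; ext y; simp; ring)



theorem ext_eq {F : Z →ᵇ ℂ} {T : K →L[ℂ] K} (h : T * Θ w = Θ (hat w hp F)) :
    ext Θ w hp hw F = T := eq_extOp Θ w hp hw h

end ext

end BRep

end Crest.Agent.N111
end

-- ▼ part N111/Stone/Stone
section

/-!
# Row 111: Stone's theorem.
-/

set_option autoImplicit false

namespace Crest.Agent.N111

open Filter Topology BoundedContinuousFunction MeasureTheory Set Complex
open scoped InnerProductSpace

variable {K K' : Type*} [NormedAddCommGroup K] [InnerProductSpace ℂ K] [CompleteSpace K]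
  [NormedAddCommGroup K'] [InnerProductSpace ℂ K'] [CompleteSpace K']

/-- a strongly continuous one-parameter unitary group -/
structure OneParam (u : ℝ → K →L[ℂ] K) : Prop where
  zero : u 0 = 1
  add : ∀ s t, u (s + t) = u s * u t
  norm_map : ∀ t ξ, ‖u t ξ‖ = ‖ξ‖
  cont : ∀ ξ, Continuous fun t => u t ξ

/-- the character `x ↦ exp (i t x)` -/
noncomputable def ech (t : ℝ) : ℝ →ᵇ ℂ :=
  ofNormedAddCommGroup (fun x => cexp (I * ((t * x : ℝ) : ℂ))) (by fun_prop) 1
    fun x => by rw [mul_comm, norm_exp_ofReal_mul_I]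

lemma ech_apply (t x : ℝ) : ech t x = cexp (I * ((t * x : ℝ) : ℂ)) := rfl

lemma norm_ech (t x : ℝ) : ‖ech t x‖ = 1 := by rw [ech_apply, mul_comm, norm_exp_ofReal_mul_I]

lemma ech_add (s t : ℝ) : ech (s + t) = ech s * ech t := by
  ext x
  simp only [ech_apply, BoundedContinuousFunction.coe_mul, Pi.mul_apply, ← Complex.exp_add]
  congr 1; push_cast; ring

@[simp] lemma ech_zero : ech 0 = 1 := by ext x; simp [ech_apply]

lemma star_ech (t : ℝ) : star (ech t) = ech (-t) := by
  ext x
  simp [ech_apply, ← Complex.exp_conj]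

lemma one_sub_I_mul_ne (x : ℝ) : (1 - I * x : ℂ) ≠ 0 := fun h => by
  simpa using congrArg Complex.re h

lemma normSq_one_sub_I_mul (x : ℝ) : ‖(1 - I * x : ℂ)‖ ^ 2 = 1 + x ^ 2 := by
  rw [Complex.sq_norm, Complex.normSq_apply]; simp; ring

/-- the resolvent function `x ↦ (1 - i x)⁻¹` -/
noncomputable def rsv : ℝ →ᵇ ℂ :=
  ofNormedAddCommGroup (fun x => (1 - I * x : ℂ)⁻¹)
    (Continuous.inv₀ (by fun_prop) one_sub_I_mul_ne) 1 fun x => by
      rw [norm_inv]
      refine inv_le_one_of_one_le₀ (le_of_sq_le_sq ?_ (norm_nonneg _))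
      rw [normSq_one_sub_I_mul]; nlinarith [sq_nonneg x]

lemma rsv_apply (x : ℝ) : rsv x = (1 - I * x : ℂ)⁻¹ := rfl

lemma rsv_ne (x : ℝ) : rsv x ≠ 0 := inv_ne_zero (one_sub_I_mul_ne x)

lemma norm_rsv_sq (x : ℝ) : ‖rsv x‖ ^ 2 = (1 + x ^ 2)⁻¹ := by
  rw [rsv_apply, norm_inv, inv_pow, normSq_one_sub_I_mul]

lemma tendsto_rsv : Tendsto rsv (cocompact ℝ) (𝓝 0) := by
  have h1 : Tendsto (fun x : ℝ => (1 + x ^ 2)⁻¹) (cocompact ℝ) (𝓝 0) := by
    refine tendsto_inv_atTop_zero.comp (tendsto_atTop_add_const_left _ _ ?_)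
    simpa [Function.comp_def] using (tendsto_pow_atTop two_ne_zero).comp (tendsto_norm_cocompact_atTop (E := ℝ))
  rw [tendsto_zero_iff_norm_tendsto_zero]
  simpa [← norm_rsv_sq] using h1.sqrt

lemma norm_exp_I_sub_le (y : ℝ) : ‖cexp (I * y) - 1 - I * y‖ ≤ 3 * y ^ 2 := by
  rcases le_total |y| 1 with h | h
  · refine (Complex.norm_exp_sub_one_sub_id_le (by simpa using h)).trans ?_
    simp only [norm_mul, norm_I, one_mul, norm_real, Real.norm_eq_abs, sq_abs]
    nlinarith [sq_nonneg y]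
  · refine (norm_sub_le _ _).trans ((add_le_add (norm_sub_le _ _) le_rfl).trans ?_)
    rw [mul_comm, norm_exp_ofReal_mul_I]
    simp only [norm_mul, norm_I, mul_one, norm_real, Real.norm_eq_abs, norm_one]
    rw [← sq_abs]; nlinarith

lemma hasDerivAt_ech (t : ℝ) :
    HasDerivAt (fun s => ech s * (star rsv * star rsv)) (ech t * (star rsv * (1 - star rsv))) t := by
  rw [hasDerivAt_iff_isLittleO_nhds_zero]
  refine Asymptotics.IsBigO.trans_isLittleO (g := fun h : ℝ => h ^ 2)
    (Asymptotics.IsBigO.of_bound 3 (Eventually.of_forall fun h => ?_))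
    (Asymptotics.isLittleO_pow_id one_lt_two)
  refine (BoundedContinuousFunction.norm_le (by positivity)).2 fun x => ?_
  have e : (ech (t + h) * (star rsv * star rsv) - ech t * (star rsv * star rsv)
      - h • (ech t * (star rsv * (1 - star rsv)))) x
      = ech t x * (cexp (I * (h * x : ℝ)) - 1 - I * (h * x : ℝ)) * star (rsv x * rsv x) := by
    have h1 : star (rsv x) * (1 + I * x) = 1 := by
      have := congrArg star (inv_mul_cancel₀ (one_sub_I_mul_ne x))
      simpa [rsv_apply] using this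
    rw [ech_add]
    simp only [BoundedContinuousFunction.coe_sub, BoundedContinuousFunction.coe_mul,
      BoundedContinuousFunction.coe_smul, Pi.sub_apply, Pi.mul_apply,
      BoundedContinuousFunction.star_apply, BoundedContinuousFunction.coe_one, Pi.one_apply,
      real_smul, ech_apply h, star_mul']
    push_cast
    linear_combination (h * ech t x * star (rsv x)) * h1
  rw [e, norm_mul, norm_mul, norm_ech, one_mul, norm_star, norm_mul, ← sq, norm_rsv_sq,
    Real.norm_of_nonneg (sq_nonneg h), ← div_eq_mul_inv, div_le_iff₀ (by positivity)]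
  refine (norm_exp_I_sub_le _).trans ?_
  nlinarith [sq_nonneg h, sq_nonneg x]

namespace OneParam

variable {u : ℝ → K →L[ℂ] K} (hu : OneParam u)
include hu

omit [CompleteSpace K] in
lemma comm (s t : ℝ) : u s * u t = u t * u s := by rw [← hu.add, add_comm, hu.add]

omit [CompleteSpace K] in
lemma mul_neg (t : ℝ) : u t * u (-t) = 1 := by rw [← hu.add, add_neg_cancel, hu.zero]

omit [CompleteSpace K] in
lemma inner_map_map (t : ℝ) (ξ η : K) : ⟪u t ξ, u t η⟫_ℂ = ⟪ξ, η⟫_ℂ :=
  LinearIsometry.inner_map_map (⟨(u t : K →ₗ[ℂ] K), hu.norm_map t⟩ : K →ₗᵢ[ℂ] K) ξ η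

lemma star_eq (t : ℝ) : star (u t) = u (-t) :=
  ((ContinuousLinearMap.eq_adjoint_iff _ _).2 fun v w => by
    rw [← hu.inner_map_map t, ← mul_apply_eq_comp, hu.mul_neg, one_apply_eq_self]).symm

omit [CompleteSpace K] in
lemma integrableOn (ξ : K) (c : ℝ) : IntegrableOn (fun s => Real.exp (-s) • u s ξ) (Ioi c) := by
  refine Integrable.mono' ((integrableOn_exp_neg_Ioi c).mul_const ‖ξ‖)
    (Continuous.aestronglyMeasurable (by have := hu.cont ξ; fun_prop))
    (Eventually.of_forall fun s => ?_)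
  rw [norm_smul, hu.norm_map, Real.norm_of_nonneg (Real.exp_pos _).le]

/-- the resolvent `∫₀^∞ e^{-s} u_s ds` -/
noncomputable def res : K →L[ℂ] K :=
  LinearMap.mkContinuous
    { toFun := fun ξ => ∫ s in Ioi (0 : ℝ), Real.exp (-s) • u s ξ
      map_add' := fun ξ η => by
        simp only [map_add, smul_add]
        exact integral_add (hu.integrableOn ξ 0) (hu.integrableOn η 0)
      map_smul' := fun c ξ => by
        simp only [map_smul, RingHom.id_apply, ← integral_smul, smul_comm c] } 1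
    fun ξ => by
      refine (norm_integral_le_of_norm_le ((integrableOn_exp_neg_Ioi 0).mul_const ‖ξ‖)
        (Eventually.of_forall fun s => ?_)).trans ?_
      · rw [norm_smul, hu.norm_map, Real.norm_of_nonneg (Real.exp_pos _).le]
      · rw [integral_mul_const, integral_exp_neg_Ioi_zero]

omit [CompleteSpace K] in
lemma res_apply (ξ : K) : hu.res ξ = ∫ s in Ioi (0 : ℝ), Real.exp (-s) • u s ξ := rfl

lemma intertwine_res {u' : ℝ → K' →L[ℂ] K'} (hu' : OneParam u') {T : K →L[ℂ] K'}
    (h : ∀ t, T ∘L u t = u' t ∘L T) : T ∘L hu.res = hu'.res ∘L T := by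
  ext1 ξ
  simp only [ContinuousLinearMap.comp_apply, res_apply]
  rw [← T.integral_comp_comm (hu.integrableOn ξ 0)]
  refine integral_congr_ae (Eventually.of_forall fun s => ?_)
  simp only [T.map_smul_of_tower]
  exact congrArg (fun A : K →L[ℂ] K' => Real.exp (-s) • A ξ) (h s)

lemma comm_res {T : K →L[ℂ] K} (h : ∀ t, T * u t = u t * T) : T * hu.res = hu.res * T :=
  hu.intertwine_res hu h

lemma u_res (t : ℝ) : u t * hu.res = hu.res * u t := hu.comm_res (hu.comm t)

lemma star_res_comm {T : K →L[ℂ] K} (h : ∀ t, T * u t = u t * T) :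
    T * star hu.res = star hu.res * T := by
  have := hu.comm_res (T := star T) fun t => by
    have := congrArg star (h (-t))
    rwa [star_mul, star_mul, hu.star_eq, neg_neg, eq_comm] at this
  have := congrArg star this
  rwa [star_mul, star_mul, star_star, eq_comm] at this

lemma res_normal : star hu.res * hu.res = hu.res * star hu.res :=
  hu.comm_res fun t => (hu.star_res_comm (hu.comm t)).symm

lemma hasDerivAt (ξ : K) (t : ℝ) :
    HasDerivAt (fun s => u s (hu.res ξ)) (u t (hu.res ξ) - u t ξ) t := by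
  have hc : Continuous fun s => Real.exp (-s) • u s ξ := by have := hu.cont ξ; fun_prop
  have e : ∀ t, u t (hu.res ξ)
      = Real.exp t • (hu.res ξ - ∫ s in (0 : ℝ)..t, Real.exp (-s) • u s ξ) := fun t => by
    have h1 := intervalIntegral.integral_interval_add_Ioi' (hc.intervalIntegrable 0 t)
      (hu.integrableOn ξ t)
    have h2 := (measurePreserving_add_right volume t).setIntegral_preimage_emb
      (measurableEmbedding_addRight t) (fun s => Real.exp (-s) • u s ξ) (Ioi t)
    rw [preimage_add_const_Ioi, sub_self] at h2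
    rw [res_apply, ← (u t).integral_comp_comm (hu.integrableOn ξ 0), ← h1, add_sub_cancel_left,
      ← h2, ← integral_smul]
    refine integral_congr_ae (Eventually.of_forall fun s => ?_)
    simp only [(u t).map_smul_of_tower, smul_smul, ← Real.exp_add]
    rw [add_comm s t, hu.add, mul_apply_eq_comp]
    congr 2; ring
  have h := (Real.hasDerivAt_exp t).smul
    ((hc.integral_hasStrictDerivAt 0 t).hasDerivAt.const_sub (hu.res ξ))
  convert h using 1
  · ext1 s; exact e s
  · rw [← e, smul_neg, smul_smul, ← Real.exp_add]; simp [sub_eq_neg_add]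

lemma res_inj {ξ : K} (h : hu.res ξ = 0) : ξ = 0 := by
  have h1 := hu.hasDerivAt ξ 0
  simp only [h, map_zero, hu.zero, one_apply_eq_self, zero_sub] at h1
  exact neg_eq_zero.1 (h1.unique (hasDerivAt_const _ _))

lemma denseRange_res : DenseRange hu.res :=
  denseRange_of_adjoint_inj fun ξ hξ => hu.res_inj (by
    rw [← norm_eq_zero, ← norm_star_apply_of_normal hu.res_normal, hξ, norm_zero])

lemma res_quad : star hu.res * hu.res + star hu.res * hu.res = star hu.res + hu.res := by
  ext1 ξ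
  refine ext_inner_left ℂ fun η => ?_
  have h := (hu.hasDerivAt η 0).inner ℂ (hu.hasDerivAt ξ 0)
  simp only [hu.inner_map_map, hu.zero, one_apply_eq_self] at h
  have h1 := h.unique (hasDerivAt_const _ _)
  simp only [_root_.add_apply, mul_apply_eq_comp, inner_add_right,
    ContinuousLinearMap.star_eq_adjoint, ContinuousLinearMap.adjoint_inner_right]
  rw [inner_sub_left, inner_sub_right] at h1
  linear_combination h1

end OneParam

/-- the inverse of `rsv` -/
noncomputable def rinv (z : ℂ) : ℝ := z.im / normSq z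

lemma continuousOn_rinv : ContinuousOn rinv {z | z ≠ 0} :=
  continuous_im.continuousOn.div continuous_normSq.continuousOn fun _ hz => mt normSq_eq_zero.1 hz

lemma rsv_rinv {z : ℂ} (hz : z ≠ 0) (h : star z * z + star z * z = star z + z) :
    rsv (rinv z) = z := by
  have h1 : normSq z = z.re := by
    have := congrArg Complex.re h
    simp only [add_re, mul_re, star_def, conj_re, conj_im] at this
    rw [normSq_apply]; linarith
  have h2 : normSq z ≠ 0 := mt normSq_eq_zero.1 hz
  rw [rsv_apply]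
  refine inv_eq_of_mul_eq_one_left (Complex.ext ?_ ?_)
  · simp [rinv]; field_simp; rw [normSq_apply] at h1 ⊢; nlinarith
  · simp [rinv]; rw [← h1]; field_simp; ring

lemma rinv_rsv (x : ℝ) : rinv (rsv x) = x := by
  have h : normSq (1 - I * x) ≠ 0 := mt normSq_eq_zero.1 (one_sub_I_mul_ne x)
  simp [rinv, rsv_apply]; field_simp


/-- **Stone's theorem.** -/
theorem OneParam.exists_brep {u : ℝ → K →L[ℂ] K} (hu : OneParam u) :
    ∃ θ : BRep ℝ K, θ.Nondeg ∧ ∀ t, θ (ech t) = u t := by
  have hn : IsStarNormal hu.res := ⟨hu.res_normal⟩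
  let Θ : MOI.Rep (spectrum ℂ hu.res) (K →L[ℂ] K) := cfcHom hn
  let w : C(spectrum ℂ hu.res, ℂ) := (ContinuousMap.id ℂ).restrict _
  have hw0 : Θ w = hu.res := cfcHom_id hn
  have hw : DenseRange (Θ w) := by rw [hw0]; exact hu.denseRange_res
  have hp : ContinuousOn (fun z : spectrum ℂ hu.res => rinv z) {y | w y ≠ 0} :=
    continuousOn_rinv.comp continuous_subtype_val.continuousOn fun _ h => h
  have hq : star w * w + star w * w = star w + w :=
    cfcHom_injective hn (by
      change Θ _ = Θ _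
      simp only [map_add, map_mul, map_star, hw0, hu.res_quad])
  let θ := BRep.ext Θ w hp hw
  have hr : θ rsv = hu.res := BRep.ext_eq Θ w hp hw (by
    refine (congrArg (· * Θ w) hw0.symm).trans ((map_mul Θ w w).symm.trans ?_)
    congr 1
    ext y
    by_cases hy : w y = 0
    · simp [hy]
    · exact congrArg (· * w y) (rsv_rinv hy (DFunLike.congr_fun hq y)).symm)
  refine ⟨θ, ⟨rsv, tendsto_rsv, hr ▸ hu.denseRange_res⟩, fun t => ?_⟩
  set R := hu.res with hR
  have hadj : ∀ (F : ℝ →ᵇ ℂ) (η ζ : K), ⟪θ (star F) η, ζ⟫_ℂ = ⟪η, θ F ζ⟫_ℂ := fun F η ζ => by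
    rw [map_star, ContinuousLinearMap.star_eq_adjoint, ContinuousLinearMap.adjoint_inner_left]
  have key : θ (ech (-t)) * R * R * u t * R = R * R * R := by
    ext1 ξ
    refine ext_inner_left ℂ fun η => ?_
    let L : (ℝ →ᵇ ℂ) →L[ℝ] K := ((ContinuousLinearMap.apply ℂ K η) ∘L θ.clm).restrictScalars ℝ
    have hd : ∀ s, HasDerivAt (fun s => ⟪θ (ech s * (star rsv * star rsv)) η, u s (R ξ)⟫_ℂ) 0 s := by
      intro s
      have h := (L.hasFDerivAt.comp_hasDerivAt s (hasDerivAt_ech s)).inner ℂ (hu.hasDerivAt ξ s)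
      refine h.congr_deriv (Eq.symm ?_)
      have e1 : ech s * (star rsv * star rsv) = star (ech (-s) * rsv * rsv) := by
        simp only [star_mul', star_ech, neg_neg, mul_assoc]
      have e2 : ech s * (star rsv * (1 - star rsv)) = star (ech (-s) * rsv * (1 - rsv)) := by
        simp only [star_mul', star_ech, neg_neg, mul_assoc, star_sub, star_one]
      change 0 = ⟪θ (ech s * (star rsv * star rsv)) η, _⟫_ℂ
        + ⟪θ (ech s * (star rsv * (1 - star rsv))) η, _⟫_ℂ
      have e3 : u s (R ξ) = R (u s ξ) := congrArg (fun A : K →L[ℂ] K => A ξ) (hu.u_res s)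
      rw [e1, e2, hadj, hadj, ← inner_add_right, e3]
      simp only [map_mul, map_sub, map_one, hr, mul_apply_eq_comp, _root_.sub_apply,
        one_apply_eq_self, sub_add_sub_cancel, sub_self, inner_zero_right]
    have h := is_const_of_deriv_eq_zero (fun s => (hd s).differentiableAt)
      (fun s => (hd s).deriv) t 0
    have e1 : ∀ s, ech s * (star rsv * star rsv) = star (ech (-s) * rsv * rsv) := fun s => by
      simp only [star_mul', star_ech, neg_neg, mul_assoc]
    simp only [e1, hadj] at h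
    simp only [map_mul, hr, neg_zero, ech_zero, hu.zero, one_mul] at h
    exact h
  have hd := hu.denseRange_res
  refine mul_cancel_denseRange hd (mul_cancel_denseRange hd (mul_cancel_denseRange hd ?_))
  rw [← hR, mul_assoc, mul_assoc, ← mul_assoc R, ← key]
  simp only [← mul_assoc]
  rw [← map_mul, ← ech_add, add_neg_cancel, ech_zero, map_one, one_mul, hu.u_res t,
    mul_assoc R (u t), hu.u_res t, ← mul_assoc]

/-- the spectral resolution of a one-parameter group -/
noncomputable def OneParam.θ {u : ℝ → K →L[ℂ] K} (hu : OneParam u) : BRep ℝ K :=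
  hu.exists_brep.choose

theorem OneParam.nondeg {u : ℝ → K →L[ℂ] K} (hu : OneParam u) : hu.θ.Nondeg :=
  hu.exists_brep.choose_spec.1

theorem OneParam.θ_ech {u : ℝ → K →L[ℂ] K} (hu : OneParam u) (t : ℝ) : hu.θ (ech t) = u t :=
  hu.exists_brep.choose_spec.2 t




section joint

variable {Y : Type} [TopologicalSpace Y] [CompactSpace Y] [T2Space Y]

/-- **Joint spectral resolution** of a representation of `C(Y)` and a commuting one-parameter
group. -/
theorem BRep.exists_joint (Φ : MOI.Rep Y (K →L[ℂ] K)) {θ : BRep ℝ K} (h : θ.Nondeg)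
    (hc : ∀ f F, Commute (Φ f) (θ F)) :
    ∃ J : BRep (Y × ℝ) K, J.Nondeg ∧ J.toRep .fst = Φ ∧ J.map .snd = θ := by
  let r : C(ℝ, Metric.closedBall (0 : ℂ) ‖rsv‖) :=
    ⟨fun x => ⟨rsv x, mem_closedBall_zero_iff.2 (rsv.norm_coe_le_norm x)⟩, by fun_prop⟩
  let Θ := Φ.joint (θ.toRep r) fun f g => hc f _
  let i : C(Metric.closedBall (0 : ℂ) ‖rsv‖, ℂ) := (ContinuousMap.id ℂ).restrict _
  let w : C(Y × Metric.closedBall (0 : ℂ) ‖rsv‖, ℂ) := i.comp .snd
  have hw0 : Θ w = θ rsv := MOI.Rep.joint_snd _ _ _ i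
  have hw : DenseRange (Θ w) := hw0 ▸ h.denseRange rsv_ne
  have hp0 : ContinuousOn (fun z : Metric.closedBall (0 : ℂ) ‖rsv‖ => rinv z) {y | i y ≠ 0} :=
    continuousOn_rinv.comp continuous_subtype_val.continuousOn fun _ h => h
  have hp : ContinuousOn (fun y : Y × Metric.closedBall (0 : ℂ) ‖rsv‖ => (y.1, rinv y.2))
      {y | w y ≠ 0} :=
    continuousOn_fst.prodMk (hp0.comp continuousOn_snd fun _ h => h)
  have h2 : (BRep.ext Θ w hp hw).map .snd = θ := by
    ext1 F
    refine BRep.ext_eq Θ w hp hw ?_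
    have e : BRep.hat w hp (F.compContinuous .snd) = (BRep.hat i hp0 F).comp .snd := rfl
    change _ = Θ (BRep.hat w hp (F.compContinuous .snd))
    rw [hw0, e, ← map_mul]
    refine Eq.trans ?_ (MOI.Rep.joint_snd _ _ _ _).symm
    rw [BRep.toRep_apply]
    congr 1
    ext x
    change F x * rsv x = F (rinv (rsv x)) * rsv x
    rw [rinv_rsv]
  refine ⟨BRep.ext Θ w hp hw, ⟨rsv.compContinuous .snd, ?_, ?_⟩, ?_, h2⟩
  · refine tendsto_rsv.comp ?_
    exact (isProperMap_iff_tendsto_cocompact.1 isProperMap_snd_of_compactSpace).2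
  · rw [← BRep.map_apply, h2]; exact h.denseRange rsv_ne
  · ext1 f
    refine BRep.ext_eq Θ w hp hw ?_
    rw [← MOI.Rep.joint_fst Φ (θ.toRep r) (fun f g => hc f _) f, ← map_mul]
    rfl

end joint

end Crest.Agent.N111
end

-- ▼ part N111/Lib/POVM3

/-! # Row 111: existence of POVMs (Riesz-Markov, joint, Stone). -/

set_option autoImplicit false
set_option linter.unusedSectionVars false
set_option linter.unusedVariables false

namespace Crest.Agent.N111

open MeasureTheory Topology Filter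
open scoped InnerProductSpace

variable {Y Z K : Type} [MeasurableSpace Y] [MeasurableSpace Z] [NormedAddCommGroup K]
  [InnerProductSpace ℂ K] [CompleteSpace K]

namespace POVM

open scoped CompactlySupported in
lemma exists_riesz {Z : Type} [MetricSpace Z] [CompactSpace Z] [MeasurableSpace Z]
    [BorelSpace Z] (L : C(Z, ℂ) →ₗ[ℂ] ℂ)
    (hpos : ∀ f : C(Z, ℂ), (∀ z, 0 ≤ (f z).re ∧ (f z).im = 0) → 0 ≤ (L f).re ∧ (L f).im = 0) :
    ∃ ν : Measure Z, IsFiniteMeasure ν ∧ ∀ f : C(Z, ℂ), L f = ∫ z, f z ∂ν := by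
  let c : C(Z, ℝ) → C(Z, ℂ) := fun u => ⟨fun z => (u z : ℂ), by fun_prop⟩
  have hp : ∀ u : C(Z, ℝ), (∀ z, 0 ≤ u z) → 0 ≤ (L (c u)).re ∧ (L (c u)).im = 0 := fun u hu =>
    hpos _ fun z => ⟨hu z, Complex.ofReal_im _⟩
  have cs : ∀ u w : C(Z, ℝ), c (u - w) = c u - c w := fun u w => by ext z; simp [c]
  let Λ : C_c(Z, ℝ) →ₚ[ℝ] ℝ :=
    { toFun := fun u => (L (c u.toContinuousMap)).re
      map_add' := fun u w => by
        rw [← Complex.add_re, ← map_add]; congr 2; ext z; simp [c]
      map_smul' := fun a u => by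
        rw [RingHom.id_apply, smul_eq_mul, ← Complex.re_ofReal_mul, ← smul_eq_mul, ← map_smul]
        congr 2; ext z; simp [c]
      monotone' := fun u w h => by
        have := (hp (w.toContinuousMap - u.toContinuousMap) fun z => sub_nonneg.2 (h z)).1
        rw [cs, map_sub, Complex.sub_re] at this
        exact sub_nonneg.1 this }
  have hr : ∀ u : C(Z, ℝ), L (c u) = ∫ z, (u z : ℂ) ∂(RealRMK.rieszMeasure Λ) := fun u => by
    have h1 := RealRMK.integral_rieszMeasure Λ ⟨u, HasCompactSupport.of_compactSpace _⟩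
    rw [integral_complex_ofReal]
    refine Complex.ext h1.symm ?_
    have h2 : u = (u + ContinuousMap.const Z ‖u‖) - ContinuousMap.const Z ‖u‖ := by abel
    rw [Complex.ofReal_im, h2, cs, map_sub, Complex.sub_im, (hp _ fun z => ?_).2,
      (hp _ fun z => norm_nonneg u).2, sub_zero]
    have := u.norm_coe_le_norm z
    have := neg_abs_le (u z)
    rw [Real.norm_eq_abs] at *
    simp only [ContinuousMap.add_apply, ContinuousMap.const_apply]
    linarith
  refine ⟨RealRMK.rieszMeasure Λ, inferInstance, fun f => ?_⟩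
  let u : C(Z, ℝ) := ⟨fun z => (f z).re, by fun_prop⟩
  let w : C(Z, ℝ) := ⟨fun z => (f z).im, by fun_prop⟩
  have e : f = c u + Complex.I • c w := by
    ext z
    simp only [c, u, w, ContinuousMap.add_apply, ContinuousMap.smul_apply, ContinuousMap.coe_mk,
      smul_eq_mul]
    rw [mul_comm, Complex.re_add_im]
  conv_lhs => rw [e, map_add, map_smul, hr, hr, smul_eq_mul, ← integral_const_mul]
  refine (integral_add ((BM.of_cm (c u)).integrable _)
    (((BM.of_cm (c w)).const_mul Complex.I).integrable _)).symm.trans ?_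
  exact integral_congr_ae (Eventually.of_forall fun z => (DFunLike.congr_fun e z).symm)

/-- Riesz-Markov -/
theorem exists_of_pos {Z : Type} [MetricSpace Z] [CompactSpace Z] [MeasurableSpace Z]
    [BorelSpace Z] (Λ : C(Z, ℂ) →ₗ[ℂ] (K →L[ℂ] K))
    (hpos : ∀ (f : C(Z, ℂ)) (η : K), (∀ z, 0 ≤ (f z).re ∧ (f z).im = 0) → 0 ≤ (⟪η, Λ f η⟫_ℂ).re ∧
      (⟪η, Λ f η⟫_ℂ).im = 0) (h1 : Λ 1 = 1) :
    ∃ P : POVM Z K, ∀ f : C(Z, ℂ), P.E f = Λ f := by
  choose ν hfin hν using fun η : K => exists_riesz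
    (((innerSL ℂ η).comp (ContinuousLinearMap.apply ℂ K η)).toLinearMap.comp Λ)
    fun f hf => hpos f η hf
  replace hν : ∀ η (f : C(Z, ℂ)), ⟪η, Λ f η⟫_ℂ = ∫ z, f z ∂ν η := hν
  have hm : ∀ η, (ν η).real Set.univ = ‖η‖ ^ 2 := fun η => by
    have := hν η 1
    rw [h1, one_apply_eq_self, inner_self_eq_norm_sq_to_K] at this
    simp only [ContinuousMap.one_apply, integral_const, Complex.real_smul, mul_one] at this
    exact Complex.ofReal_injective (by rw [← this]; simp)
  have hp : MClass fun f : Z → ℂ => ∃ T : K →L[ℂ] K, ∀ η, ⟪η, T η⟫_ℂ = ∫ z, f z ∂ν η :=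
    { add := by
        rintro f g hf hg ⟨S, hS⟩ ⟨T, hT⟩
        exact ⟨S + T, fun η => by
          rw [_root_.add_apply, inner_add_right, hS, hT,
            integral_add (hf.integrable _) (hg.integrable _)]⟩
      smul := by
        rintro c f hf ⟨S, hS⟩
        exact ⟨c • S, fun η => by
          rw [_root_.smul_apply, inner_smul_right, hS, integral_const_mul]⟩
      lim := fun f g C hf hC hl hT => by
        choose T hT using hT
        have hb : ∀ n, ‖T n‖ ≤ 4 * max C 0 := fun n =>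
          norm_le_of_inner (le_max_right _ _) fun η => by
            rw [hT, ← hm]
            exact norm_integral_le_of_norm_le_const
              (Eventually.of_forall fun z => (hC n z).trans (le_max_left _ _))
        obtain ⟨S, -, hS⟩ := exists_wtends (Ultrafilter.of atTop) (Eventually.of_forall hb)
        refine ⟨S, fun η => tendsto_nhds_unique (hS η η) ?_⟩
        simp only [hT]
        exact (tendsto_integral_of_dominated_convergence (fun _ => C)
          (fun n => (hf n).aestronglyMeasurable) (integrable_const _)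
          (fun n => Eventually.of_forall (hC n)) (Eventually.of_forall hl)).mono_left
          (Ultrafilter.of_le _) }
  have key : ∀ f : Z → ℂ, ∃ T : K →L[ℂ] K, BM f → ∀ η, ⟪η, T η⟫_ℂ = ∫ z, f z ∂ν η := fun f => by
    by_cases hf : BM f
    · exact (hp.of_cm (fun f => ⟨Λ f, fun η => hν η f⟩) hf).imp fun T hT _ => hT
    · exact ⟨0, fun h => (hf h).elim⟩
  choose E hE using key
  have hc : ∀ f : C(Z, ℂ), E f = Λ f := fun f =>
    op_ext fun η => by rw [hE f (BM.of_cm f), hν]
  exact ⟨⟨E, ν, hfin, hE, (hc 1).trans h1⟩, hc⟩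

theorem isPVM_of_cont [PseudoMetricSpace Y] [BorelSpace Y] (P : POVM Y K)
    (h : ∀ f g, Continuous f → BM f → Continuous g → BM g →
      P.E (fun y => f y * g y) = P.E f * P.E g) : P.IsPVM := by
  have h1 : ∀ f, Continuous f → BM f → ∀ g, BM g →
      P.E (fun y => f y * g y) = P.E f * P.E g * 1 := fun f hf hb =>
    (P.isPoly1.comp measurable_id hb).ext_cont (P.isPoly1.mul (P.E f) 1) fun g hg hg' => by
      rw [mul_one]; exact h f g hf hb hg hg'
  intro f g hf hg
  have := (P.isPoly1.comp measurable_id hg).ext_cont (P.isPoly1.mul 1 (P.E g))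
    (fun f hf hb => by
      rw [one_mul, ← mul_one (_ * _), ← h1 f hf hb g hg]; simp only [id, mul_comm]) f hf
  simpa only [id, one_mul, mul_comm (g _)] using this

section rep

variable {X : Type} [MetricSpace X] [CompactSpace X] [MeasurableSpace X] [BorelSpace X]

/-- the PVM of a representation of `C(X)` -/
theorem exists_of_rep (Θ : MOI.Rep X (K →L[ℂ] K)) :
    ∃ P : POVM X K, P.IsPVM ∧ ∀ f : C(X, ℂ), P.E f = Θ f := by
  obtain ⟨P, hP⟩ := exists_of_pos (Θ.toAlgHom.toLinearMap) (fun f η hf => by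
    let g : C(X, ℂ) := ⟨fun z => ((√(f z).re : ℝ) : ℂ), by fun_prop⟩
    have e : f = star g * g := by
      ext z
      change f z = star ((√(f z).re : ℝ) : ℂ) * ((√(f z).re : ℝ) : ℂ)
      rw [Complex.star_def, Complex.conj_ofReal, ← Complex.ofReal_mul, Real.mul_self_sqrt (hf z).1]
      exact Complex.ext rfl (hf z).2
    have e2 : ⟪η, Θ f η⟫_ℂ = ((‖Θ g η‖ ^ 2 : ℝ) : ℂ) := by
      rw [e, map_mul, map_star, mul_apply_eq_comp, ContinuousLinearMap.star_eq_adjoint,
        ContinuousLinearMap.adjoint_inner_right, inner_self_eq_norm_sq_to_K]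
      norm_cast
    change 0 ≤ (⟪η, Θ f η⟫_ℂ).re ∧ (⟪η, Θ f η⟫_ℂ).im = 0
    rw [e2]
    exact ⟨sq_nonneg _, Complex.ofReal_im _⟩) (map_one Θ)
  replace hP : ∀ f : C(X, ℂ), P.E f = Θ f := hP
  exact ⟨P, P.isPVM_of_cont fun f g hf _ hg _ => (hP (⟨f, hf⟩ * ⟨g, hg⟩)).trans
    ((map_mul Θ _ _).trans (congrArg₂ (· * ·) (hP ⟨f, hf⟩).symm (hP ⟨g, hg⟩).symm)), hP⟩

/-- the representation of `C(X)` of a PVM -/
noncomputable def IsPVM.rep {P : POVM X K} (hP : P.IsPVM) : MOI.Rep X (K →L[ℂ] K) where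
  toFun f := P.E f
  map_one' := P.E_one
  map_mul' f g := hP f g (BM.of_cm f) (BM.of_cm g)
  map_zero' := P.E_zero
  map_add' f g := P.E_add (BM.of_cm f) (BM.of_cm g)
  commutes' c := (P.E_const c).trans (Algebra.algebraMap_eq_smul_one c).symm
  map_star' f := (P.E_star (BM.of_cm f)).symm

/-- a marginal is determined by the continuous functions -/
theorem E_comp_of_cont {W : Type} [MeasurableSpace W] (J : POVM W K) (P : POVM X K) {φ : W → X}
    (hφ : Measurable φ) (h : ∀ f : C(X, ℂ), J.E (fun z => f (φ z)) = P.E f) (f : X → ℂ)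
    (hf : BM f) : J.E (fun z => f (φ z)) = P.E f :=
  (J.map φ hφ).isPoly1.ext_cont P.isPoly1 (fun f hf _ => h ⟨f, hf⟩) f hf

end rep

lemma subsingleton_of_isEmpty [IsEmpty Y] (P : POVM Y K) : Subsingleton (K →L[ℂ] K) :=
  subsingleton_of_zero_eq_one (by
    rw [← P.E_zero, ← P.E_one]; congr 1; exact Subsingleton.elim _ _)

/-- the trivial POVM on the zero space -/
noncomputable def triv (Y K : Type) [MeasurableSpace Y] [NormedAddCommGroup K]
    [InnerProductSpace ℂ K] [Subsingleton (K →L[ℂ] K)] : POVM Y K where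
  E _ := 0
  ν _ := 0
  fin _ := inferInstance
  inner_E _ _ _ := by simp
  E_one := Subsingleton.elim _ _

lemma exists_retract (Y : Type) [MeasurableSpace Y] [StandardBorelSpace Y] [Nonempty Y] :
    ∃ (e : Y → unitInterval) (r : unitInterval → Y), Measurable e ∧ Measurable r ∧
      ∀ y, r (e y) = y :=
  have h := measurableEmbedding_sigmoid_comp_embeddingReal Y
  ⟨_, h.invFun, h.measurable, h.measurable_invFun, h.leftInverse_invFun⟩

/-- the joint PVM of two commuting PVMs -/
theorem exists_joint [StandardBorelSpace Y] [StandardBorelSpace Z] {P : POVM Y K} {Q : POVM Z K}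
    (hP : P.IsPVM) (hQ : Q.IsPVM) (h : ∀ f g, BM f → BM g → Commute (P.E f) (Q.E g)) :
    ∃ J : POVM (Y × Z) K, J.IsPVM ∧
      ∀ f g, BM f → BM g → J.E (fun z => f z.1 * g z.2) = P.E f * Q.E g := by
  rcases subsingleton_or_nontrivial (K →L[ℂ] K) with _ | hn
  · exact ⟨triv _ K, fun _ _ _ _ => Subsingleton.elim _ _, fun _ _ _ _ => Subsingleton.elim _ _⟩
  have : Nonempty Y := not_isEmpty_iff.1 fun _ => not_subsingleton _ P.subsingleton_of_isEmpty
  have : Nonempty Z := not_isEmpty_iff.1 fun _ => not_subsingleton _ Q.subsingleton_of_isEmpty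
  obtain ⟨e, r, he, hr, hre⟩ := exists_retract Y
  obtain ⟨e', r', he', hr', hre'⟩ := exists_retract Z
  have hc : ∀ f g, Commute ((hP.map e he).rep f) ((hQ.map e' he').rep g) := fun f g =>
    h _ _ ((BM.of_cm f).comp he) ((BM.of_cm g).comp he')
  obtain ⟨J, hJ, hE⟩ := exists_of_rep (MOI.Rep.joint _ _ hc)
  have h1 := J.E_comp_of_cont (P.map e he) measurable_fst fun f =>
    (hE (f.comp .fst)).trans (MOI.Rep.joint_fst _ _ hc f)
  have h2 := J.E_comp_of_cont (Q.map e' he') measurable_snd fun f =>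
    (hE (f.comp .snd)).trans (MOI.Rep.joint_snd _ _ hc f)
  refine ⟨J.map (Prod.map r r') (hr.prodMap hr'), hJ.map _ _, fun f g hf hg => ?_⟩
  refine (hJ _ _ ((hf.comp hr).comp measurable_fst) ((hg.comp hr').comp measurable_snd)).trans ?_
  rw [h1 _ (hf.comp hr), h2 _ (hg.comp hr')]
  simp only [map_E, hre, hre']

theorem IsPVM.E_prod {P : POVM Y K} (hP : P.IsPVM) {n : ℕ} (f : Fin n → Y → ℂ)
    (hf : ∀ i, BM (f i)) : P.E (fun y => ∏ i, f i y) = (List.ofFn fun i => P.E (f i)).prod := by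
  induction n with
  | zero => simpa using P.E_one
  | succ n ih =>
    simp only [Fin.prod_univ_succ, List.ofFn_succ, List.prod_cons]
    rw [hP _ _ (hf 0) (BM.prod _ fun i _ => hf i.succ), ih _ fun i => hf i.succ]

theorem exists_joint_fin [StandardBorelSpace Y] {n : ℕ} {P : Fin n → POVM Y K}
    (hP : ∀ i, (P i).IsPVM) (h : ∀ i k f g, BM f → BM g → Commute ((P i).E f) ((P k).E g)) :
    ∃ J : POVM (Fin n → Y) K, J.IsPVM ∧
      ∀ f : Fin n → Y → ℂ, (∀ i, BM (f i)) → J.E (fun z => ∏ i, f i (z i)) = word P f := by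
  rcases subsingleton_or_nontrivial (K →L[ℂ] K) with _ | hn
  · exact ⟨triv _ K, fun _ _ _ _ => Subsingleton.elim _ _, fun _ _ => Subsingleton.elim _ _⟩
  choose e r he hr hre using fun i : Fin n => @exists_retract Y _ _
    (not_isEmpty_iff.1 fun _ => not_subsingleton _ (P i).subsingleton_of_isEmpty)
  obtain ⟨Θ, hΘ⟩ := MOI.exists_joint (fun i => ((hP i).map (e i) (he i)).rep) fun i k f g =>
    h i k _ _ ((BM.of_cm f).comp (he i)) ((BM.of_cm g).comp (he k))
  obtain ⟨J, hJ, hE⟩ := exists_of_rep Θ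
  have h1 := fun i => J.E_comp_of_cont ((P i).map (e i) (he i)) (measurable_pi_apply i) fun f =>
    (hE (f.comp (MOI.ev i))).trans (DFunLike.congr_fun (hΘ i) f)
  refine ⟨J.map (fun z i => r i (z i)) (measurable_pi_lambda _ fun i =>
    (hr i).comp (measurable_pi_apply i)), hJ.map _ _, fun f hf => ?_⟩
  refine (hJ.E_prod (fun i z => f i (r i (z i))) fun i =>
    ((hf i).comp (hr i)).comp (measurable_pi_apply i)).trans ?_
  rw [word]
  congr 2
  funext i
  rw [h1 i _ ((hf i).comp (hr i))]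
  simp only [map_E, hre]

/-- the PVM of a non-degenerate representation of `C_b(ℝ)` -/
theorem exists_of_brep {θ : BRep ℝ K} (h : θ.Nondeg) :
    ∃ P : POVM ℝ K, P.IsPVM ∧ ∀ F : BoundedContinuousFunction ℝ ℂ, P.E F = θ F := by
  let r : C(ℝ, Metric.closedBall (0 : ℂ) ‖rsv‖) :=
    ⟨fun x => ⟨rsv x, mem_closedBall_zero_iff.2 (rsv.norm_coe_le_norm x)⟩, by fun_prop⟩
  let i : C(Metric.closedBall (0 : ℂ) ‖rsv‖, ℂ) := (ContinuousMap.id ℂ).restrict _
  have hp : ContinuousOn (fun z : Metric.closedBall (0 : ℂ) ‖rsv‖ => rinv z) {y | i y ≠ 0} :=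
    continuousOn_rinv.comp continuous_subtype_val.continuousOn fun _ h => h
  have hm : Measurable fun z : Metric.closedBall (0 : ℂ) ‖rsv‖ => rinv z :=
    (Complex.continuous_im.measurable.div Complex.continuous_normSq.measurable).comp
      measurable_subtype_coe
  obtain ⟨J, hJ, hE⟩ := exists_of_rep (θ.toRep r)
  refine ⟨J.map _ hm, hJ.map _ _, fun F => mul_cancel_denseRange (h.denseRange rsv_ne) ?_⟩
  have h1 : J.E i = θ rsv := hE i
  rw [← map_mul, ← h1, map_E, ← hJ _ _ ((BM.of_bcf F).comp hm) (BM.of_cm i)]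
  refine (hE (BRep.hat i hp F)).trans ?_
  rw [BRep.toRep_apply]
  congr 1
  ext x
  change F (rinv (rsv x)) * rsv x = F x * rsv x
  rw [rinv_rsv]

/-- Stone's theorem -/
theorem stone (v : ℝ → K →L[ℂ] K) (h0 : v 0 = 1) (hadd : ∀ s t, v (s + t) = v s * v t)
    (hn : ∀ t η, ‖v t η‖ = ‖η‖) (hc : ∀ η, Continuous fun t => v t η) :
    ∃ P : POVM ℝ K, P.IsPVM ∧ ∀ t : ℝ, P.E (fun l => ex (t * l)) = v t := by
  have hu : OneParam v := ⟨h0, hadd, hn, hc⟩
  obtain ⟨P, hP, hE⟩ := exists_of_brep hu.nondeg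
  exact ⟨P, hP, fun t => (hE (ech t)).trans (hu.θ_ech t)⟩

end POVM

end Crest.Agent.N111
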