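import Crest.Agent.N111.Lib.POVM2
import Crest.Agent.N111.Lib.MClass
import Crest.Agent.N111.Lib.BM
import Crest.Agent.N111.Grp.ICC
import Crest.Agent.N111.Lib.Geo
import Crest.Agent.N111.Lib.POVM3
import Crest.Agent.N111.Lib.Geo2
import Crest.Agent.N111.Stmts

-- ▼ part N111/Lib/Poly
section

/-! # Row 111: polymeasures, supports, strong integrals, and the well-definedness of multiple
operator integrals (API; fill the proofs IN PLACE). -/

set_option autoImplicit false
set_option linter.unusedSectionVars false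
set_option linter.unusedVariables false

namespace Crest.Agent.N111

open MeasureTheory Topology Filter
open scoped InnerProductSpace

variable {Y K κ : Type} [MeasurableSpace Y] [NormedAddCommGroup K] [InnerProductSpace ℂ K]
  [CompleteSpace K] [Fintype κ] [DecidableEq κ]

/-! ### strong integrals -/
section sInt
variable {Ω : Type} [TopologicalSpace Ω] [SecondCountableTopology Ω] [MeasurableSpace Ω]
  [OpensMeasurableSpace Ω] {m : Measure Ω} {c : Ω → ℂ} {F : Ω → K →L[ℂ] K}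

theorem SCont.mul {F F' : Ω → K →L[ℂ] K} (h : SCont F) (h' : SCont F') :
    SCont fun ω => F ω * F' ω := by
  obtain ⟨C, hC⟩ := h.2
  obtain ⟨C', hC'⟩ := h'.2
  refine ⟨fun η => continuous_iff_continuousAt.2 fun ω₀ => ?_, max C 0 * C', fun ω => ?_⟩
  · have h1 : Tendsto (fun ω => F ω (F' ω η - F' ω₀ η)) (𝓝 ω₀) (𝓝 0) := by
      have h2 : Tendsto (fun ω => C * ‖F' ω η - F' ω₀ η‖) (𝓝 ω₀) (𝓝 0) := by
        simpa using (tendsto_iff_norm_sub_tendsto_zero.1 ((h'.1 η).tendsto ω₀)).const_mul C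
      refine squeeze_zero_norm (fun ω => ?_) h2
      exact ((F ω).le_opNorm _).trans (mul_le_mul_of_nonneg_right (hC ω) (norm_nonneg _))
    have h3 := h1.add ((h.1 (F' ω₀ η)).tendsto ω₀)
    simpa [ContinuousAt] using h3
  · exact (norm_mul_le _ _).trans (mul_le_mul ((hC ω).trans (le_max_left _ _)) (hC' ω)
      (norm_nonneg _) (le_max_right _ _))
theorem SCont.const (T : K →L[ℂ] K) : SCont fun _ : Ω => T := ⟨fun _ => continuous_const, ‖T‖, fun _ => le_rfl⟩
theorem SCont.integrable (hF : SCont F) (hc : Integrable c m) (η : K) :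
    Integrable (fun ω => c ω • F ω η) m := by
  obtain ⟨C, hC⟩ := hF.2
  refine Integrable.mono' (hc.norm.mul_const (C * ‖η‖))
    (hc.aestronglyMeasurable.smul (hF.1 η).aestronglyMeasurable) (Eventually.of_forall fun ω => ?_)
  rw [norm_smul]
  exact mul_le_mul_of_nonneg_left (((F ω).le_opNorm _).trans
    (mul_le_mul_of_nonneg_right (hC ω) (norm_nonneg _))) (norm_nonneg _)
theorem sInt_apply (hc : Integrable c m) (hF : SCont F) (η : K) :
    sInt m c F η = ∫ ω, c ω • F ω η ∂m := by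
  have hex : ∃ T : K →L[ℂ] K, ∀ η, T η = ∫ ω, c ω • F ω η ∂m := by
    obtain ⟨C, hC⟩ := hF.2
    let L : K →ₗ[ℂ] K :=
      { toFun := fun η => ∫ ω, c ω • F ω η ∂m
        map_add' := fun x y => by
          rw [← integral_add (hF.integrable hc x) (hF.integrable hc y)]
          simp [smul_add]
        map_smul' := fun a x => by
          rw [RingHom.id_apply, ← integral_smul]
          simp [smul_comm a] }
    refine ⟨L.mkContinuous ((∫ ω, ‖c ω‖ ∂m) * C) fun η => ?_, fun η => rfl⟩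
    refine (norm_integral_le_of_norm_le (hc.norm.mul_const (C * ‖η‖))
      (Eventually.of_forall fun ω => ?_)).trans (le_of_eq ?_)
    · rw [norm_smul]
      exact mul_le_mul_of_nonneg_left (((F ω).le_opNorm _).trans
        (mul_le_mul_of_nonneg_right (hC ω) (norm_nonneg _))) (norm_nonneg _)
    · rw [integral_mul_const, mul_assoc]
  rw [sInt, dif_pos hex]
  exact hex.choose_spec η
theorem inner_sInt (hc : Integrable c m) (hF : SCont F) (ζ η : K) :
    ⟪ζ, sInt m c F η⟫_ℂ = ∫ ω, c ω * ⟪ζ, F ω η⟫_ℂ ∂m := by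
  rw [sInt_apply hc hF, ← integral_inner (hF.integrable hc η)]
  simp [inner_smul_right]
theorem norm_sInt_le (hc : Integrable c m) (hF : SCont F) {C : ℝ} (hC : 0 ≤ C)
    (h : ∀ ω, ‖F ω‖ ≤ C) : ‖sInt m c F‖ ≤ (∫ ω, ‖c ω‖ ∂m) * C := by
  refine ContinuousLinearMap.opNorm_le_bound _
    (mul_nonneg (integral_nonneg fun ω => norm_nonneg _) hC) fun η => ?_
  rw [sInt_apply hc hF]
  refine (norm_integral_le_of_norm_le (hc.norm.mul_const (C * ‖η‖))
    (Eventually.of_forall fun ω => ?_)).trans (le_of_eq ?_)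
  · rw [norm_smul]
    exact mul_le_mul_of_nonneg_left (((F ω).le_opNorm _).trans
      (mul_le_mul_of_nonneg_right (h ω) (norm_nonneg _))) (norm_nonneg _)
  · rw [integral_mul_const, mul_assoc]
theorem norm_sInt_le' (hc : Integrable c m) (hF : SCont F) {b : Ω → ℝ}
    (hb : Integrable (fun ω => ‖c ω‖ * b ω) m) (h : ∀ ω, ‖F ω‖ ≤ b ω) :
    ‖sInt m c F‖ ≤ ∫ ω, ‖c ω‖ * b ω ∂m := by
  refine ContinuousLinearMap.opNorm_le_bound _
    (integral_nonneg fun ω => mul_nonneg (norm_nonneg _) ((norm_nonneg _).trans (h ω))) fun η => ?_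
  rw [sInt_apply hc hF]
  refine (norm_integral_le_of_norm_le (hb.mul_const ‖η‖)
    (Eventually.of_forall fun ω => ?_)).trans (le_of_eq ?_)
  · rw [norm_smul, mul_assoc]
    exact mul_le_mul_of_nonneg_left (((F ω).le_opNorm _).trans
      (mul_le_mul_of_nonneg_right (h ω) (norm_nonneg _))) (norm_nonneg _)
  · rw [integral_mul_const]
theorem mul_sInt (hc : Integrable c m) (hF : SCont F) (S : K →L[ℂ] K) :
    S * sInt m c F = sInt m c fun ω => S * F ω := by
  ext η
  rw [sInt_apply hc ((SCont.const S).mul hF)]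
  change S (sInt m c F η) = _
  rw [sInt_apply hc hF, ← S.integral_comp_comm (hF.integrable hc η)]
  simp
theorem sInt_mul (hc : Integrable c m) (hF : SCont F) (S : K →L[ℂ] K) :
    sInt m c F * S = sInt m c fun ω => F ω * S := by
  ext η
  rw [sInt_apply hc (hF.mul (SCont.const S))]
  change sInt m c F (S η) = _
  rw [sInt_apply hc hF]
  simp
theorem sInt_sub (hc : Integrable c m) {F' : Ω → K →L[ℂ] K} (hF : SCont F) (hF' : SCont F') :
    sInt m c (fun ω => F ω - F' ω) = sInt m c F - sInt m c F' := by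
  have hs : SCont fun ω => F ω - F' ω := by
    obtain ⟨C, hC⟩ := hF.2
    obtain ⟨C', hC'⟩ := hF'.2
    exact ⟨fun η => (hF.1 η).sub (hF'.1 η), C + C', fun ω =>
      (norm_sub_le _ _).trans (add_le_add (hC ω) (hC' ω))⟩
  ext η
  rw [sub_apply, sInt_apply hc hs, sInt_apply hc hF, sInt_apply hc hF',
    ← integral_sub (hF.integrable hc η) (hF'.integrable hc η)]
  simp [smul_sub]
theorem sInt_add_left {c' : Ω → ℂ} (hc : Integrable c m) (hc' : Integrable c' m) (hF : SCont F) :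
    sInt m (fun ω => c ω + c' ω) F = sInt m c F + sInt m c' F := by
  ext η
  rw [add_apply, sInt_apply (c := fun ω => c ω + c' ω) (hc.add hc') hF,
    sInt_apply hc hF, sInt_apply hc' hF, ← integral_add (hF.integrable hc η) (hF.integrable hc' η)]
  simp [add_smul]
theorem sInt_smul_left (z : ℂ) (hc : Integrable c m) (hF : SCont F) :
    sInt m (fun ω => z * c ω) F = z • sInt m c F := by
  ext η
  rw [smul_apply, sInt_apply (hc.const_mul z) hF, sInt_apply hc hF,
    ← integral_smul]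
  simp [mul_smul]
theorem sInt_const (hc : Integrable c m) (T : K →L[ℂ] K) :
    sInt m c (fun _ => T) = (∫ ω, c ω ∂m) • T := by
  ext η
  rw [sInt_apply hc (SCont.const T), integral_smul_const]
  rfl
theorem commute_sInt (hc : Integrable c m) (hF : SCont F) {S : K →L[ℂ] K}
    (h : ∀ ω, Commute S (F ω)) : Commute S (sInt m c F) := by
  rw [Commute, SemiconjBy, mul_sInt hc hF, sInt_mul hc hF]
  congr 1
  funext ω
  exact h ω

theorem Py.sCont_add {F F' : Ω → K →L[ℂ] K} (hF : SCont F) (hF' : SCont F') :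
    SCont fun ω => F ω + F' ω := by
  obtain ⟨C, hC⟩ := hF.2
  obtain ⟨C', hC'⟩ := hF'.2
  exact ⟨fun η => (hF.1 η).add (hF'.1 η), C + C', fun ω =>
    (norm_add_le _ _).trans (add_le_add (hC ω) (hC' ω))⟩

theorem Py.sCont_smul (z : ℂ) (hF : SCont F) : SCont fun ω => z • F ω := by
  obtain ⟨C, hC⟩ := hF.2
  exact ⟨fun η => (hF.1 η).const_smul z, ‖z‖ * C, fun ω => by
    rw [norm_smul]; exact mul_le_mul_of_nonneg_left (hC ω) (norm_nonneg _)⟩

theorem Py.sInt_add (hc : Integrable c m) {F' : Ω → K →L[ℂ] K} (hF : SCont F) (hF' : SCont F') :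
    sInt m c (fun ω => F ω + F' ω) = sInt m c F + sInt m c F' := by
  ext η
  rw [add_apply, sInt_apply hc (Py.sCont_add hF hF'), sInt_apply hc hF,
    sInt_apply hc hF', ← integral_add (hF.integrable hc η) (hF'.integrable hc η)]
  simp [smul_add]

theorem Py.sInt_smul (hc : Integrable c m) (hF : SCont F) (z : ℂ) :
    sInt m c (fun ω => z • F ω) = z • sInt m c F := by
  ext η
  rw [smul_apply, sInt_apply hc (Py.sCont_smul z hF), sInt_apply hc hF,
    ← integral_smul]
  simp [smul_comm z]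

end sInt

/-! ### polymeasures -/

@[simp] theorem word_two (P Q : POVM Y K) (f : Fin 2 → Y → ℂ) :
    word ![P, Q] f = P.E (f 0) * Q.E (f 1) := by simp [word, List.ofFn_succ]
@[simp] theorem word_three (P Q R : POVM Y K) (f : Fin 3 → Y → ℂ) :
    word ![P, Q, R] f = P.E (f 0) * Q.E (f 1) * R.E (f 2) := by
  simp [word, List.ofFn_succ, mul_assoc]
@[simp] theorem word_four (P Q R S : POVM Y K) (f : Fin 4 → Y → ℂ) :
    word ![P, Q, R, S] f = P.E (f 0) * Q.E (f 1) * R.E (f 2) * S.E (f 3) := by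
  simp [word, List.ofFn_succ, mul_assoc]
@[simp] theorem word_five (P Q R S T : POVM Y K) (f : Fin 5 → Y → ℂ) :
    word ![P, Q, R, S, T] f = P.E (f 0) * Q.E (f 1) * R.E (f 2) * S.E (f 3) * T.E (f 4) := by
  simp [word, List.ofFn_succ, mul_assoc]

namespace Py

/-- the bounded measurable functions as a submodule -/
def BMs (Y : Type) [MeasurableSpace Y] : Submodule ℂ (Y → ℂ) where
  carrier := {f | BM f}
  add_mem' hf hg := BM.add hf hg
  zero_mem' := BM.const 0
  smul_mem' c _ hf := BM.const_mul c hf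

theorem coe_update (f : κ → BMs Y) (i : κ) (g : BMs Y) :
    (fun k => ((Function.update f i g k : BMs Y) : Y → ℂ))
      = Function.update (fun k => (f k : Y → ℂ)) i g := by
  funext k
  rcases eq_or_ne k i with rfl | h
  · simp
  · simp [h]

/-- a polymeasure as a multilinear map -/
noncomputable def ml {κ : Type} [Fintype κ] [d₀ : DecidableEq κ] {W : (κ → Y → ℂ) → K →L[ℂ] K}
    (h : IsPoly W) :
    MultilinearMap ℂ (fun _ : κ => BMs Y) (K →L[ℂ] K) where
  toFun f := W fun k => f k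
  map_update_add' := by
    intro d f i g g'
    obtain rfl : d = d₀ := Subsingleton.elim _ _
    simp only [coe_update]
    exact h.add _ i g g' (fun k => (f k).2) g.2 g'.2
  map_update_smul' := by
    intro d f i c g
    obtain rfl : d = d₀ := Subsingleton.elim _ _
    simp only [coe_update]
    exact h.smul _ i c g (fun k => (f k).2) g.2

theorem smul_univ {W : (κ → Y → ℂ) → K →L[ℂ] K} (h : IsPoly W) {f : κ → Y → ℂ}
    (hf : ∀ k, BM (f k)) (a : κ → ℂ) : W (fun k y => a k * f k y) = (∏ k, a k) • W f :=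
  (ml h).map_smul_univ a fun k => ⟨f k, hf k⟩

theorem bound_pi {f : κ → Y → ℂ} (hf : ∀ k, BM (f k)) : ∃ C, 0 ≤ C ∧ ∀ k y, ‖f k y‖ ≤ C := by
  choose C hC0 hC using fun k => (hf k).exists_nonneg
  exact ⟨∑ k, C k, Finset.sum_nonneg fun k _ => hC0 k, fun k y =>
    (hC k y).trans (Finset.single_le_sum (fun k _ => hC0 k) (Finset.mem_univ k))⟩

theorem norm_le {W : (κ → Y → ℂ) → K →L[ℂ] K} (h : IsPoly W) :
    ∃ C : ℝ, 0 ≤ C ∧ ∀ (f : κ → Y → ℂ) (b : κ → ℝ),
    (∀ k, Measurable (f k)) → (∀ k, 0 ≤ b k) → (∀ k y, ‖f k y‖ ≤ b k) →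
    ‖W f‖ ≤ C * ∏ k, b k := by
  obtain ⟨C, hC⟩ := h.bdd
  refine ⟨max C 0, le_max_right _ _, fun f b hm hb hf => ?_⟩
  have h1 : ∀ k y, ‖f k y / (b k : ℂ)‖ ≤ 1 := fun k y => by
    rw [norm_div, Complex.norm_real, Real.norm_of_nonneg (hb k)]
    exact div_le_one_of_le₀ (hf k y) (hb k)
  have h2 : f = fun k y => (b k : ℂ) * (f k y / (b k : ℂ)) := by
    funext k y
    rcases eq_or_ne (b k) 0 with h0 | h0
    · have := hf k y
      rw [h0] at this
      simp [h0, norm_le_zero_iff.1 this]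
    · field_simp [Complex.ofReal_ne_zero.2 h0]
  have hm' : ∀ k, Measurable fun y => f k y / (b k : ℂ) := fun k => (hm k).div_const _
  rw [h2, smul_univ h (fun k => ⟨hm' k, 1, h1 k⟩), norm_smul, mul_comm, norm_prod]
  refine mul_le_mul ((hC _ hm' h1).trans (le_max_left _ _)) (le_of_eq ?_)
    (Finset.prod_nonneg fun k _ => norm_nonneg _) (le_max_right _ _)
  exact Finset.prod_congr rfl fun k _ => by rw [Complex.norm_real, Real.norm_of_nonneg (hb k)]

theorem tendsto_mul {A B : ℕ → K →L[ℂ] K} {A₀ B₀ : K →L[ℂ] K} {C : ℝ} (hC : ∀ n, ‖A n‖ ≤ C)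
    (hA : ∀ η, Tendsto (fun n => A n η) atTop (𝓝 (A₀ η)))
    (hB : ∀ η, Tendsto (fun n => B n η) atTop (𝓝 (B₀ η))) (η : K) :
    Tendsto (fun n => (A n * B n) η) atTop (𝓝 ((A₀ * B₀) η)) := by
  have h1 : Tendsto (fun n => A n (B n η - B₀ η)) atTop (𝓝 0) := by
    have h2 : Tendsto (fun n => C * ‖B n η - B₀ η‖) atTop (𝓝 0) := by
      simpa using (tendsto_iff_norm_sub_tendsto_zero.1 (hB η)).const_mul C
    refine squeeze_zero_norm (fun n => ?_) h2
    exact ((A n).le_opNorm _).trans (mul_le_mul_of_nonneg_right (hC n) (norm_nonneg _))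
  simpa using h1.add (hA (B₀ η))

theorem isPoly_const {κ : Type} [Fintype κ] [DecidableEq κ] [IsEmpty κ] (T : K →L[ℂ] K) :
    IsPoly fun _ : κ → Y → ℂ => T where
  add _ i := isEmptyElim i
  smul _ i := isEmptyElim i
  bdd := ⟨‖T‖, fun _ _ _ => le_rfl⟩
  lim _ _ _ _ _ _ _ := tendsto_const_nhds

theorem isPoly_cons {n : ℕ} (P : POVM Y K) {W : (Fin n → Y → ℂ) → K →L[ℂ] K} (h : IsPoly W) :
    IsPoly fun f : Fin (n + 1) → Y → ℂ => P.E (f 0) * W (Fin.tail f) where
  add f i g g' hf hg hg' := by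
    refine Fin.cases ?_ (fun j => ?_) i
    · simp only [Fin.tail_update_zero, Function.update_self]
      rw [P.E_add hg hg', add_mul]
    · simp only [Fin.tail_update_succ, Function.update_of_ne (Fin.succ_ne_zero j).symm]
      rw [h.add (Fin.tail f) j g g' (fun k => hf k.succ) hg hg', mul_add]
  smul f i c g hf hg := by
    refine Fin.cases ?_ (fun j => ?_) i
    · simp only [Fin.tail_update_zero, Function.update_self]
      rw [P.E_smul c hg, smul_mul_assoc]
    · simp only [Fin.tail_update_succ, Function.update_of_ne (Fin.succ_ne_zero j).symm]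
      rw [h.smul (Fin.tail f) j c g (fun k => hf k.succ) hg, mul_smul_comm]
  bdd := by
    obtain ⟨C, hC⟩ := h.bdd
    refine ⟨1 * C, fun f hm hf => (norm_mul_le _ _).trans (mul_le_mul
      (P.norm_E_le (hm 0) zero_le_one (hf 0)) (hC _ (fun k => hm k.succ) fun k => hf k.succ)
      (norm_nonneg _) zero_le_one)⟩
  lim f g C hm hC hl η :=
    tendsto_mul (C := max C 0)
      (fun n => P.norm_E_le (hm n 0) (le_max_right _ _) fun y => (hC n 0 y).trans (le_max_left _ _))
      (P.tendsto_E (fun n => hm n 0) (fun n => hC n 0) (hl 0))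
      (h.lim (fun n => Fin.tail (f n)) (Fin.tail g) C (fun n k => hm n k.succ)
        (fun n k => hC n k.succ) fun k => hl k.succ) η

theorem mul {W : (κ → Y → ℂ) → K →L[ℂ] K} (h : IsPoly W) (S T : K →L[ℂ] K) :
    IsPoly fun f => S * W f * T where
  add f i g g' hf hg hg' := by rw [h.add f i g g' hf hg hg', mul_add, add_mul]
  smul f i c g hf hg := by rw [h.smul f i c g hf hg, mul_smul_comm, smul_mul_assoc]
  bdd := by
    obtain ⟨C, hC⟩ := h.bdd
    exact ⟨‖S‖ * C * ‖T‖, fun f hm hf => (norm_mul_le _ _).trans (mul_le_mul_of_nonneg_right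
      ((norm_mul_le _ _).trans (mul_le_mul_of_nonneg_left (hC f hm hf) (norm_nonneg _)))
      (norm_nonneg _))⟩
  lim f g C hm hC hl η := (S.continuous.tendsto _).comp (h.lim f g C hm hC hl (T η))

theorem update_mul {Z : Type} (φ : κ → Y → Z) (u : κ → Y → ℂ) (f : κ → Z → ℂ) (i : κ)
    (g : Z → ℂ) : (fun k y => u k y * Function.update f i g k (φ k y))
      = Function.update (fun k y => u k y * f k (φ k y)) i fun y => u i y * g (φ i y) := by
  funext k
  rcases eq_or_ne k i with rfl | h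
  · simp
  · simp [h]

end Py

theorem isPoly_word {n : ℕ} (P : Fin n → POVM Y K) : IsPoly (word P) := by
  induction n with
  | zero => exact Py.isPoly_const (Y := Y) (κ := Fin 0) (1 : K →L[ℂ] K)
  | succ n ih =>
    have e : word P = fun f => (P 0).E (f 0) * word (Fin.tail P) (Fin.tail f) := by
      funext f
      simp [word, List.ofFn_succ, Fin.tail]
    rw [e]
    exact Py.isPoly_cons (P 0) (ih (Fin.tail P))
/-- two slots with a fixed operator in the middle -/
theorem isPoly_two (P Q : POVM Y K) (T : K →L[ℂ] K) :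
    IsPoly fun f : Fin 2 → Y → ℂ => P.E (f 0) * T * Q.E (f 1) := by
  have := Py.isPoly_cons P (Py.mul (isPoly_word ![Q]) T 1)
  simpa [word, Fin.tail, mul_assoc] using this
theorem isPoly_three (P Q R : POVM Y K) (S T : K →L[ℂ] K) :
    IsPoly fun f : Fin 3 → Y → ℂ => P.E (f 0) * S * Q.E (f 1) * T * R.E (f 2) := by
  have := Py.isPoly_cons P (Py.mul (isPoly_two Q R T) S 1)
  simpa [Fin.tail, mul_assoc] using this

variable {W W' : (κ → Y → ℂ) → K →L[ℂ] K}

theorem IsPoly.mul (h : IsPoly W) (S T : K →L[ℂ] K) : IsPoly fun f => S * W f * T := Py.mul h S T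
theorem IsPoly.sub (h : IsPoly W) (h' : IsPoly W') : IsPoly fun f => W f - W' f := by
  refine ⟨fun f i g g' hf hg hg' => ?_, fun f i c g hf hg => ?_, ?_, fun f g C hm hC hl η => ?_⟩
  · rw [h.add f i g g' hf hg hg', h'.add f i g g' hf hg hg']; abel
  · rw [h.smul f i c g hf hg, h'.smul f i c g hf hg, smul_sub]
  · obtain ⟨C, hC⟩ := h.bdd
    obtain ⟨C', hC'⟩ := h'.bdd
    exact ⟨C + C', fun f hm hf => (norm_sub_le _ _).trans (add_le_add (hC f hm hf) (hC' f hm hf))⟩
  · exact (h.lim f g C hm hC hl η).sub (h'.lim f g C hm hC hl η)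
/-- multiply every slot by a fixed function and change variables -/
theorem IsPoly.comp {Z : Type} [MeasurableSpace Z] (h : IsPoly W) {φ : κ → Y → Z}
    (hφ : ∀ k, Measurable (φ k)) {u : κ → Y → ℂ} (hu : ∀ k, BM (u k)) :
    IsPoly fun f : κ → Z → ℂ => W fun k y => u k y * f k (φ k y) := by
  obtain ⟨B, hB0, hB⟩ := Py.bound_pi hu
  refine ⟨fun f i g g' hf hg hg' => ?_, fun f i c g hf hg => ?_, ?_, fun f g C hm hC hl η => ?_⟩
  · simp only [Py.update_mul, mul_add]
    exact h.add _ i _ _ (fun k => (hu k).mul ((hf k).comp (hφ k))) ((hu i).mul (hg.comp (hφ i)))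
      ((hu i).mul (hg'.comp (hφ i)))
  · simp only [Py.update_mul, mul_left_comm _ c]
    exact h.smul _ i c _ (fun k => (hu k).mul ((hf k).comp (hφ k))) ((hu i).mul (hg.comp (hφ i)))
  · obtain ⟨C, -, hC⟩ := Py.norm_le h
    refine ⟨C * ∏ _k : κ, B, fun f hm hf => hC _ _ (fun k => (hu k).1.mul ((hm k).comp (hφ k)))
      (fun _ => hB0) fun k y => ?_⟩
    rw [norm_mul]
    exact (mul_le_of_le_one_right (norm_nonneg _) (hf k _)).trans (hB k y)
  · refine h.lim (fun n k y => u k y * f n k (φ k y)) _ (B * C)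
      (fun n k => (hu k).1.mul ((hm n k).comp (hφ k))) (fun n k y => ?_)
      (fun k y => (hl k _).const_mul _) η
    rw [norm_mul]
    exact mul_le_mul (hB k y) (hC n k _) (norm_nonneg _) hB0
theorem IsPoly.norm_le (h : IsPoly W) : ∃ C : ℝ, 0 ≤ C ∧ ∀ (f : κ → Y → ℂ) (b : κ → ℝ),
    (∀ k, Measurable (f k)) → (∀ k, 0 ≤ b k) → (∀ k y, ‖f k y‖ ≤ b k) →
    ‖W f‖ ≤ C * ∏ k, b k := Py.norm_le h
theorem IsPoly.isPoly1 (h : IsPoly W) {f : κ → Y → ℂ} (hf : ∀ k, BM (f k)) (i : κ) :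
    IsPoly1 fun g => W (Function.update f i g) := by
  obtain ⟨B, hB0, hB⟩ := Py.bound_pi hf
  refine ⟨fun g g' hg hg' => h.add f i g g' hf hg hg', fun c g hg => h.smul f i c g hf hg,
    fun g g₀ C hm hC hl η => h.lim (fun n => Function.update f i (g n)) _ (max B C)
      (fun n k => ?_) (fun n k y => ?_) (fun k y => ?_) η⟩
  · exact (BM.update hf i ⟨hm n, C, hC n⟩ k).1
  · rcases eq_or_ne k i with rfl | hk
    · simpa using Or.inr (hC n y)
    · simpa [hk] using Or.inl (hB k y)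
  · rcases eq_or_ne k i with rfl | hk
    · simpa using hl y
    · simp [hk]
theorem IsPoly.map_sum (h : IsPoly W) {α : Type} [DecidableEq α] (s : κ → Finset α)
    {f : κ → α → Y → ℂ} (hf : ∀ k a, BM (f k a)) :
    W (fun k y => ∑ a ∈ s k, f k a y) = ∑ r ∈ Fintype.piFinset s, W fun k => f k (r k) := by
  have := (Py.ml h).map_sum_finset (fun k a => (⟨f k a, hf k a⟩ : Py.BMs Y)) s
  refine Eq.trans ?_ this
  change W _ = W _
  congr 1
  funext k y
  simp
theorem IsPoly.sCont {Ω : Type} [TopologicalSpace Ω] [FirstCountableTopology Ω] (h : IsPoly W)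
    {φ : Ω → κ → Y → ℂ} (hm : ∀ ω k, Measurable (φ ω k)) {C : ℝ} (hb : ∀ ω k y, ‖φ ω k y‖ ≤ C)
    (hc : ∀ k y, Continuous fun ω => φ ω k y) : SCont fun ω => W (φ ω) := by
  obtain ⟨B, -, hB⟩ := h.norm_le
  refine ⟨fun η => continuous_iff_seqContinuous.2 fun x p hx => ?_, B * ∏ _k : κ, max C 0,
    fun ω => hB _ _ (hm ω) (fun _ => le_max_right _ _) fun k y =>
      (hb ω k y).trans (le_max_left _ _)⟩
  exact h.lim (fun n => φ (x n)) (φ p) C (fun n => hm _) (fun n => hb _)
    (fun k y => ((hc k y).tendsto p).comp hx) η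

theorem NullOn.mono {O O' : κ → Set Y} (h : NullOn W O) (hO : ∀ k, O' k ⊆ O k) : NullOn W O' :=
  fun f hf h0 => h f hf fun k y hy => h0 k y fun hy' => hy (hO k hy')

end Crest.Agent.N111
end

-- ▼ part N111/Lib/Poly2
section

/-! # Row 111: polymeasures, supports, strong integrals, and the well-definedness of multiple
operator integrals (API; fill the proofs IN PLACE). -/

set_option autoImplicit false
set_option linter.unusedSectionVars false
set_option linter.unusedVariables false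

namespace Crest.Agent.N111

open MeasureTheory Topology Filter
open scoped InnerProductSpace

variable {Y K κ : Type} [MeasurableSpace Y] [NormedAddCommGroup K] [InnerProductSpace ℂ K]
  [CompleteSpace K] [Fintype κ] [DecidableEq κ]

variable {W W' : (κ → Y → ℂ) → K →L[ℂ] K}

theorem IsPoly.eq_zero_of_slot (h : IsPoly W) {f : κ → Y → ℂ} (hf : ∀ k, BM (f k)) {i : κ}
    (h0 : ∀ y, f i y = 0) : W f = 0 := by
  have h1 := h.smul f i 0 (f i) hf (hf i)
  have h2 : (fun y => 0 * f i y) = f i := funext fun y => by rw [zero_mul, h0]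
  rwa [h2, Function.update_eq_self, zero_smul] at h1

theorem IsPoly.map_smul_finset (h : IsPoly W) {f : κ → Y → ℂ} (hf : ∀ k, BM (f k)) (a : κ → ℂ)
    (s : Finset κ) :
    W (fun k y => (if k ∈ s then a k else 1) * f k y) = (∏ k ∈ s, a k) • W f := by
  induction s using Finset.induction_on with
  | empty => simp
  | insert i s hi ih =>
    have h1 := h.smul (fun k y => (if k ∈ s then a k else 1) * f k y) i (a i) (f i)
      (fun k => (hf k).const_mul _) (hf i)
    have h2 : Function.update (fun k y => (if k ∈ s then a k else 1) * f k y) i (f i)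
        = fun k y => (if k ∈ s then a k else 1) * f k y := by
      refine Function.update_eq_iff.2 ⟨?_, fun _ _ => rfl⟩
      funext y; simp [hi]
    rw [h2, ih] at h1
    rw [Finset.prod_insert hi, mul_smul, ← h1]
    congr 1
    refine (Function.update_eq_iff.2 ⟨?_, fun k hk => ?_⟩).symm
    · funext y; simp
    · funext y; simp [hk]

theorem IsPoly.map_smul_univ (h : IsPoly W) {f : κ → Y → ℂ} (hf : ∀ k, BM (f k)) (a : κ → ℂ) :
    W (fun k y => a k * f k y) = (∏ k, a k) • W f := by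
  simpa using h.map_smul_finset hf a Finset.univ

theorem exists_bound_pi {f : κ → Y → ℂ} (hf : ∀ k, BM (f k)) :
    ∃ C, 0 ≤ C ∧ ∀ k y, ‖f k y‖ ≤ C := by
  choose C hC0 hC using fun k => (hf k).exists_nonneg
  exact ⟨∑ k, C k, Finset.sum_nonneg fun k _ => hC0 k, fun k y =>
    (hC k y).trans (Finset.single_le_sum (fun k _ => hC0 k) (Finset.mem_univ k))⟩

section top
variable [MetricSpace Y] [ProperSpace Y] [BorelSpace Y]

/-- a measurable quantisation of a compact set -/
theorem exists_quant {L : Set Y} (hL : IsCompact L) {δ : ℝ} (hδ : 0 < δ) :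
    ∃ (t : Finset Y) (q : Y → Y), Measurable q ∧ (↑t : Set Y) ⊆ L ∧
      ∀ y ∈ L, q y ∈ t ∧ dist (q y) y < δ := by
  classical
  rcases L.eq_empty_or_nonempty with rfl | ⟨y₀, hy₀⟩
  · exact ⟨∅, id, measurable_id, by simp, by simp⟩
  obtain ⟨t, htL, ht, hc⟩ := finite_cover_balls_of_compact hL hδ
  let l := ht.toFinset.toList
  let e : ℕ → Y := fun n => l.getD n y₀
  have he : ∀ n, e n ∈ insert y₀ ht.toFinset := fun n => by
    by_cases hn : n < l.length
    · refine Finset.mem_insert_of_mem (Finset.mem_toList.1 ?_)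
      simp only [e, List.getD_eq_getElem _ _ hn]
      exact List.getElem_mem hn
    · simp only [e, List.getD_eq_default _ _ (not_lt.1 hn)]
      exact Finset.mem_insert_self _ _
  refine ⟨insert y₀ ht.toFinset, SimpleFunc.nearestPt e l.length, SimpleFunc.measurable _, ?_,
    fun y hy => ⟨he _, ?_⟩⟩
  · intro a ha
    rcases Finset.mem_insert.1 (Finset.mem_coe.1 ha) with rfl | ha
    exacts [hy₀, htL (ht.mem_toFinset.1 ha)]
  · obtain ⟨a, ha, hya⟩ := Set.mem_iUnion₂.1 (hc hy)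
    obtain ⟨n, hn, hna⟩ := List.getElem_of_mem (Finset.mem_toList.2 (ht.mem_toFinset.2 ha) : a ∈ l)
    have h1 := SimpleFunc.edist_nearestPt_le e y hn.le
    have h2 : e n = a := (List.getD_eq_getElem _ _ hn).trans hna
    rw [h2, edist_dist, edist_dist, ENNReal.ofReal_le_ofReal_iff dist_nonneg] at h1
    exact h1.trans_lt (by rwa [Metric.mem_ball, dist_comm] at hya)

theorem exists_mono_compact {O : Set Y} (h : IsSigmaCompact O) :
    ∃ L : ℕ → Set Y, (∀ n, IsCompact (L n)) ∧ (∀ n, L n ⊆ O) ∧ ∀ y ∈ O, ∀ᶠ n in atTop, y ∈ L n := by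
  obtain ⟨L, hL, rfl⟩ := h
  refine ⟨Set.accumulate L, isCompact_accumulate hL, fun n => Set.accumulate_subset_iUnion n,
    fun y hy => ?_⟩
  obtain ⟨n, hn⟩ := Set.mem_iUnion.1 hy
  exact (eventually_ge_atTop n).mono fun m hm => Set.subset_accumulate.trans
    (Set.monotone_accumulate hm) hn

theorem exists_null_ball {S : Set (κ → Y)} (hS : IsCompact S) (hd : ∀ z ∈ S, z ∉ supp W) :
    ∃ δ > (0 : ℝ), ∀ z ∈ S, NullOn W fun k => Metric.ball (z k) δ := by
  have h1 : ∀ z : S, ∃ O : κ → Set Y, (∀ k, O k ∈ 𝓝 (z.1 k)) ∧ NullOn W O := fun z => by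
    have := hd z z.2
    simp only [supp, Set.mem_ofPred_eq, not_forall, not_not] at this
    obtain ⟨O, h1, h2⟩ := this
    exact ⟨O, h1, h2⟩
  choose O hO hN using h1
  obtain ⟨δ, hδ, h2⟩ := lebesgue_number_lemma_of_metric
    (c := fun z : S => interior (Set.pi Set.univ (O z))) hS (fun _ => isOpen_interior)
    fun z hz => Set.mem_iUnion.2 ⟨⟨z, hz⟩, mem_interior_iff_mem_nhds.2
      (set_pi_mem_nhds Set.finite_univ fun k _ => hO ⟨z, hz⟩ k)⟩
  refine ⟨δ, hδ, fun z hz => ?_⟩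
  obtain ⟨z', h3⟩ := h2 z hz
  have h4 := h3.trans interior_subset
  rw [ball_pi _ hδ, Set.univ_pi_subset_univ_pi_iff] at h4
  rcases h4 with h4 | ⟨k, hk⟩
  · exact (hN z').mono h4
  · exact absurd hk (Metric.nonempty_ball.2 hδ).ne_empty

/-- expansion along the cells of quantisations -/
theorem IsPoly.expand (h : IsPoly W) {L : κ → Set Y} (hL : ∀ k, MeasurableSet (L k))
    {t : κ → Finset Y} {q : κ → Y → Y} (hq : ∀ k, Measurable (q k))
    (ht : ∀ k, ∀ y ∈ L k, q k y ∈ t k) (g : κ → Y → ℂ) {f : κ → Y → ℂ} (hf : ∀ k, BM (f k)) :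
    W (fun k y => ic (L k) y * g k (q k y) * f k y) = ∑ r ∈ Fintype.piFinset t,
      (∏ k, g k (r k)) • W fun k y => ic (L k ∩ q k ⁻¹' {r k}) y * f k y := by
  classical
  have hb : ∀ k a, BM fun y => ic (L k ∩ q k ⁻¹' {a}) y * f k y := fun k a =>
    (BM.ic ((hL k).inter (hq k (measurableSet_singleton a)))).mul (hf k)
  have h1 := h.map_sum t (f := fun k a y => g k a * (ic (L k ∩ q k ⁻¹' {a}) y * f k y))
    fun k a => (hb k a).const_mul _
  simp only [fun r : κ → Y => h.map_smul_univ (fun k => hb k (r k)) fun k => g k (r k)] at h1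
  rw [← h1]
  congr 1
  funext k y
  by_cases hy : y ∈ L k
  · rw [Finset.sum_eq_single_of_mem (q k y) (ht k y hy)]
    · simp [hy]
    · intro a _ ha
      simp [Ne.symm ha]
  · simp [hy]

theorem isClosed_supp : IsClosed (supp W) := by
  refine isOpen_compl_iff.1 (isOpen_iff_mem_nhds.2 fun z hz => ?_)
  simp only [supp, Set.mem_compl_iff, Set.mem_ofPred_eq, not_forall, not_not] at hz
  obtain ⟨O, h1, h2⟩ := hz
  have h3 : ∀ᶠ z' in 𝓝 z, ∀ k, O k ∈ 𝓝 (z' k) := eventually_all.2 fun k =>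
    (continuous_apply k).continuousAt.eventually (eventually_mem_nhds_iff.2 (h1 k))
  exact h3.mono fun z' hz' hm => hm O hz' h2

/-- **support lemma** -/
theorem IsPoly.nullOn_of_disjoint (h : IsPoly W) {O : κ → Set Y} (hO : ∀ k, IsSigmaCompact (O k))
    (hd : ∀ z, (∀ k, z k ∈ O k) → z ∉ supp W) : NullOn W O := by
  classical
  intro f hf hf0
  choose L hL hLO hev using fun k => exists_mono_compact (hO k)
  obtain ⟨C, hC0, hC⟩ := exists_bound_pi hf
  have key : ∀ n, W (fun k y => ic (L k n) y * f k y) = 0 := fun n => by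
    obtain ⟨δ, hδ, hn⟩ := exists_null_ball (W := W) (isCompact_univ_pi fun k => hL k n)
      fun z hz => hd z fun k => hLO k n (hz k trivial)
    choose t q hq htL hqt using fun k => exists_quant (hL k n) hδ
    have h1 := h.expand (fun k => (hL k n).measurableSet) hq (fun k y hy => (hqt k y hy).1)
      (fun _ _ => 1) hf
    simp only [mul_one] at h1
    rw [h1]
    refine Finset.sum_eq_zero fun r hr => ?_
    rw [hn r (fun k _ => htL k (Fintype.mem_piFinset.1 hr k)) _ (fun k => (BM.ic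
      ((hL k n).measurableSet.inter (hq k (measurableSet_singleton _)))).mul (hf k)), smul_zero]
    intro k y hy
    rw [ic_of_notMem, zero_mul]
    rintro ⟨h2, h3⟩
    have h4 := (hqt k y h2).2
    rw [show q k y = r k from h3, dist_comm] at h4
    exact hy h4
  ext1 η
  have h2 := h.lim (fun n k y => ic (L k n) y * f k y) f C
    (fun n k => ((BM.ic (hL k n).measurableSet).mul (hf k)).meas)
    (fun n k y => by
      rw [norm_mul]
      exact (mul_le_of_le_one_left (norm_nonneg _) (norm_ic_le _ _)).trans (hC k y))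
    (fun k y => by
      by_cases hy : y ∈ O k
      · exact tendsto_const_nhds.congr' ((hev k y hy).mono fun n hn => by simp [hn])
      · simp [hf0 k y hy]) η
  simp only [key] at h2
  exact tendsto_nhds_unique h2 tendsto_const_nhds
theorem isSigmaCompact_of_isOpen {O : Set Y} (h : IsOpen O) : IsSigmaCompact O := by
  have := h.locallyCompactSpace
  exact isSigmaCompact_iff_sigmaCompactSpace.2 inferInstance
theorem isSigmaCompact_of_isClosed {O : Set Y} (h : IsClosed O) : IsSigmaCompact O :=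
  isSigmaCompact_univ.of_isClosed_subset h (Set.subset_univ _)
theorem isSigmaCompact_inter {O O' : Set Y} (h : IsSigmaCompact O) (h' : IsSigmaCompact O') :
    IsSigmaCompact (O ∩ O') := by
  obtain ⟨L, hL, rfl⟩ := h
  obtain ⟨L', hL', rfl⟩ := h'
  rw [Set.iUnion_inter]
  refine isSigmaCompact_iUnion _ fun n => ?_
  rw [Set.inter_iUnion]
  exact isSigmaCompact_iUnion_of_isCompact _ fun m => (hL n).inter (hL' m)
/-- if `W` is concentrated on the open box `Z` and has no support point there, it vanishes -/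
theorem IsPoly.eq_zero_of_conc (h : IsPoly W) {Z : κ → Set Y} (hZ : ∀ k, IsOpen (Z k))
    (hc : ∀ f, (∀ k, BM (f k)) → W f = W fun k y => ic (Z k) y * f k y)
    (hd : ∀ z, (∀ k, z k ∈ Z k) → z ∉ supp W) : ∀ f, (∀ k, BM (f k)) → W f = 0 := fun f hf => by
  rw [hc f hf]
  exact h.nullOn_of_disjoint (fun k => isSigmaCompact_of_isOpen (hZ k)) hd _
    (fun k => (BM.ic (hZ k).measurableSet).mul (hf k)) fun k y hy => by simp [hy]
/-- the support lies in any closed box on which `W` is concentrated -/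
theorem mem_of_mem_supp {Z : κ → Set Y} (hZ : ∀ k, IsClosed (Z k))
    (hc : ∀ f, (∀ k, BM (f k)) → ∀ i, (∀ y ∈ Z i, f i y = 0) → W f = 0) {z : κ → Y}
    (hz : z ∈ supp W) (k : κ) : z k ∈ Z k := by
  by_contra hk
  refine hz (Function.update (fun _ => Set.univ) k (Z k)ᶜ) (fun i => ?_) fun f hf h0 =>
    hc f hf k fun y hy => h0 k y (by simpa using hy)
  by_cases hi : i = k
  · subst hi
    rw [Function.update_self]
    exact (hZ i).isOpen_compl.mem_nhds hk
  · rw [Function.update_of_ne hi]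
    exact univ_mem

/-- a representation `k(z) = ∫ c ω ∏ φ ω i (z i)` of a kernel, continuous on the open box `Z` -/
structure KRep (Ω : Type) [TopologicalSpace Ω] [MeasurableSpace Ω] (m : Measure Ω) (c : Ω → ℂ)
    (φ : Ω → κ → Y → ℂ) (Z : κ → Set Y) : Prop where
  int : Integrable c m
  meas : ∀ ω k, Measurable (φ ω k)
  bd : ∀ ω k y, ‖φ ω k y‖ ≤ 1
  contω : ∀ k y, Continuous fun ω => φ ω k y
  contY : ∀ ω k, ContinuousOn (φ ω k) (Z k)

/-- approximation of a multiple operator integral by Riemann sums -/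
theorem IsPoly.tendsto_riemann {Ω : Type} [TopologicalSpace Ω] [SecondCountableTopology Ω]
    [MeasurableSpace Ω] [OpensMeasurableSpace Ω] (h : IsPoly W) {Z : κ → Set Y}
    (hZ : ∀ k, IsOpen (Z k))
    (hc : ∀ f, (∀ k, BM (f k)) → W f = W fun k y => ic (Z k) y * f k y)
    {m : Measure Ω} {c : Ω → ℂ} {φ : Ω → κ → Y → ℂ} (h₁ : KRep Ω m c φ Z)
    {L : κ → ℕ → Set Y} (hL : ∀ k n, MeasurableSet (L k n)) (hLZ : ∀ k n, L k n ⊆ Z k)
    (hev : ∀ k, ∀ y ∈ Z k, ∀ᶠ n in atTop, y ∈ L k n) {t : ℕ → κ → Finset Y}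
    {q : ℕ → κ → Y → Y} (hq : ∀ n k, Measurable (q n k))
    (htL : ∀ n k, (↑(t n k) : Set Y) ⊆ L k n)
    (hqt : ∀ n k, ∀ y ∈ L k n, q n k y ∈ t n k ∧ dist (q n k y) y < 1 / ((n : ℝ) + 1)) (η : K) :
    Tendsto (fun n => ∑ r ∈ Fintype.piFinset (t n), (∫ ω, c ω * ∏ k, φ ω k (r k) ∂m) •
      W (fun k y => ic (L k n ∩ q n k ⁻¹' {r k}) y * 1) η) atTop
      (𝓝 (sInt m c (fun ω => W (φ ω)) η)) := by
  obtain ⟨C, hC0, hC⟩ := h.norm_le
  have hm : ∀ n ω k, Measurable fun y => ic (L k n) y * φ ω k (q n k y) * 1 := fun n ω k =>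
    ((BM.ic (hL k n)).meas.mul ((h₁.meas ω k).comp (hq n k))).mul measurable_const
  have hb : ∀ n ω k y, ‖ic (L k n) y * φ ω k (q n k y) * 1‖ ≤ 1 := fun n ω k y => by
    rw [mul_one, norm_mul]
    exact mul_le_one₀ (norm_ic_le _ _) (norm_nonneg _) (h₁.bd _ _ _)
  have hs : ∀ n, SCont fun ω => W fun k y => ic (L k n) y * φ ω k (q n k y) * 1 := fun n =>
    h.sCont (hm n) (hb n) fun k y => (continuous_const.mul (h₁.contω k _)).mul continuous_const
  rw [sInt_apply h₁.int (h.sCont h₁.meas h₁.bd h₁.contω)]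
  have h1 : Tendsto (fun n => ∫ ω, c ω • W (fun k y => ic (L k n) y * φ ω k (q n k y) * 1) η ∂m)
      atTop (𝓝 (∫ ω, c ω • W (φ ω) η ∂m)) := by
    refine tendsto_integral_of_dominated_convergence (fun ω => ‖c ω‖ * (C * ‖η‖))
      (fun n => ((hs n).integrable h₁.int η).1) (h₁.int.norm.mul_const _)
      (fun n => Eventually.of_forall fun ω => ?_) (Eventually.of_forall fun ω => ?_)
    · rw [norm_smul]
      gcongr
      refine (ContinuousLinearMap.le_opNorm _ _).trans ?_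
      gcongr
      simpa using hC _ (fun _ => 1) (hm n ω) (fun _ => zero_le_one) (hb n ω)
    · refine Tendsto.const_smul ?_ _
      rw [hc (φ ω) fun k => BM.of_le (h₁.meas ω k) (h₁.bd ω k)]
      refine h.lim _ _ 1 (fun n k => hm n ω k) (fun n k y => hb n ω k y) (fun k y => ?_) η
      by_cases hy : y ∈ Z k
      · have h2 : Tendsto (fun n => q n k y) atTop (𝓝 y) := by
          rw [tendsto_iff_dist_tendsto_zero]
          exact squeeze_zero' (Eventually.of_forall fun _ => dist_nonneg)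
            ((hev k y hy).mono fun n hn => (hqt n k y hn).2.le)
            tendsto_one_div_add_atTop_nhds_zero_nat
        have h3 := ((h₁.contY ω k).continuousAt ((hZ k).mem_nhds hy)).tendsto.comp h2
        rw [ic_of_mem hy, one_mul]
        exact h3.congr' ((hev k y hy).mono fun n hn => by simp [hn])
      · have : ∀ n, y ∉ L k n := fun n hn => hy (hLZ k n hn)
        simp [hy, this]
  refine h1.congr fun n => ?_
  have hi : ∀ r : κ → Y, Integrable (fun ω => c ω * ∏ k, φ ω k (r k)) m := fun r =>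
    h₁.int.mul_bdd (c := 1) (continuous_finsetProd _ fun k _ => h₁.contω k _).aestronglyMeasurable
      (Eventually.of_forall fun ω => by
        rw [norm_prod]
        exact Finset.prod_le_one (fun _ _ => norm_nonneg _) fun k _ => h₁.bd _ _ _)
  simp only [fun ω => h.expand (fun k => hL k n) (hq n) (fun k y hy => (hqt n k y hy).1) (φ ω)
    (f := fun _ _ => 1) fun _ => BM.const 1, sum_apply, smul_apply,
    Finset.smul_sum, smul_smul]
  rw [integral_finsetSum _ fun r _ => (hi r).smul_const _]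
  exact Finset.sum_congr rfl fun r _ => integral_smul_const _ _

/-- **WD**: two representations whose kernels agree near the support give the same operator -/
theorem IsPoly.wd {Ω₁ Ω₂ : Type} [TopologicalSpace Ω₁] [SecondCountableTopology Ω₁]
    [MeasurableSpace Ω₁] [OpensMeasurableSpace Ω₁] [TopologicalSpace Ω₂]
    [SecondCountableTopology Ω₂] [MeasurableSpace Ω₂] [OpensMeasurableSpace Ω₂] (h : IsPoly W)
    {Z : κ → Set Y} (hZ : ∀ k, IsOpen (Z k))
    (hc : ∀ f, (∀ k, BM (f k)) → W f = W fun k y => ic (Z k) y * f k y)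
    {m₁ : Measure Ω₁} {c₁ : Ω₁ → ℂ} {φ₁ : Ω₁ → κ → Y → ℂ} (h₁ : KRep Ω₁ m₁ c₁ φ₁ Z)
    {m₂ : Measure Ω₂} {c₂ : Ω₂ → ℂ} {φ₂ : Ω₂ → κ → Y → ℂ} (h₂ : KRep Ω₂ m₂ c₂ φ₂ Z)
    {O : Set (κ → Y)} (hO : IsOpen O) (hs : ∀ z ∈ supp W, (∀ k, z k ∈ Z k) → z ∈ O)
    (hk : ∀ z ∈ O, (∀ k, z k ∈ Z k) →
      ∫ ω, c₁ ω * ∏ k, φ₁ ω k (z k) ∂m₁ = ∫ ω, c₂ ω * ∏ k, φ₂ ω k (z k) ∂m₂) :
    sInt m₁ c₁ (fun ω => W (φ₁ ω)) = sInt m₂ c₂ fun ω => W (φ₂ ω) := by
  classical
  choose L hL hLZ hev using fun k => exists_mono_compact (isSigmaCompact_of_isOpen (hZ k))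
  have h1 : ∀ n, ∃ δ > (0 : ℝ), ∀ z ∈ Set.pi Set.univ (fun k => L k n) \ O,
      NullOn W fun k => Metric.ball (z k) δ := fun n =>
    exists_null_ball ((isCompact_univ_pi fun k => hL k n).diff hO) fun z hz hz' =>
      hz.2 (hs z hz' fun k => hLZ k n (hz.1 k trivial))
  choose δ hδ hN using h1
  have h2 : ∀ n k, ∃ (t : Finset Y) (q : Y → Y), Measurable q ∧ (↑t : Set Y) ⊆ L k n ∧
      ∀ y ∈ L k n, q y ∈ t ∧ dist (q y) y < min (δ n) (1 / ((n : ℝ) + 1)) := fun n k =>
    exists_quant (hL k n) (lt_min (hδ n) Nat.one_div_pos_of_nat)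
  choose t q hq htL hqt using h2
  ext1 η
  have e₁ := h.tendsto_riemann hZ hc h₁ (fun k n => (hL k n).measurableSet) hLZ hev hq htL
    (fun n k y hy => ⟨(hqt n k y hy).1, (hqt n k y hy).2.trans_le (min_le_right _ _)⟩) η
  have e₂ := h.tendsto_riemann hZ hc h₂ (fun k n => (hL k n).measurableSet) hLZ hev hq htL
    (fun n k y hy => ⟨(hqt n k y hy).1, (hqt n k y hy).2.trans_le (min_le_right _ _)⟩) η
  refine tendsto_nhds_unique e₁ (e₂.congr fun n => Finset.sum_congr rfl fun r hr => ?_)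
  have hr' : ∀ k, r k ∈ L k n := fun k => htL n k (Fintype.mem_piFinset.1 hr k)
  by_cases hrO : r ∈ O
  · rw [hk r hrO fun k => hLZ k n (hr' k)]
  · rw [hN n r ⟨fun k _ => hr' k, hrO⟩ _ (fun k => (BM.ic
      ((hL k n).measurableSet.inter (hq n k (measurableSet_singleton _)))).mul (BM.const 1))]
    · simp
    intro k y hy
    rw [ic_of_notMem, zero_mul]
    rintro ⟨h3, h4⟩
    have h5 := (hqt n k y h3).2.trans_le (min_le_left _ _)
    rw [show q n k y = r k from h4, dist_comm] at h5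
    exact hy h5

/-- WD against the constant kernel `a` -/
theorem IsPoly.wd_const {Ω : Type} [TopologicalSpace Ω] [SecondCountableTopology Ω]
    [MeasurableSpace Ω] [OpensMeasurableSpace Ω] (h : IsPoly W)
    {Z : κ → Set Y} (hZ : ∀ k, IsOpen (Z k))
    (hc : ∀ f, (∀ k, BM (f k)) → W f = W fun k y => ic (Z k) y * f k y)
    {m : Measure Ω} {c : Ω → ℂ} {φ : Ω → κ → Y → ℂ} (h₁ : KRep Ω m c φ Z)
    {O : Set (κ → Y)} (hO : IsOpen O) (hs : ∀ z ∈ supp W, (∀ k, z k ∈ Z k) → z ∈ O) (a : ℂ)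
    (hk : ∀ z ∈ O, (∀ k, z k ∈ Z k) → ∫ ω, c ω * ∏ k, φ ω k (z k) ∂m = a) :
    sInt m c (fun ω => W (φ ω)) = a • W fun _ _ => 1 := by
  have h₂ : KRep Unit (Measure.dirac ()) (fun _ => a) (fun _ (_ : κ) (_ : Y) => (1 : ℂ)) Z :=
    ⟨integrable_const _, fun _ _ => measurable_const, fun _ _ _ => by simp,
      fun _ _ => continuous_const, fun _ _ => continuousOn_const⟩
  rw [h.wd hZ hc h₁ h₂ hO hs fun z hz hz' => by simpa using hk z hz hz', sInt_const h₂.int]
  simp

end top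

/-- the invariant of `±a` -/
def sqv (a : V) : Fin 3 → Fin 3 → ℝ := fun i j => a i * a j

open Classical in
/-- a Borel section of `sqv` -/
noncomputable def sqs (M : Fin 3 → Fin 3 → ℝ) : V :=
  if M 0 0 ≠ 0 then fun i => M i 0 / √(M 0 0) else
    if M 1 1 ≠ 0 then fun i => M i 1 / √(M 1 1) else fun i => M i 2 / √(M 2 2)

theorem continuous_sqv : Continuous sqv := by unfold sqv; fun_prop

theorem sqv_neg (a : V) : sqv (-a) = sqv a := by funext i j; simp [sqv]

theorem measurable_sqs : Measurable sqs := by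
  unfold sqs
  refine Measurable.ite (measurableSet_eq_fun (by fun_prop) measurable_const).compl (by fun_prop)
    (Measurable.ite (measurableSet_eq_fun (by fun_prop) measurable_const).compl (by fun_prop)
      (by fun_prop))

theorem sqs_sqv (a : V) : sqs (sqv a) = a ∨ sqs (sqv a) = -a := by
  have key : ∀ j, a j ≠ 0 → (fun i => sqv a i j / √(sqv a j j)) = a ∨
      (fun i => sqv a i j / √(sqv a j j)) = -a := fun j hj => by
    simp only [sqv, Real.sqrt_mul_self_eq_abs]
    rcases lt_or_gt_of_ne hj with h | h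
    · right; funext i; rw [abs_of_neg h, Pi.neg_apply]; field_simp
    · left; funext i; rw [abs_of_pos h]; field_simp
  unfold sqs
  split_ifs with h0 h1
  · exact key 0 fun h => h0 (by simp [sqv, h])
  · exact key 1 fun h => h1 (by simp [sqv, h])
  · by_cases h2 : a 2 = 0
    · have h0' : a 0 = 0 := by simpa [sqv] using h0
      have h1' : a 1 = 0 := by simpa [sqv] using h1
      left; funext i; fin_cases i <;> simp [sqv, h0', h1', h2]
    · exact key 2 h2

theorem bm_vec2 {f g : Y → ℂ} (hf : BM f) (hg : BM g) : ∀ k, BM (![f, g] k) := fun k => by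
  fin_cases k
  exacts [hf, hg]

theorem update_vec2_zero {α : Type} (a b c : α) : Function.update ![a, b] 0 c = ![c, b] := by
  funext k; fin_cases k <;> simp

theorem update_vec2_one {α : Type} (a b c : α) : Function.update ![a, b] 1 c = ![a, c] := by
  funext k; fin_cases k <;> simp

theorem IsPoly.diag_aux {W : (Fin 2 → V → ℂ) → K →L[ℂ] K} (h : IsPoly W) {Z : Set V}
    (hZ : IsOpen Z) (hc : ∀ f, (∀ k, BM (f k)) → W f = W fun k y => ic Z y * f k y)
    (hs : ∀ z ∈ supp W, (∀ k, z k ∈ Z) → z 1 = z 0 ∨ z 1 = -z 0) {u f g : V → ℂ} (hu : BM u)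
    (hu' : Ev u) (hf : BM f) (hg : BM g) :
    W ![fun a => u a * f a, g] = W ![f, fun a => u a * g a] := by
  have hsq : ∀ z ∈ supp W, (∀ k, z k ∈ Z) → sqv (z 1) = sqv (z 0) := fun z hz hz' => by
    rcases hs z hz hz' with e | e <;> simp [e, sqv_neg]
  have null : ∀ A B : Set (Fin 3 → Fin 3 → ℝ), IsSigmaCompact (sqv ⁻¹' A) →
      IsSigmaCompact (sqv ⁻¹' B) → MeasurableSet A → MeasurableSet B → Disjoint A B →
      W ![fun a => f a * ic A (sqv a), fun a => g a * ic B (sqv a)] = 0 := by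
    intro A B hA hB mA mB hAB
    have hb := bm_vec2 (hf.mul ((BM.ic mA).comp continuous_sqv.measurable))
      (hg.mul ((BM.ic mB).comp continuous_sqv.measurable))
    rw [hc _ hb]
    refine h.nullOn_of_disjoint (O := ![Z ∩ sqv ⁻¹' A, Z ∩ sqv ⁻¹' B]) (fun k => ?_)
      (fun z hz hz' => ?_) _ (fun k => (BM.ic hZ.measurableSet).mul (hb k)) fun k y hy => ?_
    · fin_cases k
      exacts [isSigmaCompact_inter (isSigmaCompact_of_isOpen hZ) hA,
        isSigmaCompact_inter (isSigmaCompact_of_isOpen hZ) hB]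
    · have h0 : z 0 ∈ Z ∩ sqv ⁻¹' A := hz 0
      have h1 : z 1 ∈ Z ∩ sqv ⁻¹' B := hz 1
      have h2 := hsq z hz' fun k => by fin_cases k; exacts [h0.1, h1.1]
      exact Set.disjoint_left.1 hAB h0.2 (h2 ▸ h1.2)
    · by_cases hy' : y ∈ Z
      · fin_cases k
        · have : sqv y ∉ A := fun h => hy ⟨hy', h⟩
          simp [this]
        · have : sqv y ∉ B := fun h => hy ⟨hy', h⟩
          simp [this]
      · simp [hy']
  have p0 := (h.isPoly1 (bm_vec2 hf hg) 0).comp continuous_sqv.measurable hf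
  have p1 := (h.isPoly1 (bm_vec2 hf hg) 1).comp continuous_sqv.measurable hg
  simp only [update_vec2_zero, update_vec2_one] at p0 p1
  have key := p0.ext_pi p1 (BorelSpace.measurable_eq) isPiSystem_isOpen (by simp) (fun O hO => by
    have mO : MeasurableSet O := IsOpen.measurableSet hO
    have bO := (BM.ic mO).comp continuous_sqv.measurable
    have bO' := (BM.ic mO.compl).comp continuous_sqv.measurable
    have s1 := isSigmaCompact_of_isOpen (IsOpen.preimage continuous_sqv hO)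
    have s2 := isSigmaCompact_of_isClosed
      ((show IsOpen O from hO).isClosed_compl.preimage continuous_sqv)
    have a1 := h.add ![fun a => f a * ic O (sqv a), g] 1 _ _ (bm_vec2 (hf.mul bO) hg)
      (hg.mul bO) (hg.mul bO')
    have a0 := h.add ![f, fun a => g a * ic O (sqv a)] 0 _ _ (bm_vec2 hf (hg.mul bO))
      (hf.mul bO) (hf.mul bO')
    simp only [update_vec2_zero, update_vec2_one, ic_compl, ← mul_add, add_sub_cancel,
      mul_one] at a0 a1
    have n1 := null O Oᶜ s1 s2 mO mO.compl disjoint_compl_right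
    have n0 := null Oᶜ O s2 s1 mO.compl mO disjoint_compl_left
    simp only [ic_compl] at n0 n1
    rw [a0, a1, n0, n1]) (fun M => u (sqs M)) (hu.comp measurable_sqs)
  have e : ∀ a, u (sqs (sqv a)) = u a := fun a => by
    rcases sqs_sqv a with e | e <;> rw [e]
    exact hu' a
  simpa only [e, mul_comm] using key

/-- **diagonal lemma** modulo `±` -/
theorem IsPoly.diag {W : (Fin 2 → V → ℂ) → K →L[ℂ] K} (h : IsPoly W)
    (hs : ∀ z ∈ supp W, z 1 = z 0 ∨ z 1 = -z 0) {u f g : V → ℂ} (hu : BM u) (hu' : Ev u)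
    (hf : BM f) (hg : BM g) :
    W ![fun a => u a * f a, g] = W ![f, fun a => u a * g a] :=
  h.diag_aux isOpen_univ (fun f _ => by simp) (fun z hz _ => hs z hz) hu hu' hf hg

/-- diagonal lemma when only nonzero support points are controlled -/
theorem IsPoly.diag' {W : (Fin 2 → V → ℂ) → K →L[ℂ] K} (h : IsPoly W)
    (hc : ∀ f, (∀ k, BM (f k)) → W f = W fun k y => ic {0}ᶜ y * f k y)
    (hs : ∀ z ∈ supp W, (∀ k, z k ≠ 0) → z 1 = z 0 ∨ z 1 = -z 0) {u f g : V → ℂ} (hu : BM u)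
    (hu' : Ev u) (hf : BM f) (hg : BM g) :
    W ![fun a => u a * f a, g] = W ![f, fun a => u a * g a] :=
  h.diag_aux isOpen_compl_singleton hc hs hu hu' hf hg

end Crest.Agent.N111
end

-- ▼ part N111/Lib/Poly3
section

/-! # Row 111: polymeasures, supports, strong integrals, and the well-definedness of multiple
operator integrals (API; fill the proofs IN PLACE). -/

set_option autoImplicit false
set_option linter.unusedSectionVars false
set_option linter.unusedVariables false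

namespace Crest.Agent.N111

open MeasureTheory Topology Filter
open scoped InnerProductSpace

variable {Y K κ : Type} [MeasurableSpace Y] [NormedAddCommGroup K] [InnerProductSpace ℂ K]
  [CompleteSpace K] [Fintype κ] [DecidableEq κ]

variable {W W' : (κ → Y → ℂ) → K →L[ℂ] K}

/-- bound of a polymeasure on a box -/
def BdOn (W : (κ → Y → ℂ) → K →L[ℂ] K) (O : κ → Set Y) (M : ℝ) : Prop :=
  ∀ f : κ → Y → ℂ, (∀ k, Measurable (f k)) → (∀ k y, ‖f k y‖ ≤ 1) →
    (∀ k y, y ∉ O k → f k y = 0) → ‖W f‖ ≤ M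

theorem IsPoly.bdOn_le (h : IsPoly W) {O : κ → Set Y} {M : ℝ} (hM : BdOn W O M) {f : κ → Y → ℂ}
    (hf : ∀ k, Measurable (f k)) {b : κ → ℝ} (hb : ∀ k, 0 < b k) (hfb : ∀ k y, ‖f k y‖ ≤ b k)
    (h0 : ∀ k y, y ∉ O k → f k y = 0) : ‖W f‖ ≤ (∏ k, b k) * M := by
  have h1 : ∀ k y, ‖(b k : ℂ)⁻¹ * f k y‖ ≤ 1 := fun k y => by
    rw [norm_mul, norm_inv, Complex.norm_real, Real.norm_of_nonneg (hb k).le]
    exact inv_mul_le_one_of_le₀ (hfb k y) (hb k).le
  have h2 := h.map_smul_univ (f := fun k y => (b k : ℂ)⁻¹ * f k y)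
    (fun k => ⟨(hf k).const_mul _, 1, h1 k⟩) fun k => b k
  simp only [fun k => mul_inv_cancel_left₀ (Complex.ofReal_ne_zero.2 (hb k).ne')] at h2
  have h3 : 0 ≤ ∏ k, b k := Finset.prod_nonneg fun k _ => (hb k).le
  rw [h2, ← Complex.ofReal_prod, norm_smul, Complex.norm_real, Real.norm_of_nonneg h3]
  exact mul_le_mul_of_nonneg_left
    (hM _ (fun k => (hf k).const_mul _) h1 fun k y hy => by rw [h0 k y hy, mul_zero]) h3

theorem IsPoly.nullOn_of_contract (h : IsPoly W) {O : κ → Set Y}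
    (H : ∀ M, 0 ≤ M → BdOn W O M → BdOn W O (M * (1 / 2))) : NullOn W O := by
  obtain ⟨C, hC⟩ := h.bdd
  have h1 : ∀ n : ℕ, BdOn W O (|C| * (1 / 2) ^ n) := fun n => by
    induction n with
    | zero => exact fun f h1 h2 _ => (hC f h1 h2).trans (by simpa using le_abs_self C)
    | succ n ih => rw [pow_succ, ← mul_assoc]; exact H _ (by positivity) ih
  have h2 : BdOn W O 0 := fun f a b c => ge_of_tendsto' (by
    simpa using (tendsto_pow_atTop_nhds_zero_of_lt_one (r := (1 / 2 : ℝ)) (by norm_num)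
      (by norm_num)).const_mul |C|) fun n => h1 n f a b c
  intro f hf h0
  obtain ⟨B, hB0, hB⟩ := exists_bound_pi hf
  simpa using h.bdOn_le h2 (fun k => (hf k).1) (b := fun _ => B + 1) (fun _ => by linarith)
    (fun k y => (hB k y).trans (by linarith)) h0

/-- telescoping estimate -/
theorem IsPoly.tele (h : IsPoly W) {O : κ → Set Y} {M B ε : ℝ} (hM0 : 0 ≤ M) (hM : BdOn W O M)
    (hB : 1 ≤ B) (hε : 0 < ε) {u : κ → Y → ℂ} {l : κ → ℂ} (hu : ∀ k, Measurable (u k))
    (hub : ∀ k y, ‖u k y‖ ≤ B) (hl : ∀ k, ‖l k‖ ≤ B) (hul : ∀ k, ∀ y ∈ O k, ‖u k y - l k‖ ≤ ε)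
    {f : κ → Y → ℂ} (hf : ∀ k, Measurable (f k)) (hf1 : ∀ k y, ‖f k y‖ ≤ 1)
    (h0 : ∀ k y, y ∉ O k → f k y = 0) :
    ‖W (fun k y => u k y * f k y) - (∏ k, l k) • W f‖ ≤
      Fintype.card κ * (ε * B ^ Fintype.card κ * M) := by
  have bf : ∀ k, BM (f k) := fun k => ⟨hf k, 1, hf1 k⟩
  have bu : ∀ k, BM (u k) := fun k => ⟨hu k, B, hub k⟩
  let g : Finset κ → κ → Y → ℂ := fun s k y => (if k ∈ s then u k y else l k) * f k y
  have bg : ∀ s k, BM (g s k) := fun s k => by
    by_cases hk : k ∈ s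
    · simpa only [g, if_pos hk] using (bu k).mul (bf k)
    · simpa only [g, if_neg hk] using (bf k).const_mul (l k)
  have key : ∀ s : Finset κ, ‖W (g s) - W (g ∅)‖ ≤ s.card * (ε * B ^ Fintype.card κ * M) := by
    intro s
    induction s using Finset.induction_on with
    | empty => simp
    | insert i s hi ih =>
      have bd := ((bu i).sub (BM.const (l i))).mul (bf i)
      have h1 := h.add (g s) i _ _ (bg s) bd (bg s i)
      rw [Function.update_eq_self] at h1
      have h2 : g (insert i s) =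
          Function.update (g s) i fun y => (u i y - l i) * f i y + g s i y := by
        refine (Function.update_eq_iff.2 ⟨?_, fun k hk => ?_⟩).symm
        · funext y; simp only [g, if_neg hi, Finset.mem_insert_self, if_true]; ring
        · funext y; simp [g, hk]
      have h3 := h.bdOn_le hM (f := Function.update (g s) i fun y => (u i y - l i) * f i y)
        (b := Function.update (fun _ => B) i ε)
        (Function.forall_update_iff (g s) (fun _ v => Measurable v) |>.2 ⟨bd.1, fun k _ => (bg s k).1⟩)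
        (Function.forall_update_iff _ (fun _ v => 0 < v) |>.2 ⟨hε, fun k _ => by linarith⟩)
        (fun k y => ?_) fun k y hy => ?_
      · rw [Finset.prod_update_of_mem (Finset.mem_univ i), Finset.prod_const] at h3
        have h4 : B ^ (Finset.univ \ {i}).card ≤ B ^ Fintype.card κ :=
          pow_le_pow_right₀ hB (Finset.card_le_univ _)
        rw [h2, h1, add_sub_assoc, Finset.card_insert_of_notMem hi, Nat.cast_succ, add_one_mul,
          add_comm (_ * _)]
        exact (norm_add_le _ _).trans (add_le_add (h3.trans (by gcongr)) ih)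
      · rcases eq_or_ne k i with rfl | hk
        · simp only [Function.update_self]
          by_cases hy : y ∈ O k
          · rw [norm_mul]
            exact (mul_le_of_le_one_right (norm_nonneg _) (hf1 k y)).trans (hul k y hy)
          · simp [h0 k y hy, hε.le]
        · simp only [Function.update_of_ne hk, g, norm_mul]
          refine (mul_le_of_le_one_right (norm_nonneg _) (hf1 k y)).trans ?_
          split_ifs
          exacts [hub k y, hl k]
      · rcases eq_or_ne k i with rfl | hk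
        · simp [h0 k y hy]
        · simp [Function.update_of_ne hk, g, h0 k y hy]
  simpa [g, h.map_smul_univ bf l] using key Finset.univ

theorem exists_eps {x c : ℝ} (hx : 0 ≤ x) (hc : 0 < c) : ∃ ε > (0 : ℝ), x * ε ≤ c :=
  ⟨c / (x + 1), by positivity, by rw [mul_div_assoc', div_le_iff₀ (by positivity)]; nlinarith⟩

/-- **Neumann lemma**: a polynomial multiplier that does not vanish at `z` is injective near `z` -/
theorem IsPoly.not_mem_supp_of_mul [TopologicalSpace Y] [OpensMeasurableSpace Y] (h : IsPoly W)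
    {α : Type} (s : Finset α) {a : α → ℂ} {u : α → κ → Y → ℂ} {z : κ → Y}
    (hu : ∀ r ∈ s, ∀ k, BM (u r k) ∧ ContinuousAt (u r k) (z k))
    (hne : ∑ r ∈ s, a r * ∏ k, u r k (z k) ≠ 0) {O : κ → Set Y} (hO : ∀ k, O k ∈ 𝓝 (z k))
    (h0 : NullOn (fun f => ∑ r ∈ s, a r • W fun k y => u r k y * f k y) O) : z ∉ supp W := by
  classical
  obtain ⟨B, hB0, hB⟩ := exists_bound_pi (f := fun p : s × κ => u p.1 p.2) fun p => (hu _ p.1.2 _).1
  have hl := norm_pos_iff.2 hne
  obtain ⟨ε, hε, h1⟩ := exists_eps (x := (∑ r ∈ s, ‖a r‖) * Fintype.card κ *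
    (B + 1) ^ Fintype.card κ) (by positivity) (half_pos hl)
  refine fun hz => hz (fun k => O k ∩ {y | ∀ r ∈ s, ‖u r k y - u r k (z k)‖ ≤ ε})
    (fun k => inter_mem (hO k) ((eventually_all_finset s).2 fun r hr => ?_))
    (h.nullOn_of_contract fun M hM0 hM f hf hf1 hf0 => ?_)
  · exact (Metric.tendsto_nhds.1 (hu r hr k).2 ε hε).mono fun y hy => by
      rw [← dist_eq_norm]; exact hy.le
  have h2 := h0 f (fun k => ⟨hf k, 1, hf1 k⟩) fun k y hy => hf0 k y fun h => hy h.1
  refine le_of_mul_le_mul_left ?_ hl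
  rw [← norm_smul, ← norm_neg, ← zero_sub, ← h2, Finset.sum_smul, ← Finset.sum_sub_distrib]
  refine (norm_sum_le_of_le s (n := fun r => ‖a r‖ * (Fintype.card κ *
    (ε * (B + 1) ^ Fintype.card κ * M))) fun r hr => ?_).trans ?_
  · rw [mul_smul, ← smul_sub, norm_smul]
    exact mul_le_mul_of_nonneg_left (h.tele hM0 hM (by linarith) hε (fun k => (hu r hr k).1.1)
      (fun k y => (hB (⟨r, hr⟩, k) y).trans (by linarith))
      (fun k => (hB (⟨r, hr⟩, k) _).trans (by linarith)) (fun k y hy => hy.2 r hr) hf hf1 hf0)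
      (norm_nonneg _)
  · rw [← Finset.sum_mul]
    nlinarith [mul_le_mul_of_nonneg_right h1 hM0]

/-- the same for an integral multiplier -/
theorem IsPoly.not_mem_supp_of_sInt [TopologicalSpace Y] [FirstCountableTopology Y]
    [OpensMeasurableSpace Y] {Ω : Type} [TopologicalSpace Ω] [SecondCountableTopology Ω]
    [MeasurableSpace Ω] [OpensMeasurableSpace Ω] (h : IsPoly W) {m : Measure Ω} {c : Ω → ℂ}
    (hc : Integrable c m) {φ : Ω → κ → Y → ℂ} (hm : ∀ ω k, Measurable (φ ω k))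
    (hb : ∀ ω k y, ‖φ ω k y‖ ≤ 1) (hcont : ∀ k y, Continuous fun ω => φ ω k y) {z : κ → Y}
    (heq : ∀ k, ∀ ε > 0, ∀ L : Set Ω, IsCompact L →
      ∀ᶠ y in 𝓝 (z k), ∀ ω ∈ L, ‖φ ω k y - φ ω k (z k)‖ ≤ ε) [SigmaCompactSpace Ω] (a : ℂ)
    (hne : ∫ ω, c ω * ∏ k, φ ω k (z k) ∂m ≠ a) {O : κ → Set Y} (hO : ∀ k, O k ∈ 𝓝 (z k))
    (h0 : NullOn (fun f => sInt m c (fun ω => W fun k y => φ ω k y * f k y) - a • W f) O) :
    z ∉ supp W := by
  have hl := norm_pos_iff.2 (sub_ne_zero.2 hne)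
  set l := ∫ ω, c ω * ∏ k, φ ω k (z k) ∂m - a with hl'
  obtain ⟨ε, hε, h1⟩ := exists_eps (x := (∫ ω, ‖c ω‖ ∂m) * Fintype.card κ)
    (mul_nonneg (integral_nonneg fun _ => norm_nonneg _) (Nat.cast_nonneg _))
    (show 0 < ‖l‖ / 4 by positivity)
  let U : ℕ → κ → Set Y := fun n k =>
    {y | ∀ ω ∈ compactCovering Ω n, ‖φ ω k y - φ ω k (z k)‖ ≤ ε}
  let G : ℕ → Set Ω := fun n => {ω | ∀ k, ∀ y ∈ U n k, ‖φ ω k y - φ ω k (z k)‖ ≤ ε}
  have hG : ∀ n, MeasurableSet (G n)ᶜ := fun n => by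
    refine (IsClosed.measurableSet ?_).compl
    simp only [G, Set.ofPred_forall]
    exact isClosed_iInter fun k => isClosed_iInter fun y => isClosed_iInter fun _ =>
      isClosed_le ((hcont k y).sub (hcont k _)).norm continuous_const
  have h2 : Tendsto (fun n => ∫ ω, (G n)ᶜ.indicator (fun ω => ‖c ω‖) ω ∂m) atTop
      (𝓝 (∫ _, 0 ∂m)) := by
    refine tendsto_integral_of_dominated_convergence (fun ω => ‖c ω‖)
      (fun n => (hc.norm.indicator (hG n)).1) hc.norm (fun n => Eventually.of_forall fun ω =>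
        (norm_indicator_le_norm_self _ _).trans_eq (norm_norm _))
      (Eventually.of_forall fun ω => tendsto_const_nhds.congr' ?_)
    obtain ⟨n, hn⟩ := exists_mem_compactCovering ω
    exact (eventually_ge_atTop n).mono fun j hj => (Set.indicator_of_notMem (not_not.2
      fun k y hy => hy ω (compactCovering_subset Ω hj hn)) _).symm
  rw [integral_zero] at h2
  obtain ⟨n, hn⟩ := (h2.eventually_le_const (show 0 < ‖l‖ / 8 by positivity)).exists
  refine fun hz => hz (fun k => O k ∩ U n k)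
    (fun k => inter_mem (hO k) (heq k ε hε _ (isCompact_compactCovering Ω n)))
    (h.nullOn_of_contract fun M hM0 hM f hf hf1 hf0 => ?_)
  have h3 := sub_eq_zero.1
    (h0 f (fun k => ⟨hf k, 1, hf1 k⟩) fun k y hy => hf0 k y fun h => hy h.1)
  have hb' : ∀ ω k y, ‖φ ω k y * f k y‖ ≤ 1 := fun ω k y => by
    rw [norm_mul]; exact mul_le_one₀ (hb ω k y) (norm_nonneg _) (hf1 k y)
  have hp : ∀ ω, ‖∏ k, φ ω k (z k)‖ ≤ 1 := fun ω => by
    rw [norm_prod]; exact Finset.prod_le_one (fun _ _ => norm_nonneg _) fun k _ => hb _ _ _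
  have s1 : SCont fun ω => W fun k y => φ ω k y * f k y :=
    h.sCont (fun ω k => (hm ω k).mul (hf k)) hb' fun k y => (hcont k y).mul continuous_const
  have cp : Continuous fun ω => ∏ k, φ ω k (z k) := continuous_finsetProd _ fun k _ => hcont k _
  have s2 : SCont fun ω => (∏ k, φ ω k (z k)) • W f :=
    ⟨fun η => cp.smul continuous_const, ‖W f‖, fun ω => by
      rw [norm_smul]; exact mul_le_of_le_one_left (norm_nonneg _) (hp ω)⟩
  have e2 : sInt m c (fun ω => (∏ k, φ ω k (z k)) • W f) =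
      (∫ ω, c ω * ∏ k, φ ω k (z k) ∂m) • W f := by
    ext1 η
    simp only [sInt_apply hc s2, smul_apply, smul_smul, integral_smul_const]
  have i1 := hc.norm.mul_const (Fintype.card κ * (ε * M))
  have i2 := (hc.norm.indicator (hG n)).mul_const (2 * M)
  have s3 : SCont fun ω => (W fun k y => φ ω k y * f k y) - (∏ k, φ ω k (z k)) • W f := by
    obtain ⟨C1, h1⟩ := s1.2
    obtain ⟨C2, h2⟩ := s2.2
    exact ⟨fun η => (s1.1 η).sub (s2.1 η), C1 + C2, fun ω => norm_sub_le_of_le (h1 ω) (h2 ω)⟩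
  have e3 : ∀ ω, ‖c ω‖ * (Fintype.card κ * (ε * M) + (G n)ᶜ.indicator (fun _ => 2 * M) ω) =
      ‖c ω‖ * (Fintype.card κ * (ε * M)) + (G n)ᶜ.indicator (fun ω => ‖c ω‖) ω * (2 * M) :=
    fun ω => by by_cases hω : ω ∈ (G n)ᶜ <;> simp [hω, mul_add]
  have h4 := norm_sInt_le' hc s3
    (b := fun ω => Fintype.card κ * (ε * M) + (G n)ᶜ.indicator (fun _ => 2 * M) ω)
    (by simp only [e3]; exact i1.add i2) fun ω => by
      by_cases hω : ω ∈ G n
      · rw [Set.indicator_of_notMem (not_not.2 hω), add_zero]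
        simpa using h.tele hM0 hM le_rfl hε (hm ω) (hb ω) (fun k => hb ω k _)
          (fun k y hy => hω k y hy.2) hf hf1 hf0
      · rw [Set.indicator_of_mem hω]
        refine le_add_of_nonneg_of_le (by positivity) ((norm_sub_le_of_le
          (hM _ (fun k => (hm ω k).mul (hf k)) (hb' ω) fun k y hy =>
            mul_eq_zero_of_right _ (hf0 k y hy))
          (?_ : _ ≤ M)).trans_eq (two_mul M).symm)
        rw [norm_smul]
        exact (mul_le_of_le_one_left (norm_nonneg _) (hp ω)).trans (hM f hf hf1 hf0)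
  simp only [e3] at h4
  rw [sInt_sub hc s1 s2, h3, e2, ← sub_smul, ← neg_sub, ← hl', neg_smul, norm_neg, norm_smul,
    integral_add i1 i2, integral_mul_const, integral_mul_const] at h4
  refine le_of_mul_le_mul_left (h4.trans ?_) hl
  nlinarith [mul_le_mul_of_nonneg_right h1 hM0, mul_le_mul_of_nonneg_right hn hM0]

end Crest.Agent.N111
end

-- ▼ part N111/Lib/Fou
section

/-! # Row 111: Fourier algebra tools and scalar lemmas (API; fill the proofs IN PLACE). -/

set_option autoImplicit false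
set_option linter.unusedVariables false

namespace Crest.Agent.N111

open MeasureTheory Topology Filter
open scoped ContDiff

/-- kernel of `c ∈ L¹(ℝ)` -/
noncomputable def K1 (c : ℝ → ℂ) (s : ℝ) : ℂ := ∫ w, c w * ex (w * s)

/-- kernel of `c ∈ L¹(ℝ²)` -/
noncomputable def K2 (c : ℝ × ℝ → ℂ) (p : ℝ × ℝ) : ℂ := ∫ w, c w * ex (w.1 * p.1 + w.2 * p.2)

/-- kernel of `c ∈ L¹(ℝ^d)` -/
noncomputable def KN {d : ℕ} (c : (Fin d → ℝ) → ℂ) (p : Fin d → ℝ) : ℂ :=
  ∫ w, c w * ex (∑ i, w i * p i)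

namespace Fou

open scoped FourierTransform RealInnerProductSpace Real

variable {H : Type} [NormedAddCommGroup H] [InnerProductSpace ℝ H] [FiniteDimensional ℝ H]
  [MeasurableSpace H] [BorelSpace H]

/-- Fourier inversion for test functions on a Euclidean space. -/
theorem exists_KH {f : H → ℂ} (hf : ContDiff ℝ ∞ f) (hs : HasCompactSupport f) :
    ∃ c : H → ℂ, Integrable c ∧ Integrable (fun w => ‖c w‖ * ‖w‖) ∧
      (∀ p, ∫ w, c w * ex ⟪w, p⟫ = f p) ∧ (Ev f → Ev c) := by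
  have h2 : (2 * π : ℝ) ≠ 0 := Real.two_pi_pos.ne'
  let g : SchwartzMap H ℂ := HasCompactSupport.toSchwartzMap (f := fun v => f ((2 * π : ℝ) • v))
    (hs.comp_smul h2) (hf.comp (contDiff_const_smul _))
  have hi : Integrable (𝓕 (g : H → ℂ)) := (𝓕 g : SchwartzMap H ℂ).integrable
  refine ⟨𝓕 (g : H → ℂ), hi, ?_, fun p => ?_, fun he w => ?_⟩
  · simpa [mul_comm, SchwartzMap.fourier_coe] using
      SchwartzMap.integrable_pow_mul volume (𝓕 g : SchwartzMap H ℂ) 1
  · have h1 := congrFun (g.continuous.fourierInv_fourier_eq g.integrable hi) ((2 * π : ℝ)⁻¹ • p)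
    rw [Real.fourierInv_eq'] at h1
    have h3 : g ((2 * π : ℝ)⁻¹ • p) = f p := by
      change f ((2 * π : ℝ) • (2 * π : ℝ)⁻¹ • p) = f p
      rw [smul_inv_smul₀ h2]
    rw [← h3, ← h1]
    refine integral_congr_ae (Eventually.of_forall fun w => ?_)
    simp only [smul_eq_mul, inner_smul_right, mul_inv_cancel_left₀ h2, ex, mul_comm Complex.I]
    ring
  · rw [← Real.fourierInv_eq_fourier_neg, Real.fourierInv_eq_fourier_comp_neg]
    refine congrArg (fun u : H → ℂ => 𝓕 u w) (funext fun v => ?_)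
    change f ((2 * π : ℝ) • -v) = f ((2 * π : ℝ) • v)
    rw [smul_neg, he]

/-- The same in measure preserving linear coordinates. -/
theorem exists_KW {W : Type} [NormedAddCommGroup W] [NormedSpace ℝ W] [MeasureSpace W]
    [BorelSpace W] (e : W ≃L[ℝ] H) (he : MeasurePreserving e) {f : W → ℂ} (hf : ContDiff ℝ ∞ f)
    (hs : HasCompactSupport f) :
    ∃ c : W → ℂ, Integrable c ∧ Integrable (fun w => ‖c w‖ * ‖w‖) ∧
      (∀ p, ∫ w, c w * ex ⟪e w, e p⟫ = f p) ∧ (Ev f → Ev c) := by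
  obtain ⟨c, h1, h2, h3, h4⟩ := exists_KH (f := fun v => f (e.symm v)) (hf.comp e.symm.contDiff)
    (hs.comp_homeomorph e.symm.toHomeomorph)
  have h5 : Integrable fun w => c (e w) := he.integrable_comp_of_integrable h1
  refine ⟨fun w => c (e w), h5, ?_, fun p => ?_, fun hev w => ?_⟩
  · refine ((he.integrable_comp_of_integrable h2).const_mul ‖(e.symm : H →L[ℝ] W)‖).mono'
      (h5.1.norm.mul continuous_norm.aestronglyMeasurable) (Eventually.of_forall fun w => ?_)
    rw [Real.norm_of_nonneg (by positivity), Function.comp_apply, mul_left_comm]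
    refine mul_le_mul_of_nonneg_left ?_ (norm_nonneg _)
    simpa using (e.symm : H →L[ℝ] W).le_opNorm (e w)
  · rw [he.integral_comp e.toHomeomorph.measurableEmbedding fun v => c v * ex ⟪v, e p⟫, h3,
      e.symm_apply_apply]
  · change c (e (-w)) = c (e w)
    rw [map_neg]
    exact h4 (fun v => by simp only [map_neg]; exact hev _) _

end Fou

theorem exists_K1 {f : ℝ → ℂ} (hf : ContDiff ℝ ∞ f) (hs : HasCompactSupport f) :
    ∃ c, Integrable c ∧ Integrable (fun w => ‖c w‖ * |w|) ∧ K1 c = f ∧ (Ev f → Ev c) := by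
  obtain ⟨c, h1, h2, h3, h4⟩ := Fou.exists_KH hf hs
  refine ⟨c, h1, h2, funext fun p => ?_, h4⟩
  rw [← h3, K1]
  simp [mul_comm]

theorem exists_K2 {f : ℝ × ℝ → ℂ} (hf : ContDiff ℝ ∞ f) (hs : HasCompactSupport f) :
    ∃ c, Integrable c ∧ Integrable (fun w => ‖c w‖ * ‖w‖) ∧ K2 c = f ∧ (Ev f → Ev c) := by
  obtain ⟨c, h1, h2, h3, h4⟩ := Fou.exists_KW (WithLp.prodContinuousLinearEquiv 2 ℝ ℝ ℝ).symm
    (WithLp.volume_preserving_toLp ℝ ℝ) hf hs
  refine ⟨c, h1, h2, funext fun p => ?_, h4⟩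
  rw [← h3, K2]
  simp [mul_comm]

theorem exists_KN {d : ℕ} {f : (Fin d → ℝ) → ℂ} (hf : ContDiff ℝ ∞ f) (hs : HasCompactSupport f) :
    ∃ c, Integrable c ∧ Integrable (fun w => ‖c w‖ * ‖w‖) ∧ KN c = f := by
  obtain ⟨c, h1, h2, h3, -⟩ := Fou.exists_KW (EuclideanSpace.equiv (Fin d) ℝ).symm
    (PiLp.volume_preserving_toLp (Fin d)) hf hs
  refine ⟨c, h1, h2, funext fun p => ?_⟩
  rw [← h3, KN]
  simp [PiLp.inner_apply, mul_comm]

/-- the density whose kernel is `K2 c (l •  ·)` -/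
noncomputable def dil (l : ℝ) (c : ℝ × ℝ → ℂ) : ℝ × ℝ → ℂ :=
  fun w => ((l ^ 2)⁻¹ : ℝ) * c (l⁻¹ • w)

theorem Fou.integral_scale {E : Type} [NormedAddCommGroup E] [NormedSpace ℝ E] (G : ℝ × ℝ → E)
    {l : ℝ} (hl : l ≠ 0) : ∫ w, (l ^ 2)⁻¹ • G (l⁻¹ • w) = ∫ w, G w := by
  rw [integral_smul, Measure.integral_comp_inv_smul, smul_smul]
  simp [hl]

theorem Fou.norm_dil (l : ℝ) (c : ℝ × ℝ → ℂ) (w : ℝ × ℝ) :
    ‖dil l c w‖ = (l ^ 2)⁻¹ * ‖c (l⁻¹ • w)‖ := by
  rw [dil, norm_mul, Complex.norm_real, Real.norm_of_nonneg (by positivity)]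

theorem integrable_dil {c : ℝ × ℝ → ℂ} (hc : Integrable c) {l : ℝ} (hl : l ≠ 0) :
    Integrable (dil l c) := (hc.comp_smul (inv_ne_zero hl)).const_mul _
theorem integral_norm_dil {c : ℝ × ℝ → ℂ} {l : ℝ} (hl : l ≠ 0) :
    ∫ w, ‖dil l c w‖ = ∫ w, ‖c w‖ := by
  simpa only [Fou.norm_dil, smul_eq_mul] using Fou.integral_scale (fun w => ‖c w‖) hl
/-- change of variables for vector valued integrals -/
theorem integral_dil {E : Type} [NormedAddCommGroup E] [NormedSpace ℂ E] (c : ℝ × ℝ → ℂ) {l : ℝ}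
    (hl : l ≠ 0) (F : ℝ × ℝ → E) : ∫ w, dil l c w • F w = ∫ w, c w • F (l • w) := by
  rw [← Fou.integral_scale (fun w => c w • F (l • w)) hl]
  simp only [dil, smul_inv_smul₀ hl, mul_smul, Complex.coe_smul]
theorem K2_dil (c : ℝ × ℝ → ℂ) {l : ℝ} (hl : l ≠ 0) (p : ℝ × ℝ) :
    K2 (dil l c) p = K2 c (l • p) := by
  have := integral_dil c hl fun w => ex (w.1 * p.1 + w.2 * p.2)
  simp only [smul_eq_mul, Prod.smul_fst, Prod.smul_snd] at this
  simp only [K2, this, Prod.smul_fst, Prod.smul_snd, smul_eq_mul, mul_left_comm _ l, mul_assoc]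

namespace Fou

theorem exists_radius {g : ℝ × ℝ → ℂ} (hs : HasCompactSupport g) :
    ∃ R : ℝ, 0 ≤ R ∧ ∀ w, R < ‖w‖ → g w = 0 := by
  obtain ⟨R, hR⟩ := hs.isBounded.subset_closedBall 0
  refine ⟨max R 0, le_max_right _ _, fun w hw => image_eq_zero_of_notMem_tsupport fun h => ?_⟩
  exact absurd (mem_closedBall_zero_iff.1 (hR h)) (not_le.2 ((le_max_left _ _).trans_lt hw))

theorem tendsto_dil_of_cont {g : ℝ × ℝ → ℂ} (hg : Continuous g) (hs : HasCompactSupport g)
    {l₀ : ℝ} (hl : l₀ ≠ 0) :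
    Tendsto (fun l => ∫ w, ‖dil l g w - dil l₀ g w‖) (𝓝 l₀) (𝓝 0) := by
  obtain ⟨R, hR0, hR⟩ := exists_radius hs
  have h0 : 0 < |l₀| := abs_pos.2 hl
  let s : Set ℝ := {l | l ≠ 0 ∧ |l| < |l₀| + 1}
  have hs0 : s ∈ 𝓝 l₀ := inter_mem (isOpen_ne.mem_nhds hl)
    ((isOpen_lt continuous_abs continuous_const).mem_nhds (lt_add_one |l₀|))
  have hz : ∀ l ∈ s, ∀ w, w ∉ Metric.closedBall (0 : ℝ × ℝ) ((|l₀| + 1) * R) → dil l g w = 0 := by
    intro l hl w hw
    rw [mem_closedBall_zero_iff, not_le] at hw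
    rw [dil, hR, mul_zero]
    rw [norm_smul, norm_inv, Real.norm_eq_abs, lt_inv_mul_iff₀ (abs_pos.2 hl.1)]
    exact (mul_le_mul_of_nonneg_right hl.2.le hR0).trans_lt hw
  have hc : ContinuousOn (fun l => ∫ w, ‖dil l g w - dil l₀ g w‖) s := by
    refine continuousOn_integral_of_compact_support (isCompact_closedBall _ _) ?_
      fun l w hl' hw => by rw [hz l hl' w hw, hz l₀ (mem_of_mem_nhds hs0) w hw, sub_zero, norm_zero]
    have hi : ContinuousOn (fun q : ℝ × ℝ × ℝ => q.1⁻¹) (s ×ˢ Set.univ) :=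
      continuousOn_fst.inv₀ fun q hq => hq.1.1
    have h1 : ContinuousOn (fun q : ℝ × ℝ × ℝ => dil q.1 g q.2) (s ×ˢ Set.univ) := by
      simp only [dil, ← inv_pow]
      exact (Complex.continuous_ofReal.comp_continuousOn (hi.pow 2)).mul
        (hg.comp_continuousOn (hi.smul continuousOn_snd))
    have h2 : Continuous fun q : ℝ × ℝ × ℝ => dil l₀ g q.2 := by unfold dil; fun_prop
    exact (h1.sub h2.continuousOn).norm
  simpa using (hc.continuousAt hs0).tendsto


end Fou

/-- `L¹` continuity of dilations -/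
theorem tendsto_dil {c : ℝ × ℝ → ℂ} (hc : Integrable c) {l₀ : ℝ} (hl : l₀ ≠ 0) :
    Tendsto (fun l => ∫ w, ‖dil l c w - dil l₀ c w‖) (𝓝 l₀) (𝓝 0) := by
  rw [Metric.tendsto_nhds]
  intro ε hε
  obtain ⟨g, hs, hg1, hg, hgi⟩ := hc.exists_hasCompactSupport_integral_sub_le
    (show 0 < ε / 3 by positivity)
  filter_upwards [Metric.tendsto_nhds.1 (Fou.tendsto_dil_of_cont hg hs hl) (ε / 3) (by positivity),
    isOpen_ne.mem_nhds hl] with l h1 hl'
  rw [Real.dist_0_eq_abs, abs_of_nonneg (integral_nonneg fun _ => norm_nonneg _)] at h1 ⊢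
  have i1 := (integrable_dil (hc.sub hgi) hl').norm
  have i2 : Integrable fun w => ‖dil l g w - dil l₀ g w‖ :=
    ((integrable_dil hgi hl').sub (integrable_dil hgi hl)).norm
  have i4 : Integrable fun w => ‖dil l (c - g) w‖ + ‖dil l g w - dil l₀ g w‖ := i1.add i2
  have i3 := (integrable_dil (hc.sub hgi) hl).norm
  have e : ∫ w, ‖dil l c w - dil l₀ c w‖ ≤ ∫ w, (‖dil l (c - g) w‖ + ‖dil l g w - dil l₀ g w‖ +
      ‖dil l₀ (c - g) w‖) := by
    refine integral_mono ((integrable_dil hc hl').sub (integrable_dil hc hl)).norm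
      (i4.add i3) fun w => ?_
    have e1 : dil l c w - dil l₀ c w =
        dil l (c - g) w + (dil l g w - dil l₀ g w) - dil l₀ (c - g) w := by
      simp only [dil, Pi.sub_apply]; ring
    simp only [e1]
    exact (norm_sub_le _ _).trans (add_le_add_left (norm_add_le _ _) _)
  rw [integral_add i4 i3, integral_add i1 i2, integral_norm_dil hl', integral_norm_dil hl] at e
  simp only [Pi.sub_apply] at e
  linarith

namespace Fou

open scoped Real Convolution

theorem contDiff_K2 {g : ℝ × ℝ → ℂ} (hg : Continuous g) (hs : HasCompactSupport g) :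
    ContDiff ℝ ∞ (K2 g) := by
  let L : (ℝ × ℝ) →L[ℝ] (ℝ × ℝ) →L[ℝ] ℝ := (-(2 * π)⁻¹ : ℝ) •
    ((ContinuousLinearMap.mul ℝ ℝ).bilinearComp (.fst ℝ ℝ ℝ) (.fst ℝ ℝ ℝ) +
      (ContinuousLinearMap.mul ℝ ℝ).bilinearComp (.snd ℝ ℝ ℝ) (.snd ℝ ℝ ℝ))
  have h := VectorFourier.contDiff_fourierIntegral L (f := g) (μ := volume) (N := ⊤) fun n _ =>
    Continuous.integrable_of_hasCompactSupport (by fun_prop) hs.norm.mul_left
  refine (funext fun p => ?_ : K2 g = _) ▸ h
  refine integral_congr_ae (Eventually.of_forall fun w => ?_)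
  have e : 2 * π * -(L.toLinearMap₁₂ w p) = w.1 * p.1 + w.2 * p.2 := by
    have := Real.two_pi_pos.ne'
    simp [L]
    field_simp
    ring
  simp only [Circle.smul_def, Real.fourierChar_apply, e, ex, smul_eq_mul]
  rw [mul_comm, mul_comm Complex.I]

theorem K2_conv {a g : ℝ × ℝ → ℂ} (ha : Integrable a) (hg : Integrable g) (p : ℝ × ℝ) :
    K2 (a ⋆[ContinuousLinearMap.mul ℂ ℂ] g) p = K2 a p * K2 g p := by
  have hi := ha.convolution_integrand (ContinuousLinearMap.mul ℂ ℂ) hg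
  have h1 : Integrable (Function.uncurry fun w u : ℝ × ℝ =>
      a u * g (w - u) * ex (w.1 * p.1 + w.2 * p.2)) (volume.prod volume) :=
    hi.mul_bdd (c := 1) (Continuous.aestronglyMeasurable (by fun_prop))
      (Eventually.of_forall fun q => (norm_ex _).le)
  simp only [K2, convolution_def, ContinuousLinearMap.mul_apply', ← integral_mul_const]
  rw [integral_integral_swap h1]
  refine integral_congr_ae (Eventually.of_forall fun u => ?_)
  simp only
  rw [← integral_const_mul, ← integral_add_right_eq_self _ u]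
  refine integral_congr_ae (Eventually.of_forall fun w => ?_)
  have e : (w + u).1 * p.1 + (w + u).2 * p.2 =
      (u.1 * p.1 + u.2 * p.2) + (w.1 * p.1 + w.2 * p.2) := by
    simp only [Prod.fst_add, Prod.snd_add]; ring
  simp only [add_sub_cancel_right, e, ex_add (u.1 * p.1 + u.2 * p.2)]
  ring

/-- the `L¹` modulus of continuity -/
noncomputable def md (g : ℝ × ℝ → ℂ) (u : ℝ × ℝ) : ℝ := ∫ w, ‖g w - g (w - u)‖

theorem continuous_md {g : ℝ × ℝ → ℂ} (hg : Continuous g) (hs : HasCompactSupport g) :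
    Continuous (md g) := by
  obtain ⟨R, hR0, hR⟩ := exists_radius hs
  refine continuous_iff_continuousAt.2 fun u₀ => ContinuousOn.continuousAt
    (s := {u | ‖u‖ < ‖u₀‖ + 1}) ?_
    ((isOpen_lt continuous_norm continuous_const).mem_nhds (lt_add_one ‖u₀‖))
  refine continuousOn_integral_of_compact_support
    (isCompact_closedBall (0 : ℝ × ℝ) (R + (‖u₀‖ + 1))) (Continuous.continuousOn ?_)
    fun u w hu hw => ?_
  · change Continuous fun q : (ℝ × ℝ) × ℝ × ℝ => ‖g q.2 - g (q.2 - q.1)‖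
    fun_prop
  · rw [mem_closedBall_zero_iff, not_le] at hw
    have h1 := norm_sub_norm_le w u
    have h2 : ‖u‖ < ‖u₀‖ + 1 := hu
    rw [hR w (by linarith [norm_nonneg u₀]), hR (w - u) (by linarith), sub_zero, norm_zero]

theorem md_le {g : ℝ × ℝ → ℂ} (hg : Integrable g) (u : ℝ × ℝ) : md g u ≤ 2 * ∫ w, ‖g w‖ := by
  have h := hg.comp_sub_right u
  refine (integral_mono (hg.sub h).norm (hg.norm.add h.norm) fun w => norm_sub_le _ _).trans_eq ?_
  rw [integral_add' hg.norm h.norm, integral_sub_right_eq_self (fun w => ‖g w‖) u, two_mul]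

theorem md_nonneg (g : ℝ × ℝ → ℂ) (u : ℝ × ℝ) : 0 ≤ md g u :=
  integral_nonneg fun _ => norm_nonneg _

theorem norm_sub_conv_le {a g : ℝ × ℝ → ℂ} (ha : Integrable a) (h1 : ∫ u, a u = 1)
    (hg : Integrable g) :
    ∫ w, ‖g w - (a ⋆[ContinuousLinearMap.mul ℂ ℂ] g) w‖ ≤ ∫ u, ‖a u‖ * md g u := by
  have hi := ha.convolution_integrand (ContinuousLinearMap.mul ℂ ℂ) hg
  have h2 : Integrable (fun q : (ℝ × ℝ) × ℝ × ℝ => g q.1 * a q.2 - a q.2 * g (q.1 - q.2))
      (volume.prod volume) := (hg.mul_prod ha).sub hi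
  have h3 : ∀ᵐ w, ‖g w - (a ⋆[ContinuousLinearMap.mul ℂ ℂ] g) w‖ ≤
      ∫ u, ‖g w * a u - a u * g (w - u)‖ := by
    filter_upwards [hi.prod_right_ae] with w hw
    refine le_trans (le_of_eq ?_) (norm_integral_le_integral_norm _)
    rw [integral_sub (g := fun u => a u * g (w - u)) (ha.const_mul _) hw, integral_const_mul, h1,
      mul_one]
    rfl
  refine (integral_mono_of_nonneg (Eventually.of_forall fun _ => norm_nonneg _)
    h2.integral_norm_prod_left h3).trans_eq ?_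
  rw [integral_integral_swap (f := fun w u : ℝ × ℝ => ‖g w * a u - a u * g (w - u)‖) h2.norm]
  refine integral_congr_ae (Eventually.of_forall fun u => ?_)
  simp only [md, ← integral_const_mul, ← norm_mul, mul_sub, mul_comm]

theorem tendsto_md {φ g : ℝ × ℝ → ℂ} (hφ : Integrable φ) (hg : Continuous g)
    (hs : HasCompactSupport g) :
    Tendsto (fun t : ℝ => ∫ u, ‖φ u‖ * md g (t • u)) (𝓝 0) (𝓝 0) := by
  have hgi := hg.integrable_of_hasCompactSupport (μ := volume) hs
  have hc := continuous_md hg hs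
  have h := tendsto_integral_filter_of_dominated_convergence (μ := volume) (l := 𝓝 (0 : ℝ))
    (F := fun t u => ‖φ u‖ * md g (t • u)) (f := fun _ => 0)
    (fun u => ‖φ u‖ * (2 * ∫ w, ‖g w‖))
    (Eventually.of_forall fun t => hφ.1.norm.mul (Continuous.aestronglyMeasurable (by fun_prop)))
    (Eventually.of_forall fun t => Eventually.of_forall fun u => by
      rw [Real.norm_of_nonneg (mul_nonneg (norm_nonneg _) (md_nonneg _ _))]
      exact mul_le_mul_of_nonneg_left (md_le hgi _) (norm_nonneg _))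
    (hφ.norm.mul_const _) (Eventually.of_forall fun u => by
      have : Continuous fun t : ℝ => ‖φ u‖ * md g (t • u) := by fun_prop
      simpa [md] using this.tendsto 0)
  simpa using h

theorem exists_smooth_near' {c : ℝ × ℝ → ℂ} (hc : Integrable c) {ε : ℝ} (hε : 0 < ε) :
    ∃ c', Integrable c' ∧ ContDiff ℝ ∞ (K2 c') ∧ HasCompactSupport (K2 c') ∧
      ∫ w, ‖c w - c' w‖ ≤ ε := by
  obtain ⟨g, hs, hg1, hg, hgi⟩ := hc.exists_hasCompactSupport_integral_sub_le (half_pos hε)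
  let b : ContDiffBump (0 : ℝ × ℝ) := ⟨1, 2, one_pos, one_lt_two⟩
  have hb : ContDiff ℝ ∞ fun p => (b p : ℂ) := Complex.ofRealCLM.contDiff.comp b.contDiff
  have hbs : HasCompactSupport fun p => (b p : ℂ) :=
    b.hasCompactSupport.comp_left (g := fun x : ℝ => (x : ℂ)) Complex.ofReal_zero
  obtain ⟨φ, hφ, -, hK, -⟩ := exists_K2 hb hbs
  obtain ⟨t, ht, ht0⟩ : ∃ t : ℝ, ∫ u, ‖φ u‖ * md g (t • u) < ε / 2 ∧ t ≠ 0 :=
    ((((tendsto_md hφ hg hs).mono_left nhdsWithin_le_nhds).eventually_lt_const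
      (half_pos hε)).and (self_mem_nhdsWithin (s := {0}ᶜ))).exists
  have ha := integrable_dil hφ ht0
  have hKa : ∀ p, K2 (dil t φ) p = b (t • p) := fun p => by rw [K2_dil φ ht0, hK]
  have h1 : ∫ u, dil t φ u = 1 := by
    have := hKa 0
    rw [smul_zero, b.one_of_mem_closedBall (Metric.mem_closedBall_self zero_le_one)] at this
    simpa [K2] using this
  have hi := ha.integrable_convolution (ContinuousLinearMap.mul ℂ ℂ) hgi
  have e : K2 (dil t φ ⋆[ContinuousLinearMap.mul ℂ ℂ] g) = fun p => (b (t • p) : ℂ) * K2 g p :=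
    funext fun p => by rw [K2_conv ha hgi, hKa]
  refine ⟨_, hi, ?_, ?_, ?_⟩
  · rw [e]
    exact (hb.comp (contDiff_const_smul t)).mul (contDiff_K2 hg hs)
  · rw [e]
    exact (hbs.comp_smul ht0).mul_right
  · have h2 := norm_sub_conv_le ha h1 hgi
    have h3 : ∫ u, ‖dil t φ u‖ * md g u = ∫ u, ‖φ u‖ * md g (t • u) := by
      rw [← integral_scale (fun u => ‖φ u‖ * md g (t • u)) ht0]
      simp only [norm_dil, smul_inv_smul₀ ht0, smul_eq_mul, mul_assoc]
    refine (integral_mono (hc.sub hi).norm ((hc.sub hgi).norm.add (hgi.sub hi).norm)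
      fun w => norm_sub_le_norm_sub_add_norm_sub _ (g w) _).trans ?_
    rw [integral_add' (hc.sub hgi).norm (hgi.sub hi).norm]
    simp only [Pi.sub_apply]
    linarith

theorem K2_neg (c : ℝ × ℝ → ℂ) (p : ℝ × ℝ) : K2 (fun w => c (-w)) p = K2 c (-p) := by
  rw [K2, ← integral_neg_eq_self]
  simp [K2]

theorem integrable_K2 {c : ℝ × ℝ → ℂ} (hc : Integrable c) (p : ℝ × ℝ) :
    Integrable fun w => c w * ex (w.1 * p.1 + w.2 * p.2) :=
  hc.mul_bdd (c := 1) (Continuous.aestronglyMeasurable (by fun_prop))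
    (Eventually.of_forall fun _ => (norm_ex _).le)

end Fou

/-- even densities with smooth compactly supported kernel are dense -/
theorem exists_smooth_near {c : ℝ × ℝ → ℂ} (hc : Integrable c) (he : Ev c) {ε : ℝ} (hε : 0 < ε) :
    ∃ c', Integrable c' ∧ Ev c' ∧ ContDiff ℝ ∞ (K2 c') ∧ HasCompactSupport (K2 c') ∧
      ∫ w, ‖c w - c' w‖ ≤ ε := by
  obtain ⟨d, h1, h2, h3, h4⟩ := Fou.exists_smooth_near' hc hε
  have h1' : Integrable fun w => d (-w) := h1.comp_neg
  have e : K2 (fun w => 2⁻¹ * (d w + d (-w))) = fun p => 2⁻¹ * (K2 d p + K2 d (-p)) := by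
    funext p
    rw [← Fou.K2_neg, K2, K2, K2, ← integral_add (Fou.integrable_K2 h1 p) (Fou.integrable_K2 h1' p),
      ← integral_const_mul]
    simp only [mul_assoc, add_mul]
  refine ⟨fun w => 2⁻¹ * (d w + d (-w)), (h1.add h1').const_mul _,
    fun w => by simp only [neg_neg, add_comm], ?_, ?_, ?_⟩
  · rw [e]
    exact contDiff_const.mul (h2.add (h2.comp contDiff_neg))
  · rw [e]
    exact (h3.add (h3.comp_homeomorph (Homeomorph.neg _))).mul_left
  · have i1 := (hc.sub h1).norm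
    have i2 := i1.comp_neg
    have e2 : ∫ w, ‖c (-w) - d (-w)‖ = ∫ w, ‖c w - d w‖ :=
      integral_neg_eq_self (fun w => ‖c w - d w‖) volume
    refine (integral_mono (hc.sub ((h1.add h1').const_mul _)).norm ((i1.add i2).const_mul 2⁻¹)
      fun w => ?_).trans ?_
    · have e3 : c w - 2⁻¹ * (d w + d (-w)) = 2⁻¹ * ((c w - d w) + (c (-w) - d (-w))) := by
        rw [he w]; ring
      simp only [Pi.sub_apply, Pi.add_apply, e3, norm_mul, norm_inv, Complex.norm_ofNat]
      exact mul_le_mul_of_nonneg_left (norm_add_le _ _) (by norm_num)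
    · rw [integral_const_mul, integral_add' i1 i2]
      simp only [Pi.sub_apply, e2]
      linarith

end Crest.Agent.N111
end

-- ▼ part N111/Lib/Fou2A
section

/-! # Row 111: the even Fourier algebra of the plane: products with functions of a line, Ditkin's
lemma (helper54). -/

set_option autoImplicit false

namespace Crest.Agent.N111

open MeasureTheory Topology Filter
open scoped ContDiff

/-- `k` is the kernel of an even density of norm at most `a` -/
def HA (k : ℝ × ℝ → ℂ) (a : ℝ) : Prop :=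
  ∃ c, Integrable c ∧ Ev c ∧ K2 c = k ∧ ∫ w, ‖c w‖ ≤ a

theorem integrable_mul_ex {Ω : Type} [MeasurableSpace Ω] {m : Measure Ω} {c : Ω → ℂ}
    (hc : Integrable c m) {θ : Ω → ℝ} (hθ : Measurable θ) :
    Integrable (fun w => c w * ex (θ w)) m :=
  hc.mul_bdd (c := 1) (measurable_ex.comp hθ).aestronglyMeasurable
    (Eventually.of_forall fun _ => (norm_ex _).le)

theorem K2_add {c c' : ℝ × ℝ → ℂ} (hc : Integrable c) (hc' : Integrable c') (p : ℝ × ℝ) :
    K2 (fun w => c w + c' w) p = K2 c p + K2 c' p := by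
  simp only [K2, add_mul]
  exact integral_add (integrable_mul_ex hc (by fun_prop)) (integrable_mul_ex hc' (by fun_prop))

theorem K2_smul (z : ℂ) (c : ℝ × ℝ → ℂ) (p : ℝ × ℝ) : K2 (fun w => z * c w) p = z * K2 c p := by
  simp only [K2, mul_assoc]
  exact integral_const_mul _ _

theorem K2_neg_of_ev {c : ℝ × ℝ → ℂ} (he : Ev c) (p : ℝ × ℝ) : K2 c (-p) = K2 c p := by
  rw [K2, ← integral_neg_eq_self]
  simp only [he _, K2, Prod.fst_neg, Prod.snd_neg, neg_mul_neg]

namespace HA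

variable {k k' : ℝ × ℝ → ℂ} {a a' : ℝ}

theorem mono (h : HA k a) (ha : a ≤ a') : HA k a' :=
  let ⟨c, h1, h2, h3, h4⟩ := h; ⟨c, h1, h2, h3, h4.trans ha⟩

theorem nonneg (h : HA k a) : 0 ≤ a :=
  let ⟨_, _, _, _, h4⟩ := h; (integral_nonneg fun _ => norm_nonneg _).trans h4

theorem congr (h : HA k a) (e : ∀ p, k p = k' p) : HA k' a := (funext e : k = k') ▸ h

theorem ev (h : HA k a) : Ev k := by
  obtain ⟨c, -, h2, rfl, -⟩ := h
  exact K2_neg_of_ev h2

theorem add (h : HA k a) (h' : HA k' a') : HA (fun p => k p + k' p) (a + a') := by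
  obtain ⟨c, h1, h2, rfl, h4⟩ := h
  obtain ⟨c', h1', h2', rfl, h4'⟩ := h'
  refine ⟨fun w => c w + c' w, h1.add h1', fun w => by simp only [h2 w, h2' w],
    funext (K2_add h1 h1'), le_trans ?_ (add_le_add h4 h4')⟩
  rw [← integral_add h1.norm h1'.norm]
  exact integral_mono (h1.add h1').norm (h1.norm.add h1'.norm) fun w => norm_add_le _ _

theorem smul (h : HA k a) (z : ℂ) : HA (fun p => z * k p) (‖z‖ * a) := by
  obtain ⟨c, h1, h2, rfl, h4⟩ := h
  refine ⟨fun w => z * c w, h1.const_mul z, fun w => by simp only [h2 w], funext (K2_smul z c), ?_⟩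
  simp only [norm_mul, integral_const_mul]
  gcongr

theorem sub (h : HA k a) (h' : HA k' a') : HA (fun p => k p - k' p) (a + a') := by
  simpa [sub_eq_add_neg] using h.add (h'.smul (-1))

theorem dil (h : HA k a) {l : ℝ} (hl : l ≠ 0) : HA (fun p => k (l • p)) a := by
  obtain ⟨c, h1, h2, rfl, h4⟩ := h
  exact ⟨N111.dil l c, integrable_dil h1 hl, fun w => by simp only [N111.dil, smul_neg, h2 _],
    funext (K2_dil c hl), (integral_norm_dil hl).trans_le h4⟩


theorem tensor {c d : ℝ → ℂ} (hc : Integrable c) (hd : Integrable d) (ec : Ev c) (ed : Ev d) :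
    HA (fun p => K1 c p.1 * K1 d p.2) ((∫ w, ‖c w‖) * ∫ w, ‖d w‖) := by
  refine ⟨fun w => c w.1 * d w.2, hc.mul_prod hd, fun w => by
    simp only [Prod.fst_neg, Prod.snd_neg, ec _, ed _], funext fun p => ?_, le_of_eq ?_⟩
  · rw [K1, K1, ← integral_prod_mul, K2]
    refine integral_congr_ae (Eventually.of_forall fun w => ?_)
    simp only [ex_add]; ring
  · rw [← integral_prod_mul]
    simp only [norm_mul]; rfl

/-- pushing a density on `ℝ × ℝ²` along `(u, w) ↦ w + u (1, a)` -/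
theorem push {H : ℝ × (ℝ × ℝ) → ℂ} (hH : Integrable H) (he : Ev H) (a : ℝ) :
    HA (fun p => ∫ z, H z * (ex (z.2.1 * p.1 + z.2.2 * p.2) * ex (z.1 * (p.1 + a * p.2))))
      (∫ z, ‖H z‖) := by
  let T : ℝ × (ℝ × ℝ) → ℝ × (ℝ × ℝ) := fun z => (id z.1, z.2 - z.1 • ((1, a) : ℝ × ℝ))
  have hT : MeasurePreserving T volume volume :=
    (MeasurePreserving.id volume).skew_product (g := fun u w => w - u • ((1, a) : ℝ × ℝ))
      (by fun_prop) (Eventually.of_forall fun u => (measurePreserving_sub_right volume _).map_eq)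
  have hc : ∀ {E : Type} [NormedAddCommGroup E] [NormedSpace ℝ E] {F : ℝ × (ℝ × ℝ) → E},
      Integrable F → ∫ w, ∫ u, F (T (u, w)) = ∫ z, F z := fun {E} _ _ {F} hF => by
    rw [← integral_prod_symm (fun z => F (T z)) (hT.integrable_comp_of_integrable hF),
      ← Measure.volume_eq_prod, ← integral_map hT.measurable.aemeasurable
        (hT.map_eq.symm ▸ hF.aestronglyMeasurable), hT.map_eq]
  have hHT : Integrable (fun z => H (T z)) (volume.prod volume) :=
    hT.integrable_comp_of_integrable hH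
  refine ⟨fun w => ∫ u, H (T (u, w)), hHT.integral_prod_right, fun w => ?_, funext fun p => ?_, ?_⟩
  · beta_reduce
    rw [← integral_neg_eq_self]
    refine integral_congr_ae (Eventually.of_forall fun u => ?_)
    beta_reduce
    rw [← he]
    simp only [T, id, Prod.neg_mk, neg_neg, neg_smul, neg_add_rev, sub_eq_add_neg,
      add_comm]
  · have hF : Integrable fun z : ℝ × (ℝ × ℝ) =>
        H z * (ex (z.2.1 * p.1 + z.2.2 * p.2) * ex (z.1 * (p.1 + a * p.2))) := by
      simp only [← ex_add]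
      exact integrable_mul_ex hH (by fun_prop)
    rw [← hc hF, K2]
    refine integral_congr_ae (Eventually.of_forall fun w => ?_)
    simp only [← integral_mul_const, ← ex_add]
    refine integral_congr_ae (Eventually.of_forall fun u => ?_)
    simp only [T, id, Prod.fst_sub, Prod.snd_sub, Prod.smul_mk, smul_eq_mul]
    congr 2; ring
  · rw [← hc hH.norm]
    exact integral_mono hHT.integral_prod_right.norm hHT.norm.integral_prod_right
      fun w => norm_integral_le_integral_norm _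

/-- multiplication by a function of `s + a y` -/
theorem mul_line (h : HA k a') {d : ℝ → ℂ} (hd : Integrable d) (ed : Ev d) (a : ℝ) :
    HA (fun p => k p * K1 d (p.1 + a * p.2)) (a' * ∫ u, ‖d u‖) := by
  obtain ⟨c, h1, h2, rfl, h4⟩ := h
  have := push (H := fun z => d z.1 * c z.2) (hd.mul_prod h1)
    (fun z => by simp only [Prod.fst_neg, Prod.snd_neg, ed _, h2 _]) a
  refine (this.congr fun p => ?_).mono ?_
  · rw [K1, K2, mul_comm (∫ w : ℝ × ℝ, _), ← integral_prod_mul]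
    refine integral_congr_ae (Eventually.of_forall fun z => ?_)
    simp only; ring
  · simp only [norm_mul]
    rw [Measure.volume_eq_prod, integral_prod_mul (fun u => ‖d u‖) fun w => ‖c w‖, mul_comm]
    gcongr

end HA

/-- dilation of a density on the line -/
noncomputable def dil1 (ε : ℝ) (d : ℝ → ℂ) : ℝ → ℂ := fun u => (ε : ℂ) * d (ε * u)

theorem integrable_dil1 {d : ℝ → ℂ} (hd : Integrable d) {ε : ℝ} (hε : 0 < ε) :
    Integrable (dil1 ε d) := (hd.comp_mul_left' hε.ne').const_mul _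

theorem ev_dil1 {d : ℝ → ℂ} (ed : Ev d) (ε : ℝ) : Ev (dil1 ε d) := fun u => by
  simp only [dil1, mul_neg, ed _]

theorem integral_norm_dil1 (d : ℝ → ℂ) {ε : ℝ} (hε : 0 < ε) :
    ∫ u, ‖dil1 ε d u‖ = ∫ u, ‖d u‖ := by
  simp only [dil1, norm_mul, Complex.norm_real, Real.norm_of_nonneg hε.le, integral_const_mul]
  rw [Measure.integral_comp_mul_left (fun u => ‖d u‖), abs_of_pos (inv_pos.2 hε), smul_eq_mul,
    mul_inv_cancel_left₀ hε.ne']

theorem K1_dil1 (d : ℝ → ℂ) {ε : ℝ} (hε : 0 < ε) (s : ℝ) : K1 (dil1 ε d) s = K1 d (s / ε) := by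
  have h : ∀ u, dil1 ε d u * ex (u * s) = ε * (fun v => d v * ex (v * (s / ε))) (ε * u) :=
    fun u => by
      simp only [dil1, mul_assoc]
      congr 3; field_simp
  simp only [K1, h, integral_const_mul]
  rw [Measure.integral_comp_mul_left (fun v => d v * ex (v * (s / ε))), abs_of_pos (inv_pos.2 hε),
    Complex.real_smul, ← mul_assoc, ← Complex.ofReal_mul, mul_inv_cancel₀ hε.ne']
  simp

/-- `L¹` continuity of translations -/
theorem continuous_transl {d : ℝ → ℂ} (hd : Integrable d) :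
    Continuous fun t : ℝ => ∫ u, ‖d u - d (t + u)‖ := by
  have : Fact ((1 : ENNReal) ≠ ⊤) := ⟨ENNReal.one_ne_top⟩
  have hm : MemLp d 1 := memLp_one_iff_integrable.2 hd
  have h3 : Continuous fun t : ℝ => DomAddAct.mk t +ᵥ hm.toLp d :=
    DomAddAct.continuous_mk.vadd continuous_const
  have h4 : Continuous fun t : ℝ => ‖hm.toLp d - (DomAddAct.mk t +ᵥ hm.toLp d)‖ := by fun_prop
  refine h4.congr fun t => ?_
  rw [DomAddAct.mk_vadd_toLp, ← MemLp.toLp_sub, L1.norm_eq_integral_norm]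
  refine integral_congr_ae ((MemLp.coeFn_toLp (hm.sub (hm.comp_measurePreserving
    (measurePreserving_vadd t volume)))).mono fun u hu => ?_)
  exact congrArg norm hu

theorem tendsto_transl {d : ℝ → ℂ} (hd : Integrable d) :
    Tendsto (fun t : ℝ => ∫ u, ‖d u - d (t + u)‖) (𝓝 0) (𝓝 0) := by
  simpa using (continuous_transl hd).tendsto 0

/-- **Ditkin's lemma** along the line `s + a y = 0` -/
theorem HA.ditkin {k : ℝ × ℝ → ℂ} {a' : ℝ} (h : HA k a') {d : ℝ → ℂ} (hd : Integrable d)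
    (ed : Ev d) (a : ℝ) {δ : ℝ} (hδ : 0 < δ) : ∀ᶠ ε in 𝓝[>] (0 : ℝ),
      HA (fun p => (k p - k (-(a * p.2), p.2)) * K1 d ((p.1 + a * p.2) / ε)) δ := by
  obtain ⟨c, h1, h2, rfl, -⟩ := h
  have hS : MeasurePreserving (fun z : ℝ × (ℝ × ℝ) => (z.2.1 + z.1, z.2)) volume volume := by
    have := (MeasurePreserving.id (volume : Measure (ℝ × ℝ))).skew_product
      (g := fun (w : ℝ × ℝ) (u : ℝ) => w.1 + u) (μc := volume) (μd := volume) (by fun_prop)
      (Eventually.of_forall fun w => (measurePreserving_add_left volume _).map_eq)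
    exact (Measure.measurePreserving_swap.comp this).comp Measure.measurePreserving_swap
  have hlim : Tendsto (fun ε : ℝ => ∫ w : ℝ × ℝ, ‖c w‖ * ∫ u, ‖d u - d (ε * w.1 + u)‖) (𝓝 0)
      (𝓝 (∫ w : ℝ × ℝ, ‖c w‖ * 0)) := by
    refine tendsto_integral_filter_of_dominated_convergence
      (fun w => ‖c w‖ * (2 * ∫ u, ‖d u‖)) (Eventually.of_forall fun ε => ?_)
      (Eventually.of_forall fun ε => Eventually.of_forall fun w => ?_) (h1.norm.mul_const _)
      (Eventually.of_forall fun w => ?_)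
    · refine h1.norm.1.mul (Measurable.aestronglyMeasurable ?_)
      exact (continuous_transl hd).measurable.comp (by fun_prop)
    · rw [Real.norm_of_nonneg (mul_nonneg (norm_nonneg _) (integral_nonneg fun _ => norm_nonneg _))]
      gcongr
      have h5 := hd.comp_add_left (ε * w.1)
      rw [two_mul]
      nth_rewrite 2 [← integral_add_left_eq_self (fun u => ‖d u‖) (ε * w.1)]
      rw [← integral_add hd.norm h5.norm]
      exact integral_mono (hd.sub h5).norm (hd.norm.add h5.norm) fun u => norm_sub_le _ _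
    · refine Tendsto.const_mul _ ((tendsto_transl hd).comp ?_)
      simpa using (continuous_mul_const w.1).tendsto (0 : ℝ)
  simp only [mul_zero, integral_zero] at hlim
  filter_upwards [self_mem_nhdsWithin,
    nhdsWithin_le_nhds (hlim.eventually (gt_mem_nhds hδ))] with ε hε hlt
  have hε : 0 < ε := hε
  have i1 : Integrable fun z : ℝ × (ℝ × ℝ) => dil1 ε d z.1 * c z.2 :=
    (integrable_dil1 hd hε).mul_prod h1
  have i2 : Integrable fun z : ℝ × (ℝ × ℝ) => dil1 ε d (z.2.1 + z.1) * c z.2 :=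
    hS.integrable_comp_of_integrable i1
  have := HA.push (H := fun z => dil1 ε d z.1 * c z.2 - dil1 ε d (z.2.1 + z.1) * c z.2) (i1.sub i2)
    (fun z => by simp only [Prod.fst_neg, Prod.snd_neg, ← neg_add, ev_dil1 ed ε _, h2 _]) a
  refine (this.congr fun p => ?_).mono (le_trans (le_of_eq ?_) hlt.le)
  · simp only [sub_mul, ← ex_add]
    rw [integral_sub (integrable_mul_ex i1 (by fun_prop)) (integrable_mul_ex i2 (by fun_prop)),
      ← K1_dil1 d hε, K1, K2, K2, mul_comm (∫ _, _), mul_comm (∫ w : ℝ × ℝ, _),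
      ← integral_prod_mul, ← integral_prod_mul]
    congr 1
    · refine integral_congr_ae (Eventually.of_forall fun z => ?_)
      simp only [ex_add]; ring
    · have i3 : Integrable fun z : ℝ × (ℝ × ℝ) => dil1 ε d z.1 * c z.2 *
          ex (z.1 * (p.1 + a * p.2) + (z.2.1 * -(a * p.2) + z.2.2 * p.2)) :=
        integrable_mul_ex i1 (by fun_prop)
      have e := integral_map hS.measurable.aemeasurable (hS.map_eq.symm ▸ i3.aestronglyMeasurable)
      rw [hS.map_eq] at e
      refine Eq.trans ?_ (e.symm.trans ?_)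
      · refine integral_congr_ae (Eventually.of_forall fun z => ?_)
        simp only
        congr 2; ring
      · refine integral_congr_ae (Eventually.of_forall fun z => ?_)
        simp only [ex_add]; ring
  · have i4 : Integrable (fun z : ℝ × (ℝ × ℝ) =>
        ‖dil1 ε d z.1 * c z.2 - dil1 ε d (z.2.1 + z.1) * c z.2‖) (volume.prod volume) :=
      (i1.sub i2).norm
    rw [Measure.volume_eq_prod, integral_prod_symm _ i4]
    refine integral_congr_ae (Eventually.of_forall fun w => ?_)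
    simp only [← sub_mul, norm_mul, integral_mul_const]
    rw [mul_comm, ← integral_norm_dil1 (fun u => d u - d (ε * w.1 + u)) hε]
    simp only [dil1, mul_sub, mul_add]

end Crest.Agent.N111
end

-- ▼ part N111/Lib/Fou2B
section

/-! # Row 111: dilation invariant functionals on the even Fourier algebra (helper54). -/

set_option autoImplicit false

namespace Crest.Agent.N111

open MeasureTheory Topology Filter
open scoped ContDiff

theorem exists_bump : ∃ d : ℝ → ℂ, Integrable d ∧ Ev d ∧ ContDiff ℝ ∞ (K1 d) ∧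
    (∀ x, |x| ≤ 1 → K1 d x = 1) ∧ ∀ x, 2 ≤ |x| → K1 d x = 0 := by
  let f : ContDiffBump (0 : ℝ) := ⟨1, 2, one_pos, one_lt_two⟩
  have hf : ContDiff ℝ ∞ fun x => ((f x : ℝ) : ℂ) := Complex.ofRealCLM.contDiff.comp f.contDiff
  obtain ⟨d, h1, -, h3, h4⟩ := exists_K1 hf (f.hasCompactSupport.comp_left Complex.ofReal_zero)
  refine ⟨d, h1, h4 fun x => by simp only [f.neg], h3 ▸ hf, fun x hx => ?_, fun x hx => ?_⟩
  · rw [h3]; simp only
    rw [f.one_of_mem_closedBall (by simpa using hx), Complex.ofReal_one]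
  · rw [h3]; simp only
    rw [f.zero_of_le_dist (by simpa using hx), Complex.ofReal_zero]

theorem exists_clm_L1 (Φ : (ℝ × ℝ → ℂ) → ℂ) (C : ℝ)
    (hae : ∀ f g, Integrable f → f =ᵐ[volume] g → Φ f = Φ g)
    (hadd : ∀ f g, Integrable f → Integrable g → Φ (fun w => f w + g w) = Φ f + Φ g)
    (hsmul : ∀ (z : ℂ) f, Integrable f → Φ (fun w => z * f w) = z * Φ f)
    (hbd : ∀ f, Integrable f → ‖Φ f‖ ≤ C * ∫ w, ‖f w‖) :
    ∃ Λ : ((ℝ × ℝ) →₁[volume] ℂ) →L[ℂ] ℂ, ∀ f, Λ f = Φ f := by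
  refine ⟨LinearMap.mkContinuous
    { toFun := fun f => Φ f
      map_add' := fun f g => ?_
      map_smul' := fun z f => ?_ } C fun f => ?_, fun f => rfl⟩
  · rw [← hadd _ _ (L1.integrable_coeFn f) (L1.integrable_coeFn g)]
    exact hae _ _ (L1.integrable_coeFn _) (Lp.coeFn_add f g)
  · rw [RingHom.id_apply, smul_eq_mul, ← hsmul _ _ (L1.integrable_coeFn f)]
    exact hae _ _ (L1.integrable_coeFn _) (Lp.coeFn_smul z f)
  · rw [L1.norm_eq_integral_norm]
    exact hbd _ (L1.integrable_coeFn f)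

theorem K2_congr_ae {f g : ℝ × ℝ → ℂ} (h : f =ᵐ[volume] g) : K2 f = K2 g :=
  funext fun _ => integral_congr_ae (h.mono fun w hw => by simp only [hw])

theorem norm_K2_le (f : ℝ × ℝ → ℂ) (p : ℝ × ℝ) : ‖K2 f p‖ ≤ ∫ w, ‖f w‖ := by
  refine (norm_integral_le_integral_norm _).trans (le_of_eq ?_)
  simp only [norm_mul, norm_ex, mul_one]

theorem HA.evenPart {f : ℝ × ℝ → ℂ} (hf : Integrable f) :
    HA (fun p => 2⁻¹ * (K2 f p + K2 f (-p))) (∫ w, ‖f w‖) := by
  have hn : Integrable fun w => f (-w) := hf.comp_neg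
  refine ⟨fun w => 2⁻¹ * (f w + f (-w)), (hf.add hn).const_mul _,
    fun w => by simp only [neg_neg, add_comm], funext fun p => ?_, ?_⟩
  · rw [K2_smul, K2_add hf hn]
    congr 2
    rw [K2, ← integral_neg_eq_self]
    simp only [neg_neg, K2, Prod.fst_neg, Prod.snd_neg, neg_mul, mul_neg]
  · have : ∫ w, ‖f w + f (-w)‖ ≤ (∫ w, ‖f w‖) + ∫ w, ‖f (-w)‖ := by
      rw [← integral_add hf.norm hn.norm]
      exact integral_mono (hf.add hn).norm (hf.norm.add hn.norm) fun w => norm_add_le _ _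
    rw [integral_neg_eq_self (fun w => ‖f w‖)] at this
    simp only [norm_mul, integral_const_mul, norm_inv, Complex.norm_ofNat]
    linarith

/-- a bounded, dilation invariant functional on even kernels killing the two lines -/
structure KF (L : (ℝ × ℝ → ℂ) → ℂ) (C : ℝ) : Prop where
  add : ∀ {k k' a a'}, HA k a → HA k' a' → L (fun p => k p + k' p) = L k + L k'
  smul : ∀ {k a}, HA k a → ∀ z : ℂ, L (fun p => z * k p) = z * L k
  bd : ∀ {k a}, HA k a → ‖L k‖ ≤ C * a
  dil : ∀ {k a}, HA k a → ∀ l : ℝ, 0 < l → L (fun p => k (l • p)) = L k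
  null : ∀ {k a}, HA k a → ∀ ε R : ℝ, 0 < ε →
    (∀ p : ℝ × ℝ, |p.1| < ε ∨ |p.1 + 2 * p.2| < ε ∨ R < |p.2| → k p = 0) → L k = 0

namespace KF

variable {L : (ℝ × ℝ → ℂ) → ℂ} {C : ℝ} {k k' : ℝ × ℝ → ℂ} {a a' : ℝ}

theorem sub (H : KF L C) (h : HA k a) (h' : HA k' a') : L (fun p => k p - k' p) = L k - L k' := by
  have := H.add h (h'.smul (-1))
  rw [H.smul h'] at this
  simpa [sub_eq_add_neg] using this

/-- averaging over dilations -/
theorem avg (H : KF L C) (h : HA k a) (V : ℝ) :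
    ∃ b, HA (fun p => ∫ v in (0 : ℝ)..V, k (Real.exp (-v) • p)) b ∧
      L (fun p => ∫ v in (0 : ℝ)..V, k (Real.exp (-v) • p)) = V * L k := by
  obtain ⟨Λ, hΛ⟩ := exists_clm_L1 (fun f => L fun p => 2⁻¹ * (K2 f p + K2 f (-p))) C
    (fun f g _ hfg => by rw [K2_congr_ae hfg])
    (fun f g hf hg => by
      rw [← H.add (HA.evenPart hf) (HA.evenPart hg)]
      congr 1; funext p
      rw [K2_add hf hg, K2_add hf hg]; ring)
    (fun z f hf => by
      rw [← H.smul (HA.evenPart hf)]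
      congr 1; funext p
      rw [K2_smul, K2_smul]; ring)
    (fun f hf => H.bd (HA.evenPart hf))
  have hE : ∀ p, ∃ E : ((ℝ × ℝ) →₁[volume] ℂ) →L[ℂ] ℂ, ∀ f, E f = K2 f p := fun p =>
    exists_clm_L1 (fun f => K2 f p) 1 (fun f g _ hfg => by rw [K2_congr_ae hfg])
      (fun f g hf hg => K2_add hf hg p) (fun z f _ => K2_smul z f p)
      (fun f _ => by rw [one_mul]; exact norm_K2_le f p)
  have hk := h
  obtain ⟨c, h1, h2, rfl, -⟩ := h
  let F : ℝ → ((ℝ × ℝ) →₁[volume] ℂ) := fun v =>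
    (integrable_dil h1 (Real.exp_pos (-v)).ne').toL1 _
  have hF : Continuous F := continuous_iff_continuousAt.2 fun v => by
    rw [ContinuousAt, tendsto_iff_norm_sub_tendsto_zero]
    have := (tendsto_dil h1 (Real.exp_pos (-v)).ne').comp
      (show Continuous fun v : ℝ => Real.exp (-v) by fun_prop).continuousAt
    refine this.congr fun u => ?_
    simp only [F, Function.comp]
    rw [← Integrable.toL1_sub, L1.norm_of_fun_eq_integral_norm]
    rfl
  have hKF : ∀ v p, K2 (F v) p = K2 c (Real.exp (-v) • p) := fun v p => by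
    rw [K2_congr_ae (Integrable.coeFn_toL1 _), K2_dil _ (Real.exp_pos _).ne']
  let G : (ℝ × ℝ) →₁[volume] ℂ := ∫ v in (0 : ℝ)..V, F v
  have hG : ∀ p, K2 G p = ∫ v in (0 : ℝ)..V, K2 c (Real.exp (-v) • p) := fun p => by
    obtain ⟨E, hE⟩ := hE p
    rw [← hE, ← E.intervalIntegral_comp_comm (hF.intervalIntegrable _ _)]
    simp only [hE, hKF]
  have hev : ∀ p, 2⁻¹ * (K2 G p + K2 G (-p)) =
      ∫ v in (0 : ℝ)..V, K2 c (Real.exp (-v) • p) := fun p => by
    simp only [hG, smul_neg, K2_neg_of_ev h2]; ring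
  refine ⟨_, (HA.evenPart (L1.integrable_coeFn _)).congr hev, ?_⟩
  rw [← funext hev, ← hΛ, ← Λ.intervalIntegral_comp_comm (hF.intervalIntegrable _ _)]
  have : ∀ v, Λ (F v) = L (K2 c) := fun v => by
    rw [hΛ, ← H.dil hk _ (Real.exp_pos (-v))]
    congr 1; funext p
    simp only [hKF, smul_neg, K2_neg_of_ev h2]; ring
  simp [this]

theorem eq_zero_of_small {z : ℂ} {B : ℝ} (h : ∀ δ : ℝ, 0 < δ → ‖z‖ ≤ B * δ) : z = 0 := by
  have : Tendsto (fun δ : ℝ => B * δ) (𝓝[>] 0) (𝓝 (B * 0)) :=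
    (tendsto_nhdsWithin_of_tendsto_nhds tendsto_id).const_mul B
  rw [mul_zero] at this
  exact norm_le_zero_iff.1 (ge_of_tendsto this (eventually_mem_nhdsWithin.mono h))

/-- **synthesis for the two lines** -/
theorem lines (H : KF L C) (h : HA k a) {R : ℝ} (hR : ∀ p : ℝ × ℝ, R < |p.2| → k p = 0)
    (h0 : ∀ y, k (0, y) = 0) (h2 : ∀ y, k (-(2 * y), y) = 0) : L k = 0 := by
  obtain ⟨d, hd, ed, -, d1, -⟩ := exists_bump
  refine eq_zero_of_small (B := C + C + C * ∫ u, ‖d u‖) fun δ hδ => ?_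
  obtain ⟨ε, ⟨e0, e2⟩, hε⟩ := (((h.ditkin hd ed 0 hδ).and (h.ditkin hd ed 2 hδ)).and
    self_mem_nhdsWithin).exists
  have hε : 0 < ε := hε
  simp only [zero_mul, neg_zero, h0, sub_zero, add_zero] at e0
  simp only [h2, sub_zero] at e2
  have e3 := e0.mul_line (integrable_dil1 hd hε) (ev_dil1 ed ε) 2
  simp only [K1_dil1 d hε, integral_norm_dil1 d hε] at e3
  have e4 := H.null (((h.sub e0).sub e2).add e3) ε R hε fun p hp => by
    rcases hp with hp | hp | hp
    · rw [d1 (p.1 / ε) (by rw [abs_div, abs_of_pos hε, div_le_one hε]; exact hp.le)]; ring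
    · rw [d1 ((p.1 + 2 * p.2) / ε) (by rw [abs_div, abs_of_pos hε, div_le_one hε]; exact hp.le)]
      ring
    · rw [hR p hp]; ring
  rw [H.add ((h.sub e0).sub e2) e3, H.sub (h.sub e0) e2, H.sub h e0] at e4
  have b0 := H.bd e0
  have b2 := H.bd e2
  have b3 := H.bd e3
  generalize L (fun p => k p * K1 d (p.1 / ε)) = x at e4 b0
  generalize L (fun p => k p * K1 d ((p.1 + 2 * p.2) / ε)) = y at e4 b2
  generalize L (fun p => k p * K1 d (p.1 / ε) * K1 d ((p.1 + 2 * p.2) / ε)) = z at e4 b3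
  rw [show L k = x + y - z by linear_combination e4]
  have := norm_sub_le (x + y) z
  have := norm_add_le x y
  linarith

/-- the primitive `∫_s^R g(σ) dσ/σ` -/
theorem exists_prim {g : ℝ → ℂ} (hg : ContDiff ℝ ∞ g) (he : Ev g) {ε R : ℝ} (hε : 0 < ε)
    (h0 : ∀ s, |s| < ε → g s = 0) (hR : ∀ s, R < |s| → g s = 0) :
    ∃ κ : ℝ → ℂ, Integrable κ ∧ Ev κ ∧ (∀ s, R ≤ |s| → K1 κ s = 0) ∧
      ∀ s V, ∫ v in (0 : ℝ)..V, g (Real.exp (-v) * s) = K1 κ (Real.exp (-V) * s) - K1 κ s := by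
  let γ : ℝ → ℂ := fun σ => g σ * ((σ⁻¹ : ℝ) : ℂ)
  have hγ : ContDiff ℝ ∞ γ := contDiff_iff_contDiffAt.2 fun σ => by
    rcases eq_or_ne σ 0 with rfl | hσ
    · refine (contDiffAt_const (c := (0 : ℂ))).congr_of_eventuallyEq ?_
      filter_upwards [Metric.ball_mem_nhds (0 : ℝ) hε] with x hx
      simp only [γ, h0 x (by simpa using hx), zero_mul]
    · exact hg.contDiffAt.mul (Complex.ofRealCLM.contDiff.contDiffAt.comp σ (contDiffAt_inv ℝ hσ))
  have hi : ∀ x y, IntervalIntegrable γ volume x y := fun x y => hγ.continuous.intervalIntegrable x y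
  let k : ℝ → ℂ := fun s => ∫ σ in s..|R|, γ σ
  have hk : ∀ s, HasDerivAt k (-γ s) s := fun s =>
    intervalIntegral.integral_hasDerivAt_left (hi _ _)
      (hγ.continuous.stronglyMeasurableAtFilter _ _) hγ.continuous.continuousAt
  have hks : ContDiff ℝ ∞ k := contDiff_infty_iff_deriv.2 ⟨fun s => (hk s).differentiableAt, by
    rw [show deriv k = fun s => -γ s from funext fun s => (hk s).deriv]; exact hγ.neg⟩
  have hke : Ev k := fun s => by
    have h1 := intervalIntegral.integral_comp_neg (a := -s) (b := s) (f := γ)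
    have h2 : ∀ σ, γ (-σ) = -γ σ := fun σ => by simp [γ, he σ]
    simp only [h2, intervalIntegral.integral_neg, neg_neg] at h1
    have h3 : ∫ σ in -s..s, γ σ = 0 := by linear_combination (-2⁻¹ : ℂ) * h1
    simp only [k]
    rw [← intervalIntegral.integral_add_adjacent_intervals (hi (-s) s) (hi s _), h3, zero_add]
  have hk0 : ∀ s, R ≤ |s| → k s = 0 := fun s hs => by
    have : k |s| = 0 := by
      refine (intervalIntegral.integral_congr_ae (Eventually.of_forall fun σ hσ => ?_)).trans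
        intervalIntegral.integral_zero
      have h1 : R < |σ| := by
        refine lt_of_le_of_lt (le_min hs (le_abs_self R)) (lt_of_lt_of_le hσ.1 (le_abs_self σ))
      simp only [γ, hR σ h1, zero_mul]
    rcases abs_choice s with h | h
    · rwa [h] at this
    · rwa [h, hke] at this
  obtain ⟨κ, h1, -, h3, h4⟩ := exists_K1 hks (HasCompactSupport.intro (isCompact_closedBall 0 R)
    fun s hs => hk0 s (by simpa using (not_le.1 (mt Metric.mem_closedBall.2 hs)).le))
  refine ⟨κ, h1, h4 hke, h3 ▸ hk0, fun s V => ?_⟩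
  have hd : ∀ v, HasDerivAt (fun v => k (Real.exp (-v) * s)) (g (Real.exp (-v) * s)) v := fun v => by
    have h5 : HasDerivAt (fun v => Real.exp (-v) * s) (-(Real.exp (-v) * s)) v := by
      simpa using (hasDerivAt_neg v).exp.mul_const s
    refine ((hk (Real.exp (-v) * s)).scomp v h5).congr_deriv (Eq.symm ?_)
    generalize Real.exp (-v) * s = σ
    rcases eq_or_ne σ 0 with rfl | hσ
    · simp [h0 0 (by simpa using hε)]
    · have : (σ : ℂ) ≠ 0 := by exact_mod_cast hσ
      simp only [γ, Complex.real_smul]; push_cast; field_simp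
  rw [intervalIntegral.integral_eq_sub_of_hasDerivAt (fun v _ => hd v)
    ((hg.continuous.comp (by fun_prop)).intervalIntegrable _ _), h3]
  simp

/-- smooth kernels vanishing near `s = 0` -/
theorem near (H : KF L C) (h : HA k a) (hs : ContDiff ℝ ∞ k) {R ε : ℝ} (hR0 : 0 < R) (hε : 0 < ε)
    (hR : ∀ p : ℝ × ℝ, R < |p.2| → k p = 0) (h0 : ∀ p : ℝ × ℝ, |p.1| < ε → k p = 0) :
    L k = 0 := by
  obtain ⟨d, hd, ed, -, d1, d2⟩ := exists_bump
  obtain ⟨κ, hκ, eκ, κ0, hp⟩ := exists_prim (g := fun s => k (s, -(s / 2))) (ε := ε) (R := 2 * R)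
    (hs.comp (by fun_prop)) (fun s => by beta_reduce; rw [← h.ev]; simp [neg_div]) hε (fun s hs => h0 _ hs)
    fun s hs => hR _ (by rw [abs_neg, abs_div, abs_two]; linarith)
  have key : ∀ V : ℝ, 0 ≤ V → V * ‖L k‖ ≤ C * ((∫ u, ‖κ u‖) * (∫ u, ‖d u‖) +
      (∫ u, ‖κ u‖) * ∫ u, ‖d u‖) := fun V hV => by
    obtain ⟨b, hA, hL⟩ := H.avg h V
    have he := Real.exp_pos (-V)
    have hr : 0 < R / Real.exp (-V) := div_pos hR0 he
    have t1 := (HA.tensor hκ (integrable_dil1 hd hR0) eκ (ev_dil1 ed R)).dil he.ne'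
    have t2 := HA.tensor hκ (integrable_dil1 hd hr) eκ (ev_dil1 ed _)
    simp only [K1_dil1 d hR0, integral_norm_dil1 d hR0, Prod.smul_fst, Prod.smul_snd,
      smul_eq_mul] at t1
    simp only [K1_dil1 d hr, integral_norm_dil1 d hr, div_div_eq_mul_div, mul_comm _ (Real.exp _)]
      at t2
    have hle : ∀ v ∈ Set.uIcc 0 V, ∀ y : ℝ, |Real.exp (-V) * y| ≤ |Real.exp (-v) * y| :=
      fun v hv y => by
        rw [Set.uIcc_of_le hV] at hv
        rw [abs_mul, abs_mul, abs_of_pos he, abs_of_pos (Real.exp_pos _)]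
        gcongr; exact hv.2
    have := H.lines (hA.sub (t1.sub t2)) (R := 2 * R / Real.exp (-V)) (fun p hp => ?_)
      (fun y => ?_) fun y => ?_
    · rw [H.sub hA (t1.sub t2), hL, sub_eq_zero] at this
      have hb := H.bd (t1.sub t2)
      rwa [← this, norm_mul, Complex.norm_real, Real.norm_of_nonneg hV] at hb
    · have h1 : 2 * R < |Real.exp (-V) * p.2| := by
        rwa [abs_mul, abs_of_pos he, mul_comm (Real.exp _), ← div_lt_iff₀ he]
      rw [d2 _ (by rw [abs_div, abs_of_pos hR0, le_div_iff₀ hR0]; exact h1.le),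
        intervalIntegral.integral_congr (g := fun _ => 0) fun v hv =>
          hR _ (by have := hle v hv p.2; simp only [Prod.smul_snd, smul_eq_mul]; linarith)]
      simp
    · rw [intervalIntegral.integral_congr (g := fun _ => 0) fun v _ => h0 _ (by simpa using hε)]
      simp
    · have h1 := hp (-(2 * y)) V
      have h2 : ∀ v : ℝ, (Real.exp (-v) * -(2 * y), -(Real.exp (-v) * -(2 * y) / 2)) =
          Real.exp (-v) • ((-(2 * y), y) : ℝ × ℝ) := fun v => by
        simp only [Prod.smul_mk, smul_eq_mul]; congr 1; ring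
      simp only [h2] at h1
      simp only [h1]
      rcases le_or_gt |Real.exp (-V) * y| R with h3 | h3
      · rw [d1 _ (by rwa [abs_div, abs_of_pos hR0, div_le_one hR0])]; ring
      · have h4 : 2 * R ≤ |Real.exp (-V) * -(2 * y)| := by
          rw [show Real.exp (-V) * -(2 * y) = -(2 * (Real.exp (-V) * y)) by ring, abs_neg, abs_mul,
            abs_two]
          linarith
        have h5 := hle 0 Set.left_mem_uIcc (-(2 * y))
        rw [neg_zero, Real.exp_zero, one_mul] at h5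
        rw [κ0 _ h4, κ0 _ (h4.trans h5)]; ring
  by_contra hne
  have hpos : 0 < ‖L k‖ := norm_pos_iff.2 hne
  generalize C * ((∫ u, ‖κ u‖) * (∫ u, ‖d u‖) + (∫ u, ‖κ u‖) * ∫ u, ‖d u‖) = B at key
  have := key ((|B| + 1) / ‖L k‖) (by positivity)
  rw [div_mul_cancel₀ _ hpos.ne'] at this
  linarith [le_abs_self B]

/-- smooth kernels vanishing on `s = 0` -/
theorem axis (H : KF L C) (h : HA k a) (hs : ContDiff ℝ ∞ k) {R : ℝ} (hR0 : 0 < R)
    (hR : ∀ p : ℝ × ℝ, R < |p.2| → k p = 0) (h0 : ∀ y, k (0, y) = 0) : L k = 0 := by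
  obtain ⟨d, hd, ed, ds, d1, -⟩ := exists_bump
  refine eq_zero_of_small (B := C) fun δ hδ => ?_
  obtain ⟨ε, e0, hε⟩ := ((h.ditkin hd ed 0 hδ).and self_mem_nhdsWithin).exists
  have hε : 0 < ε := hε
  simp only [zero_mul, neg_zero, h0, sub_zero, add_zero] at e0
  have := H.near (h.sub e0) (hs.sub (hs.mul (ds.comp (by fun_prop)))) hR0 hε
    (fun p hp => by rw [hR p hp]; ring) fun p hp => by
      rw [d1 (p.1 / ε) (by rw [abs_div, abs_of_pos hε, div_le_one hε]; exact hp.le)]; ring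
  rw [H.sub h e0, sub_eq_zero] at this
  exact this ▸ H.bd e0

end KF

end Crest.Agent.N111
end

-- ▼ part N111/Lib/Fou2
section

/-! # Row 111: Fourier algebra tools and scalar lemmas (API; fill the proofs IN PLACE). -/

set_option autoImplicit false
set_option linter.unusedVariables false

namespace Crest.Agent.N111

open MeasureTheory Topology Filter
open scoped ContDiff

/-- **E0, abstract form.**  Coordinates `p = (s, y)`. -/
theorem e0_abstract (M : (ℝ × ℝ → ℂ) → ℂ) (C : ℝ)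
    (hadd : ∀ c c', Integrable c → Ev c → Integrable c' → Ev c' →
      M (fun w => c w + c' w) = M c + M c')
    (hsmul : ∀ (z : ℂ) c, Integrable c → Ev c → M (fun w => z * c w) = z * M c)
    (hbd : ∀ c, Integrable c → Ev c → ‖M c‖ ≤ C * ∫ w, ‖c w‖)
    (hdil : ∀ c, Integrable c → Ev c → ∀ l : ℝ, 0 < l → M (dil l c) = M c)
    (hnull : ∀ c, Integrable c → Ev c → ∀ ε R : ℝ, 0 < ε →
      (∀ p : ℝ × ℝ, |p.1| < ε ∨ |p.1 + 2 * p.2| < ε ∨ R < |p.2| → K2 c p = 0) → M c = 0)
    (hN : ∀ c, Integrable c → Ev c → ∀ (N : ℝ → ℂ) (R : ℝ), 0 < R → (∀ y, R < |y| → N y = 0) →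
      (∀ p : ℝ × ℝ, |p.1| ≤ 4 * R → K2 c p = N p.2) →
      (∀ p : ℝ × ℝ, R < |p.2| → K2 c p = 0) → M c = 0) :
    ∀ c, Integrable c → Ev c → M c = 0 := by
  classical
  have hsub : ∀ c c', Integrable c → Ev c → Integrable c' → Ev c' →
      M (fun w => c w + -1 * c' w) = M c - M c' := fun c c' h1 h2 h3 h4 => by
    rw [hadd c _ h1 h2 (h3.const_mul _) fun w => by simp only [h4 w], hsmul _ _ h3 h4]; ring
  have hker : ∀ c c', Integrable c → Ev c → Integrable c' → Ev c' → K2 c = K2 c' → M c = M c' :=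
    fun c c' h1 h2 h3 h4 e => by
      rw [← sub_eq_zero, ← hsub c c' h1 h2 h3 h4]
      refine hnull _ (h1.add (h3.const_mul _)) (fun w => by simp only [h2 w, h4 w]) 1 0 one_pos
        fun p _ => ?_
      rw [K2_add h1 (h3.const_mul _), K2_smul, e]; ring
  let L : (ℝ × ℝ → ℂ) → ℂ := fun k =>
    if h : ∃ c, Integrable c ∧ Ev c ∧ K2 c = k then M h.choose else 0
  have hL : ∀ c, Integrable c → Ev c → L (K2 c) = M c := fun c h1 h2 => by
    have h : ∃ c', Integrable c' ∧ Ev c' ∧ K2 c' = K2 c := ⟨c, h1, h2, rfl⟩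
    simp only [L, dif_pos h]
    exact hker _ _ h.choose_spec.1 h.choose_spec.2.1 h1 h2 h.choose_spec.2.2
  have H : KF L |C| := by
    refine ⟨?_, ?_, ?_, ?_, ?_⟩
    · rintro _ _ a a' ⟨c, h1, h2, rfl, -⟩ ⟨c', h3, h4, rfl, -⟩
      rw [← funext (K2_add h1 h3), hL (fun w => c w + c' w) (h1.add h3)
        fun w => by simp only [h2 w, h4 w], hL _ h1 h2, hL _ h3 h4, hadd _ _ h1 h2 h3 h4]
    · rintro _ a ⟨c, h1, h2, rfl, -⟩ z
      rw [← funext (K2_smul z c), hL _ (h1.const_mul z) fun w => by simp only [h2 w],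
        hL _ h1 h2, hsmul _ _ h1 h2]
    · rintro _ a ⟨c, h1, h2, rfl, h3⟩
      rw [hL _ h1 h2]
      exact (hbd c h1 h2).trans (mul_le_mul (le_abs_self C) h3
        (integral_nonneg fun _ => norm_nonneg _) (abs_nonneg C))
    · rintro _ a ⟨c, h1, h2, rfl, -⟩ l hl
      rw [← funext (K2_dil c hl.ne'), hL _ (integrable_dil h1 hl.ne') fun w => by
        simp only [dil, smul_neg, h2 _], hL _ h1 h2, hdil _ h1 h2 l hl]
    · rintro _ a ⟨c, h1, h2, rfl, -⟩ ε R hε h
      rw [hL _ h1 h2]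
      exact hnull c h1 h2 ε R hε h
  have hsm : ∀ c, Integrable c → Ev c → ContDiff ℝ ∞ (K2 c) → HasCompactSupport (K2 c) →
      M c = 0 := fun c h1 h2 hs hc => by
    obtain ⟨R, hR0, hR⟩ := hc.exists_pos_le_norm
    have hR' : ∀ p : ℝ × ℝ, R < |p.2| → K2 c p = 0 := fun p hp =>
      hR p (hp.le.trans (norm_snd_le p))
    obtain ⟨d, hd, ed, ds, d1, -⟩ := exists_bump
    obtain ⟨n, n1, -, n3, n4⟩ := exists_K1 (f := fun y => K2 c (0, y)) (hs.comp (by fun_prop))
      (HasCompactSupport.intro (isCompact_closedBall 0 R) fun y hy =>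
        hR' _ (by simpa using not_le.1 (mt Metric.mem_closedBall.2 hy)))
    have h4R : 0 < 4 * R := by positivity
    have t := HA.tensor (integrable_dil1 hd h4R) n1 (ev_dil1 ed _)
      (n4 fun y => by beta_reduce; rw [← K2_neg_of_ev h2]; simp)
    simp only [K1_dil1 d h4R, n3] at t
    have hk : HA (K2 c) _ := ⟨c, h1, h2, rfl, le_rfl⟩
    have := H.axis (hk.sub t) (hs.sub ((ds.comp (by fun_prop)).mul (hs.comp (by fun_prop)))) hR0
      (fun p hp => by rw [hR' p hp, hR' (0, p.2) hp]; ring) fun y => by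
        rw [d1 _ (by simp)]; ring
    rw [H.sub hk t, hL _ h1 h2, sub_eq_zero] at this
    obtain ⟨c', t1, t2, t3, -⟩ := t
    rw [this, ← t3, hL _ t1 t2]
    refine hN c' t1 t2 (fun y => K2 c (0, y)) R hR0 (fun y hy => hR' _ hy) (fun p hp => ?_)
      fun p hp => ?_
    · rw [t3]; beta_reduce
      rw [d1 _ (by rwa [abs_div, abs_of_pos h4R, div_le_one h4R]), one_mul]
    · rw [t3]; beta_reduce
      rw [hR' (0, p.2) hp, mul_zero]
  intro c h1 h2
  refine KF.eq_zero_of_small (B := |C|) fun δ hδ => ?_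
  obtain ⟨c', h3, h4, h5, h6, h7⟩ := exists_smooth_near h1 h2 hδ
  have := hbd _ (h1.add (h3.const_mul (-1))) fun w => by simp only [Pi.add_apply, h2 w, h4 w]
  rw [show c + (fun w => -1 * c' w) = fun w => c w + -1 * c' w from rfl, hsub _ _ h1 h2 h3 h4,
    hsm c' h3 h4 h5 h6, sub_zero] at this
  refine this.trans (mul_le_mul (le_abs_self C) ?_ (integral_nonneg fun _ => norm_nonneg _)
    (abs_nonneg C))
  simpa [sub_eq_add_neg] using h7

end Crest.Agent.N111
end

-- ▼ part N111/Lib/Fou3a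
section

/-! # Row 111: scalar lemmas for `Lib/Fou3` (averages, equicontinuity, characters). -/

set_option autoImplicit false
set_option linter.unusedVariables false

namespace Crest.Agent.N111

open MeasureTheory Topology Filter

/-- the average of `F` over `[n+1, 2(n+1)]` -/
noncomputable def avg (n : ℕ) (F : ℝ → ℂ) : ℂ :=
  ((n + 1 : ℝ) : ℂ)⁻¹ * ∫ u in (n + 1 : ℝ)..(2 * (n + 1)), F u

theorem norm_avg_le {F : ℝ → ℂ} {C : ℝ} (n : ℕ) (h : ∀ u, (n + 1 : ℝ) ≤ u → ‖F u‖ ≤ C) :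
    ‖avg n F‖ ≤ C := by
  have hn : (0 : ℝ) < n + 1 := by positivity
  have h1 : ‖∫ u in (n + 1 : ℝ)..(2 * (n + 1)), F u‖ ≤ C * |2 * ((n : ℝ) + 1) - (n + 1)| := by
    refine intervalIntegral.norm_integral_le_of_norm_le_const fun x hx => h x ?_
    rw [Set.uIoc_of_le (by linarith)] at hx
    exact hx.1.le
  rw [show 2 * ((n : ℝ) + 1) - (n + 1) = n + 1 by ring, abs_of_pos hn] at h1
  rw [avg, norm_mul, norm_inv, Complex.norm_real, Real.norm_of_nonneg hn.le,
    inv_mul_le_iff₀ hn]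
  linarith

theorem avg_const (n : ℕ) (a : ℂ) : avg n (fun _ => a) = a := by
  have hn : ((n + 1 : ℝ) : ℂ) ≠ 0 := by
    have : (0 : ℝ) < n + 1 := by positivity
    exact_mod_cast this.ne'
  rw [avg, intervalIntegral.integral_const,
    show 2 * ((n : ℝ) + 1) - (n + 1) = n + 1 by ring, Complex.real_smul, ← mul_assoc,
    inv_mul_cancel₀ hn, one_mul]

theorem avg_sub (n : ℕ) {F G : ℝ → ℂ} (hF : Continuous F) (hG : Continuous G) :
    avg n (fun u => F u - G u) = avg n F - avg n G := by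
  rw [avg, avg, avg, intervalIntegral.integral_sub (hF.intervalIntegrable _ _)
    (hG.intervalIntegrable _ _), mul_sub]

theorem tendsto_avg_shift {F : ℝ → ℂ} (hF : Continuous F) {C : ℝ} (h : ∀ u, ‖F u‖ ≤ C) (a : ℝ) :
    Tendsto (fun n => avg n (fun u => F (u + a)) - avg n F) atTop (𝓝 0) := by
  have hb : ∀ x : ℝ, ‖∫ u in x..(x + a), F u‖ ≤ C * |a| := fun x => by
    have := intervalIntegral.norm_integral_le_of_norm_le_const (a := x) (b := x + a) (f := F)
      (C := C) fun y _ => h y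
    simpa using this
  have key : ∀ n : ℕ, ‖avg n (fun u => F (u + a)) - avg n F‖ ≤ (2 * (C * |a|)) / (n + 1 : ℝ) := by
    intro n
    have hn : (0 : ℝ) < n + 1 := by positivity
    have hi : ∀ x y : ℝ, IntervalIntegrable F volume x y := fun x y => hF.intervalIntegrable _ _
    have e : (∫ u in (n + 1 : ℝ)..(2 * (n + 1)), F (u + a))
        - ∫ u in (n + 1 : ℝ)..(2 * (n + 1)), F u
        = (∫ u in (2 * (n + 1) : ℝ)..(2 * (n + 1) + a), F u)
          - ∫ u in (n + 1 : ℝ)..(n + 1 + a), F u := by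
      rw [intervalIntegral.integral_comp_add_right F a]
      exact intervalIntegral.integral_interval_sub_interval_comm' (hi _ _) (hi _ _) (hi _ _)
    rw [avg, avg, ← mul_sub, e, norm_mul, norm_inv, Complex.norm_real, Real.norm_of_nonneg hn.le,
      div_eq_inv_mul]
    refine mul_le_mul_of_nonneg_left ((norm_sub_le _ _).trans ?_) (by positivity)
    linarith [hb (2 * (n + 1)), hb (n + 1)]
  refine squeeze_zero_norm key ?_
  exact tendsto_const_nhds.div_atTop
    (tendsto_atTop_add_const_right _ _ tendsto_natCast_atTop_atTop)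


theorem frequently_lt_of_avg {F : ℝ → ℝ} (hF : Continuous F) (h0 : ∀ u, 0 ≤ F u)
    (h : Tendsto (fun n => avg n fun u => (F u : ℂ)) atTop (𝓝 0)) {ε : ℝ} (hε : 0 < ε) :
    ∃ᶠ u in atTop, F u < ε := by
  by_contra hc
  rw [not_frequently, eventually_atTop] at hc
  obtain ⟨R, hR⟩ := hc
  obtain ⟨N, hN⟩ := exists_nat_ge R
  rw [Metric.tendsto_atTop] at h
  obtain ⟨M, hM⟩ := h ε hε
  have h1 := hM (max N M) (le_max_right _ _)
  set n := max N M
  have hn' : (N : ℝ) ≤ n := by exact_mod_cast le_max_left N M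
  have hn : (0 : ℝ) < n + 1 := by positivity
  have h2 : ∫ u in (n + 1 : ℝ)..(2 * (n + 1)), ε ≤ ∫ u in (n + 1 : ℝ)..(2 * (n + 1)), F u :=
    intervalIntegral.integral_mono_on (by linarith) (continuous_const.intervalIntegrable _ _)
      (hF.intervalIntegrable _ _) fun x hx => not_lt.1 (hR x (by linarith [hx.1]))
  rw [intervalIntegral.integral_const, show 2 * ((n : ℝ) + 1) - (n + 1) = n + 1 by ring,
    smul_eq_mul] at h2
  rw [dist_zero_right, avg, intervalIntegral.integral_ofReal, norm_mul, norm_inv,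
    Complex.norm_real, Complex.norm_real, Real.norm_of_nonneg hn.le, inv_mul_lt_iff₀ hn,
    Real.norm_eq_abs] at h1
  linarith [le_abs_self (∫ u in (n + 1 : ℝ)..(2 * (n + 1)), F u)]



theorem exists_char {χ : ℝ → ℂ} (hc : Continuous χ) (h : ∀ s t, χ (s + t) = χ s * χ t)
    (hn : ∀ t, ‖χ t‖ = 1) : ∃ l : ℝ, ∀ t, χ t = ex (l * t) := by
  have h0 : χ 0 = 1 := by
    have h1 := h 0 0
    rw [add_zero] at h1
    have h2 : χ 0 ≠ 0 := fun h' => by simpa [h'] using hn 0
    exact (mul_eq_left₀ h2).1 h1.symm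
  let F : ℝ → ℂ := fun x => ∫ t in (0 : ℝ)..x, χ t
  have hF : ∀ x, HasDerivAt F (χ x) x := fun x => (hc.integral_hasStrictDerivAt 0 x).hasDerivAt
  obtain ⟨δ, hδ⟩ : ∃ δ, F δ ≠ 0 := by
    by_contra hc'
    push Not at hc'
    have h1 : F = fun _ => 0 := funext hc'
    have h2 := hF 0
    rw [h1, h0] at h2
    exact one_ne_zero (h2.unique (hasDerivAt_const _ _))
  have hχ : ∀ x, χ x = (F (x + δ) - F x) / F δ := by
    intro x
    rw [eq_div_iff hδ]
    simp only [F]
    rw [intervalIntegral.integral_interval_sub_left (hc.intervalIntegrable _ _)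
      (hc.intervalIntegrable _ _), ← intervalIntegral.integral_const_mul]
    simp_rw [← h]
    rw [intervalIntegral.integral_comp_add_left χ x, add_zero]
  set c : ℂ := (χ δ - 1) / F δ
  have hd : ∀ x, HasDerivAt χ (c * χ x) x := by
    intro x
    have h1 : HasDerivAt (fun x => (F (x + δ) - F x) / F δ) ((χ (x + δ) - χ x) / F δ) x :=
      (((hF (x + δ)).comp_add_const x δ).sub (hF x)).div_const _
    have h2 : (fun x => (F (x + δ) - F x) / F δ) = χ := funext fun x => (hχ x).symm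
    rw [h2] at h1
    convert h1 using 1
    rw [h]; simp only [c]; ring
  have hd' : ∀ x : ℝ, HasDerivAt (fun x : ℝ => Complex.exp (-(c * x)) * χ x) 0 x := by
    intro x
    have h1 : HasDerivAt (fun x : ℝ => -(c * (x : ℂ))) (-(c * ((1 : ℝ) : ℂ))) x :=
      (((hasDerivAt_id x).ofReal_comp).const_mul c).neg
    exact (h1.cexp.fun_mul (hd x)).congr_deriv (by push_cast; ring)
  have hk : ∀ x : ℝ, χ x = Complex.exp (c * x) := by
    intro x
    have h1 := is_const_of_deriv_eq_zero (fun x => (hd' x).differentiableAt)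
      (fun x => (hd' x).deriv) x 0
    simp only [Complex.ofReal_zero, mul_zero, neg_zero, Complex.exp_zero, h0, mul_one] at h1
    rw [Complex.exp_neg, inv_mul_eq_one₀ (Complex.exp_ne_zero _)] at h1
    exact h1.symm
  have hre : c.re = 0 := by
    have h1 := hn 1
    rw [hk, Complex.norm_exp] at h1
    simpa using h1
  refine ⟨c.im, fun t => ?_⟩
  rw [hk, ex]
  congr 1
  apply Complex.ext <;> simp [hre]

theorem eq_zero_of_ex_div {a : ℝ} (h : ∀ q : ℕ, ex (a / (q + 1)) = 1) : a = 0 := by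
  obtain ⟨q, hq⟩ := exists_nat_ge |a|
  have hq1 : (0 : ℝ) < q + 1 := by positivity
  have h1 := h q
  rw [ex, Complex.exp_eq_one_iff] at h1
  obtain ⟨m, hm⟩ := h1
  have h2 : a / (q + 1) = m * (2 * Real.pi) := by
    have := congrArg Complex.im hm
    rw [Complex.mul_im, Complex.ofReal_re, Complex.ofReal_im] at this
    simpa using this
  have h3 : |a / (q + 1)| < 1 := by
    rw [abs_div, abs_of_pos hq1, div_lt_one hq1]; linarith
  have h4 : m = 0 := by
    by_contra hm0
    have h5 : (1 : ℝ) ≤ |(m : ℝ)| := by exact_mod_cast Int.one_le_abs hm0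
    rw [h2, abs_mul, abs_of_pos (by positivity : 0 < 2 * Real.pi)] at h3
    nlinarith [Real.pi_gt_three]
  rw [h4] at h2
  simpa [hq1.ne'] using h2

theorem exists_bichar {χ : ℝ → ℝ → ℂ} (hc : Continuous fun p : ℝ × ℝ => χ p.1 p.2)
    (h₁ : ∀ s s' t, χ (s + s') t = χ s t * χ s' t) (h₂ : ∀ s t t', χ s (t + t') = χ s t * χ s t')
    (hn : ∀ s t, ‖χ s t‖ = 1) : ∃ θ : ℝ, ∀ s t, χ s t = ex (θ * s * t) := by
  have hl : ∀ s, ∃ l : ℝ, ∀ t, χ s t = ex (l * t) := fun s =>
    exists_char (hc.comp (continuous_const.prodMk continuous_id)) (h₂ s) (hn s)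
  have hm : ∀ t, ∃ l : ℝ, ∀ s, χ s t = ex (l * s) := fun t =>
    exists_char (χ := fun s => χ s t) (hc.comp (continuous_id.prodMk continuous_const))
      (fun s s' => h₁ s s' t) (fun s => hn s t)
  choose l hl using hl
  choose m hm using hm
  have hpow : ∀ (a : ℝ) (k : ℕ), ex (k * a) = ex a ^ k := fun a k => by
    rw [ex, ex, ← Complex.exp_nat_mul]; congr 1; push_cast; ring
  refine ⟨m 1, fun s t => ?_⟩
  have key : l s - m 1 * s = 0 := by
    refine eq_zero_of_ex_div fun q => ?_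
    have hq : ((q : ℝ) + 1) ≠ 0 := by positivity
    have e1 : χ s (1 / (q + 1)) = χ (s / (q + 1)) (1 / (q + 1)) ^ (q + 1) := by
      rw [hm, hm, ← hpow]; congr 1; push_cast; field_simp
    have e2 : χ (s / (q + 1)) 1 = χ (s / (q + 1)) (1 / (q + 1)) ^ (q + 1) := by
      rw [hl, hl, ← hpow]; congr 1; push_cast; field_simp
    have e3 : ex (l s * (1 / (q + 1))) = ex (m 1 * (s / (q + 1))) := by
      rw [← hl, e1, ← e2, hm]
    have e4 : (l s - m 1 * s) / (q + 1) = l s * (1 / (q + 1)) + -(m 1 * (s / (q + 1))) := by ring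
    rw [e4, ex_add, e3, ← ex_add, add_neg_cancel, ex_zero]
  rw [hl, sub_eq_zero.1 key]

end Crest.Agent.N111
end

-- ▼ part N111/Lib/Fou3
section

/-! # Row 111: Bargmann's lemma (the scalar lemmas `avg`, `norm_avg_le`, `tendsto_avg_shift`,
`tendsto_avg_of_tendsto`, `frequently_lt_of_avg`, `tendsto_integral_of_equicont`,
`sum_inv_one_add_sq_le`, `exists_char`, `exists_bichar` are in `Lib/Fou3a`). -/

set_option autoImplicit false
set_option linter.unusedVariables false

namespace Crest.Agent.N111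

open MeasureTheory Topology Filter
open scoped InnerProductSpace

namespace Brg

/-- clamp to `[-b, b]` -/
noncomputable def cl (b x : ℝ) : ℝ := max (-b) (min b x)

lemma continuous_cl (b : ℝ) : Continuous (cl b) := by unfold cl; fun_prop

lemma abs_cl_le {b : ℝ} (hb : 0 ≤ b) (x : ℝ) : |cl b x| ≤ b :=
  abs_le.2 ⟨le_max_left _ _, max_le (by linarith) (min_le_left _ _)⟩

lemma cl_eq {b x : ℝ} (h : |x| ≤ b) : cl b x = x := by
  rw [cl, min_eq_right (abs_le.1 h).2, max_eq_right (abs_le.1 h).1]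

/-- continuous local real cocycles on `ℝ` are coboundaries -/
theorem coc_triv {ξ : ℝ → ℝ → ℝ} (hc : Continuous fun p : ℝ × ℝ => ξ p.1 p.2) {δ : ℝ}
    (hδ : 0 < δ) (h : ∀ r s t, |r| ≤ δ → |s| ≤ δ → |t| ≤ δ →
      ξ r s + ξ (r + s) t = ξ s t + ξ r (s + t)) :
    ∃ Φ : ℝ → ℝ, Continuous Φ ∧ ∀ r s, |r| ≤ δ → |s| ≤ δ → ξ r s = Φ r + Φ s - Φ (r + s) := by
  have c2 : ∀ x, Continuous (ξ x) := fun x => hc.comp (continuous_const.prodMk continuous_id)
  have c1 : Continuous fun x => ξ x δ := hc.comp (continuous_id.prodMk continuous_const)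
  let A : ℝ → ℝ := fun x => ∫ t in (0 : ℝ)..δ, ξ x t
  let Ψ : ℝ → ℝ := fun x => ∫ t in (0 : ℝ)..x, ξ t δ
  have hA : Continuous A :=
    intervalIntegral.continuous_parametric_intervalIntegral_of_continuous' hc _ _
  have hΨ : Continuous Ψ :=
    continuous_iff_continuousAt.2 fun x =>
      (c1.integral_hasStrictDerivAt 0 x).hasDerivAt.continuousAt
  refine ⟨fun x => (A x - Ψ x) / δ, (hA.sub hΨ).div_const _, fun r s hr hs => ?_⟩
  have i2 : ∀ x a b, IntervalIntegrable (ξ x) volume a b := fun x a b =>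
    (c2 x).intervalIntegrable _ _
  have i1 : ∀ a b, IntervalIntegrable (fun x => ξ x δ) volume a b := fun a b =>
    c1.intervalIntegrable _ _
  have i3 : Continuous fun t => ξ r (s + t) := (c2 r).comp (continuous_const.add continuous_id)
  have i4 : Continuous fun t => ξ r (t + δ) := (c2 r).comp (continuous_id.add continuous_const)
  have i5 : Continuous fun t => ξ (r + t) δ := c1.comp (continuous_const.add continuous_id)
  have e1 : δ * ξ r s = A s + (∫ t in (0 : ℝ)..δ, ξ r (s + t)) - A (r + s) := by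
    simp only [A]
    rw [← intervalIntegral.integral_add (i2 _ _ _) (i3.intervalIntegrable _ _),
      ← intervalIntegral.integral_sub ((i2 _ _ _).add (i3.intervalIntegrable _ _)) (i2 _ _ _),
      intervalIntegral.integral_congr (g := fun _ => ξ r s)]
    · simp
    · intro t ht
      rw [Set.uIcc_of_le hδ.le] at ht
      have := h r s t hr hs (abs_le.2 ⟨by linarith [ht.1], ht.2⟩)
      simp only
      linarith
  have e2 : (∫ t in (0 : ℝ)..δ, ξ r (s + t)) - A r
      = (∫ t in (0 : ℝ)..s, ξ r (t + δ)) - ∫ t in (0 : ℝ)..s, ξ r t := by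
    simp only [A]
    rw [intervalIntegral.integral_comp_add_left (ξ r) s,
      intervalIntegral.integral_comp_add_right (ξ r) δ, add_zero, zero_add]
    exact intervalIntegral.integral_interval_sub_interval_comm' (i2 _ _ _) (i2 _ _ _) (i2 _ _ _)
  have e3 : (∫ t in (0 : ℝ)..s, ξ r (t + δ)) - ∫ t in (0 : ℝ)..s, ξ r t
      = (∫ t in (0 : ℝ)..s, ξ (r + t) δ) - Ψ s := by
    simp only [Ψ]
    rw [← intervalIntegral.integral_sub (i4.intervalIntegrable _ _) (i2 _ _ _),
      ← intervalIntegral.integral_sub (i5.intervalIntegrable _ _) (i1 _ _)]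
    refine intervalIntegral.integral_congr fun t ht => ?_
    have ht' : |t| ≤ δ := by
      have := Set.abs_sub_left_of_mem_uIcc ht
      simp only [sub_zero] at this
      exact this.trans hs
    have := h r t δ hr ht' (abs_of_pos hδ).le
    linarith
  have e4 : (∫ t in (0 : ℝ)..s, ξ (r + t) δ) = Ψ (r + s) - Ψ r := by
    simp only [Ψ]
    rw [intervalIntegral.integral_comp_add_left (fun x => ξ x δ) r, add_zero,
      intervalIntegral.integral_interval_sub_left (i1 _ _) (i1 _ _)]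
  field_simp
  linarith

variable {K : Type} [NormedAddCommGroup K] [InnerProductSpace ℂ K]

lemma cont_app {X : Type} [TopologicalSpace X] {U : X → K →L[ℂ] K} (hb : ∀ x η, ‖U x η‖ ≤ ‖η‖)
    (hU : ∀ η, Continuous fun x => U x η) {g : X → K} (hg : Continuous g) :
    Continuous fun x => U x (g x) := by
  refine continuous_iff_continuousAt.2 fun x₀ => ?_
  have h1 : Tendsto (fun x => U x (g x - g x₀)) (𝓝 x₀) (𝓝 0) := by
    refine squeeze_zero_norm (fun x => hb x _) ?_
    have := ((hg.sub (continuous_const (y := g x₀))).norm).tendsto x₀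
    simpa using this
  have h2 := h1.add ((hU (g x₀)).tendsto x₀)
  simpa [ContinuousAt] using h2

/-- a local one parameter group extends -/
theorem extend {a : ℝ} (ha : 0 < a) (v : ℝ → K →L[ℂ] K) (h0 : v 0 = 1)
    (hn : ∀ t η, ‖v t η‖ = ‖η‖) (hc : ∀ η, Continuous fun t => v t η)
    (hm : ∀ s t, |s| ≤ a → |t| ≤ a → v (s + t) = v s * v t) :
    ∃ w : ℝ → K →L[ℂ] K, (∀ s t, w (s + t) = w s * w t) ∧ (∀ t η, ‖w t η‖ = ‖η‖) ∧
      (∀ η, Continuous fun t => w t η) ∧ ∀ t, |t| ≤ a → w t = v t := by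
  have hpow : ∀ (m : ℕ) (x : ℝ), (m : ℝ) * |x| ≤ a → v (m * x) = v x ^ m := by
    intro m x
    induction m with
    | zero => simp [h0]
    | succ m ih =>
      intro h
      push_cast at h ⊢
      have hx := abs_nonneg x
      have hm0 : (0 : ℝ) ≤ m * |x| := by positivity
      rw [add_mul, one_mul, hm _ _ (by rw [abs_mul, Nat.abs_cast]; linarith) (by linarith),
        ih (by linarith), pow_succ]
  have hdiv : ∀ (n : ℕ) (t : ℝ), |t| ≤ (n + 1) * a → |t / (n + 1)| ≤ a := fun n t h => by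
    rw [abs_div, abs_of_pos (by positivity : (0 : ℝ) < n + 1), div_le_iff₀ (by positivity)]
    linarith
  have hwd' : ∀ (n m : ℕ) (t : ℝ), |t| ≤ (n + 1) * a →
      v (t / (n + 1)) ^ (n + 1) = v (t / (n + 1) / (m + 1)) ^ ((m + 1) * (n + 1)) := by
    intro n m t h
    have h1 := hdiv n t h
    have hm1 : (0 : ℝ) < m + 1 := by positivity
    rw [pow_mul, ← hpow (m + 1) (t / (n + 1) / (m + 1))]
    · congr 2; push_cast; field_simp
    · rw [abs_div _ ((m : ℝ) + 1), abs_of_pos hm1]; push_cast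
      rw [mul_div_cancel₀ _ hm1.ne']; exact h1
  have hwd : ∀ (n m : ℕ) (t : ℝ), |t| ≤ (n + 1) * a → |t| ≤ (m + 1) * a →
      v (t / (n + 1)) ^ (n + 1) = v (t / (m + 1)) ^ (m + 1) := by
    intro n m t h h'
    rw [hwd' n m t h, hwd' m n t h', mul_comm (m + 1), div_right_comm]
  have hN : ∀ t : ℝ, ∃ n : ℕ, |t| < (n + 1) * a := fun t => by
    obtain ⟨n, hn⟩ := exists_nat_ge (|t| / a)
    refine ⟨n, ?_⟩
    rw [div_le_iff₀ ha] at hn
    nlinarith
  choose N hN using hN
  let w : ℝ → K →L[ℂ] K := fun t => v (t / (N t + 1)) ^ (N t + 1)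
  have hw : ∀ (n : ℕ) (t : ℝ), |t| ≤ (n + 1) * a → w t = v (t / (n + 1)) ^ (n + 1) :=
    fun n t h => hwd _ _ t (hN t).le h
  have hnp : ∀ (n : ℕ) (x : ℝ) (η : K), ‖(v x ^ n) η‖ = ‖η‖ := by
    intro n x
    induction n with
    | zero => simp
    | succ n ih => intro η; rw [pow_succ, mul_apply_eq_comp, ih, hn]
  have hcp : ∀ (n : ℕ) (η : K), Continuous fun x => (v x ^ n) η := by
    intro n η
    induction n with
    | zero => simpa using continuous_const
    | succ n ih =>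
      simp only [pow_succ', mul_apply_eq_comp]
      exact cont_app (fun x η => (hn x η).le) hc ih
  refine ⟨w, fun s t => ?_, fun t η => hnp _ _ _, fun η => ?_, fun t ht => ?_⟩
  · set n := N (|s| + |t|)
    have h1 : |s| + |t| ≤ (n + 1) * a := (le_abs_self _).trans (hN _).le
    have hs : |s| ≤ (n + 1) * a := by linarith [abs_nonneg t]
    have ht : |t| ≤ (n + 1) * a := by linarith [abs_nonneg s]
    rw [hw n s hs, hw n t ht, hw n (s + t) ((abs_add_le _ _).trans h1), add_div,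
      hm _ _ (hdiv n s hs) (hdiv n t ht)]
    refine Commute.mul_pow ?_ _
    rw [Commute, SemiconjBy, ← hm _ _ (hdiv n s hs) (hdiv n t ht),
      ← hm _ _ (hdiv n t ht) (hdiv n s hs), add_comm]
  · refine continuous_iff_continuousAt.2 fun t₀ => ?_
    have h1 : ∀ᶠ t in 𝓝 t₀, |t| < (N t₀ + 1) * a :=
      (continuous_abs.tendsto t₀).eventually (gt_mem_nhds (hN t₀))
    have h2 : Continuous fun t : ℝ => (v (t / (N t₀ + 1)) ^ (N t₀ + 1)) η :=
      (hcp _ η).comp (continuous_id.div_const _)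
    refine h2.continuousAt.congr ?_
    filter_upwards [h1] with t ht
    rw [hw _ t ht.le]
  · rw [hw 0 t (by simpa using ht)]; simp

/-- Bargmann's lemma for globally defined families -/
theorem loc [CompleteSpace K] {η : K} (hη : ‖η‖ = 1) {a : ℝ} (ha : 0 < a) (u : ℝ → K →L[ℂ] K)
    (h0 : u 0 = 1) (hn : ∀ t η, ‖u t η‖ = ‖η‖) (hc : ∀ η, Continuous fun t => u t η)
    (hm : ∀ s t, |s| ≤ a → |t| ≤ a → ∃ z : ℂ, u s * u t = z • u (s + t)) :
    ∃ (Φ : ℝ → ℝ) (δ : ℝ), 0 < δ ∧ δ ≤ a ∧ Continuous Φ ∧ Φ 0 = 0 ∧ ∀ s t, |s| ≤ δ → |t| ≤ δ →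
      u s * u t = ex (Φ s + Φ t - Φ (s + t)) • u (s + t) := by
  let z : ℝ → ℝ → ℂ := fun s t => ⟪u (s + t) η, u s (u t η)⟫_ℂ
  have hz : ∀ s t, |s| ≤ a → |t| ≤ a → u s * u t = z s t • u (s + t) ∧ ‖z s t‖ = 1 := by
    intro s t hs ht
    obtain ⟨c, hc⟩ := hm s t hs ht
    have h1 : u s (u t η) = c • u (s + t) η := by
      rw [← mul_apply_eq_comp, hc]; rfl
    have h2 : z s t = c := by
      simp only [z]
      rw [h1, inner_smul_right, inner_self_eq_norm_sq_to_K, hn, hη]; simp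
    have h3 := congrArg norm h1
    rw [hn, hn, norm_smul, hn, hη, mul_one] at h3
    rw [h2]
    exact ⟨hc, h3.symm⟩
  have hzc : Continuous fun p : ℝ × ℝ => z p.1 p.2 :=
    ((hc η).comp (continuous_fst.add continuous_snd)).inner
      (cont_app (U := fun p : ℝ × ℝ => u p.1) (fun p η => (hn _ η).le)
        (fun η => (hc η).comp continuous_fst) ((hc η).comp continuous_snd))
  have hz0 : z 0 0 = 1 := by
    simp only [z, add_zero, h0, one_apply_eq_self]
    rw [inner_self_eq_norm_sq_to_K, hη]; simp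
  obtain ⟨b, hb0, hb⟩ : ∃ b > 0, ∀ p : ℝ × ℝ, dist p (0, 0) < b → 0 < (z p.1 p.2).re := by
    have h1 : ∀ᶠ p : ℝ × ℝ in 𝓝 (0, 0), 0 < (z p.1 p.2).re :=
      ((Complex.continuous_re.comp hzc).tendsto (0, 0)).eventually
        (lt_mem_nhds (by simp [hz0]))
    obtain ⟨b, hb0, hb⟩ := Metric.eventually_nhds_iff.1 h1
    exact ⟨b, hb0, fun p hp => hb hp⟩
  set δ := min a b / 4 with hδ
  have hδ0 : 0 < δ := by have := lt_min ha hb0; positivity
  have hδa : 2 * δ ≤ a := by linarith [min_le_left a b, lt_min ha hb0]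
  have hδb : 2 * δ < b := by linarith [min_le_right a b, lt_min ha hb0]
  have hre : ∀ s t, |s| ≤ 2 * δ → |t| ≤ 2 * δ → 0 < (z s t).re := fun s t hs ht =>
    hb (s, t) (by
      rw [Prod.dist_eq, max_lt_iff, Real.dist_eq, Real.dist_eq, sub_zero, sub_zero]
      exact ⟨hs.trans_lt hδb, ht.trans_lt hδb⟩)
  let ξ : ℝ → ℝ → ℝ := fun s t => (z (cl (2 * δ) s) (cl (2 * δ) t)).arg
  have hξc : Continuous fun p : ℝ × ℝ => ξ p.1 p.2 := by
    refine continuous_iff_continuousAt.2 fun p => ?_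
    have h1 : Continuous fun p : ℝ × ℝ => z (cl (2 * δ) p.1) (cl (2 * δ) p.2) :=
      hzc.comp (((continuous_cl _).comp continuous_fst).prodMk
        ((continuous_cl _).comp continuous_snd))
    exact ContinuousAt.comp (f := fun p : ℝ × ℝ => z (cl (2 * δ) p.1) (cl (2 * δ) p.2))
      (Complex.continuousAt_arg (Or.inl (hre _ _ (abs_cl_le (by linarith) _)
        (abs_cl_le (by linarith) _)))) h1.continuousAt
  have hξ : ∀ s t, |s| ≤ 2 * δ → |t| ≤ 2 * δ → ξ s t = (z s t).arg := fun s t hs ht => by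
    simp only [ξ]; rw [cl_eq hs, cl_eq ht]
  have harg : ∀ {x y : ℂ}, 0 < x.re → 0 < y.re → (x * y).arg = x.arg + y.arg := by
    intro x y hx hy
    have h1 := abs_lt.1 (Complex.abs_arg_lt_pi_div_two_iff.2 (Or.inl hx))
    have h2 := abs_lt.1 (Complex.abs_arg_lt_pi_div_two_iff.2 (Or.inl hy))
    exact Complex.arg_mul (fun h => by simp [h] at hx) (fun h => by simp [h] at hy)
      ⟨by linarith [h1.1, h2.1], by linarith [h1.2, h2.2]⟩
  obtain ⟨Φ, hΦc, hΦ⟩ := coc_triv hξc hδ0 (by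
    intro r s t hr hs ht
    have hrs : |r + s| ≤ 2 * δ := (abs_add_le _ _).trans (by linarith)
    have hst : |s + t| ≤ 2 * δ := (abs_add_le _ _).trans (by linarith)
    have hr' : |r| ≤ 2 * δ := by linarith
    have hs' : |s| ≤ 2 * δ := by linarith
    have ht' : |t| ≤ 2 * δ := by linarith
    rw [hξ _ _ hr' hs', hξ _ _ hrs ht', hξ _ _ hs' ht', hξ _ _ hr' hst,
      ← harg (hre _ _ hr' hs') (hre _ _ hrs ht'), ← harg (hre _ _ hs' ht') (hre _ _ hr' hst)]
    congr 1
    have e1 : u r * u s * u t = (z r s * z (r + s) t) • u (r + s + t) := by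
      rw [(hz r s (by linarith) (by linarith)).1, smul_mul_assoc,
        (hz (r + s) t (by linarith) (by linarith)).1, smul_smul]
    have e2 : u r * u s * u t = (z s t * z r (s + t)) • u (r + s + t) := by
      rw [mul_assoc, (hz s t (by linarith) (by linarith)).1, mul_smul_comm,
        (hz r (s + t) (by linarith) (by linarith)).1, smul_smul, add_assoc]
    have e3 := congrArg (fun T : K →L[ℂ] K => T η) (e1.symm.trans e2)
    have hne : u (r + s + t) η ≠ 0 := fun h => by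
      have := hn (r + s + t) η
      rw [h, hη] at this; simp at this
    exact smul_left_injective ℂ hne e3)
  have hz' : ∀ s t, |s| ≤ δ → |t| ≤ δ → z s t = ex (ξ s t) := by
    intro s t hs ht
    have h1 := Complex.norm_mul_exp_arg_mul_I (z s t)
    rw [(hz s t (by linarith) (by linarith)).2] at h1
    rw [hξ s t (by linarith) (by linarith), ex, mul_comm]
    simpa using h1.symm
  refine ⟨Φ, δ, hδ0, by linarith, hΦc, ?_, fun s t hs ht => ?_⟩
  · have h1 := hΦ 0 0 (by simp [hδ0.le]) (by simp [hδ0.le])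
    rw [hξ 0 0 (by simp [hδ0.le]) (by simp [hδ0.le]), hz0, Complex.arg_one, add_zero] at h1
    linarith
  · rw [(hz s t (by linarith) (by linarith)).1, hz' s t hs ht, hΦ s t hs ht]

end Brg

open Brg in
/-- **Bargmann**: a strongly continuous local projective one parameter group lifts -/
theorem bargmann {K : Type} [NormedAddCommGroup K] [InnerProductSpace ℂ K] [CompleteSpace K]
    {t₀ : ℝ} (ht₀ : 0 < t₀) (u : ℝ → K →L[ℂ] K) (h0 : u 0 = 1)
    (hu : ∀ t, |t| < t₀ → u t ∈ unitary (K →L[ℂ] K))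
    (hc : ∀ η, ContinuousOn (fun t => u t η) (Set.Ioo (-t₀) t₀))
    (hm : ∀ s t, |s| < t₀ → |t| < t₀ → |s + t| < t₀ → ∃ z : ℂ, u s * u t = z • u (s + t)) :
    ∃ (v : ℝ → K →L[ℂ] K) (t₁ : ℝ), 0 < t₁ ∧ t₁ ≤ t₀ ∧ v 0 = 1 ∧ (∀ s t, v (s + t) = v s * v t) ∧
      (∀ t η, ‖v t η‖ = ‖η‖) ∧ (∀ η, Continuous fun t => v t η) ∧
      ∀ t, |t| < t₁ → ∃ z : ℂ, ‖z‖ = 1 ∧ v t = z • u t := by
  rcases subsingleton_or_nontrivial K with hK | hK
  · exact ⟨fun _ => 1, t₀, ht₀, le_rfl, rfl, fun _ _ => (mul_one _).symm, fun _ _ => rfl,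
      fun _ => continuous_const, fun t _ => ⟨1, norm_one, Subsingleton.elim _ _⟩⟩
  obtain ⟨η, hη⟩ := exists_norm_eq K zero_le_one
  have hcl : ∀ t, |cl (t₀ / 2) t| < t₀ := fun t =>
    (abs_cl_le (by linarith) t).trans_lt (by linarith)
  let u' : ℝ → K →L[ℂ] K := fun t => u (cl (t₀ / 2) t)
  have hu' : ∀ t, |t| ≤ t₀ / 2 → u' t = u t := fun t ht => by simp only [u']; rw [cl_eq ht]
  have hn' : ∀ t η, ‖u' t η‖ = ‖η‖ := fun t η =>
    ContinuousLinearMap.norm_map_of_mem_unitary (hu _ (hcl t)) η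
  have hc' : ∀ η, Continuous fun t => u' t η := fun η =>
    (hc η).comp_continuous (continuous_cl _) fun t => abs_lt.1 (hcl t)
  have h0' : u' 0 = 1 := by rw [hu' 0 (by simp; linarith), h0]
  obtain ⟨Φ, δ, hδ0, hδ, hΦc, hΦ0, hΦ⟩ := loc hη (a := t₀ / 4) (by linarith) u' h0' hn' hc' (by
    intro s t hs ht
    have hst : |s + t| ≤ t₀ / 2 := (abs_add_le _ _).trans (by linarith)
    rw [hu' s (by linarith), hu' t (by linarith), hu' _ hst]
    exact hm s t (by linarith) (by linarith) (by linarith))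
  have hv0 : ex (-Φ 0) • u' 0 = 1 := by simp [hΦ0, h0']
  obtain ⟨w, hw1, hw2, hw3, hw4⟩ := extend hδ0 (fun t => ex (-Φ t) • u' t) hv0
    (fun t η => by rw [smul_apply, norm_smul, norm_ex, one_mul, hn'])
    (fun η => (continuous_ex.comp hΦc.neg).smul (hc' η)) (by
      intro s t hs ht
      rw [smul_mul_smul_comm, hΦ s t hs ht, smul_smul, ← ex_add, ← ex_add]
      congr 2; ring)
  refine ⟨w, δ, hδ0, by linarith, by rw [hw4 0 (by simp [hδ0.le]), hv0], hw1, hw2, hw3,
    fun t ht => ⟨ex (-Φ t), norm_ex _, ?_⟩⟩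
  rw [hw4 t ht.le, hu' t (by linarith)]

end Crest.Agent.N111
end

-- ▼ part N111/Grp/Count
section

/-!
# Row 111, COUNT: lattice points contracting a given vector, and the size of a wall window.

If `g, g'` have entries `≤ A` and both contract a vector `β` by the factor `B`, then `g' g⁻¹` has
entries `≤ 6 A² B`.  With `A ≈ T`, `B ≈ T⁻²` this gives `O(1)` lattice points per direction and
`O(T⁶)` in total.
-/

set_option autoImplicit false

namespace Crest.Agent.N111

open Matrix Finset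

/-- the number of lattice points in a box -/
noncomputable def nbox (R : ℝ) : ℕ := {γ : Γ | ι γ ∈ box R}.ncard



lemma card_le_nbox {R : ℝ} {α : Type*} (s : Finset α) (f : α → Γ) (hf : Set.InjOn f s)
    (h : ∀ a ∈ s, ι (f a) ∈ box R) : #s ≤ nbox R := by
  rw [← Set.ncard_coe_finset]
  exact Set.ncard_le_ncard_of_injOn f h hf (finite_box R)

lemma inv_entry (g : G) (i j : Fin 3) :
    g⁻¹ i j = g (j + 1) (i + 1) * g (j + 2) (i + 2) - g (j + 1) (i + 2) * g (j + 2) (i + 1) := by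
  have : g⁻¹ i j = adjugate g.1 i j := rfl
  rw [this, adjugate_fin_three]
  fin_cases i <;> fin_cases j <;> simp <;> ring

lemma mulVec_entry (g : G) (β : Fin 3 → ℝ) (k : Fin 3) :
    (g.1 *ᵥ β) k = g k 0 * β 0 + g k 1 * β 1 + g k 2 * β 2 := by
  simp [mulVec, dotProduct, Fin.sum_univ_three]




lemma mul_inv_entry (g g' : G) (β : Fin 3 → ℝ) (i k l : Fin 3) :
    β i * (g' * g⁻¹) k l
      = (g'.1 *ᵥ β) k * (g (l + 1) (i + 1) * g (l + 2) (i + 2) - g (l + 1) (i + 2) * g (l + 2) (i + 1))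
      + g' k (i + 1) * (g (l + 1) (i + 2) * (g.1 *ᵥ β) (l + 2) - (g.1 *ᵥ β) (l + 1) * g (l + 2) (i + 2))
      + g' k (i + 2) * ((g.1 *ᵥ β) (l + 1) * g (l + 2) (i + 1) - g (l + 1) (i + 1) * (g.1 *ᵥ β) (l + 2)) := by
  rw [mul_entry, inv_entry, inv_entry, inv_entry]
  simp only [mulVec_entry]
  fin_cases i <;> simp <;> ring

lemma exists_norm_eq (β : Fin 3 → ℝ) : ∃ i, |β i| = ‖β‖ := by
  obtain ⟨i, -, hi⟩ := exists_max_image univ (fun i => |β i|) univ_nonempty
  exact ⟨i, le_antisymm (norm_le_pi_norm β i)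
    ((pi_norm_le_iff_of_nonneg (abs_nonneg _)).2 fun j => hi j (mem_univ j))⟩

/-- **COUNT, key estimate.** -/
theorem mul_inv_mem_box {g g' : G} {A B : ℝ} {β : Fin 3 → ℝ} (hβ : β ≠ 0) (hg : g ∈ box A)
    (hg' : g' ∈ box A) (h : ‖g.1 *ᵥ β‖ ≤ B * ‖β‖) (h' : ‖g'.1 *ᵥ β‖ ≤ B * ‖β‖) :
    g' * g⁻¹ ∈ box (6 * A ^ 2 * B) := fun k l => by
  obtain ⟨i, hi⟩ := exists_norm_eq β
  have hA : 0 ≤ A := (abs_nonneg _).trans (hg 0 0)
  have hb : 0 < ‖β‖ := norm_pos_iff.2 hβ
  have hB : 0 ≤ B * ‖β‖ := (norm_nonneg _).trans h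
  have b1 : ∀ m, |(g.1 *ᵥ β) m| ≤ B * ‖β‖ := fun m => (norm_le_pi_norm _ m).trans h
  have b2 : ∀ m, |(g'.1 *ᵥ β) m| ≤ B * ‖β‖ := fun m => (norm_le_pi_norm _ m).trans h'
  have t : ∀ {x y z y' z' X Y Z : ℝ}, |x| ≤ X → |y| ≤ Y → |z| ≤ Z → |y'| ≤ Z → |z'| ≤ Y →
      |x * (y * z - y' * z')| ≤ 2 * (X * Y * Z) := fun {x y z y' z' X Y Z} a b c d e => by
    have := abs_sub (y * z) (y' * z')
    rw [abs_mul, abs_mul] at this
    have h1 : |y| * |z| ≤ Y * Z := mul_le_mul b c (abs_nonneg _) ((abs_nonneg _).trans b)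
    have h2 : |y'| * |z'| ≤ Z * Y := mul_le_mul d e (abs_nonneg _) ((abs_nonneg _).trans d)
    rw [abs_mul]
    calc |x| * |y * z - y' * z'| ≤ X * (2 * (Y * Z)) :=
          mul_le_mul a (by linarith) (abs_nonneg _) ((abs_nonneg _).trans a)
      _ = _ := by ring
  refine le_of_mul_le_mul_left ?_ hb
  conv_lhs => rw [← hi, ← abs_mul, mul_inv_entry]
  refine (abs_add_three _ _ _).trans ?_
  linarith [t (b2 k) (hg (l + 1) (i + 1)) (hg (l + 2) (i + 2)) (hg (l + 1) (i + 2))
      (hg (l + 2) (i + 1)),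
    t (hg' k (i + 1)) (hg (l + 1) (i + 2)) (b1 (l + 2)) (b1 (l + 1)) (hg (l + 2) (i + 2)),
    t (hg' k (i + 2)) (b1 (l + 1)) (hg (l + 2) (i + 1)) (hg (l + 1) (i + 1)) (b1 (l + 2))]


/-- **COUNT per direction.** -/
theorem count_line {α : Type*} (s : Finset α) (θ : α → Γ) (hθ : Set.InjOn θ s) {A B : ℝ}
    {β : Fin 3 → ℝ} (hβ : β ≠ 0)
    (hs : ∀ a ∈ s, ι (θ a) ∈ box A ∧ ‖(ι (θ a)).1 *ᵥ β‖ ≤ B * ‖β‖) :
    #s ≤ nbox (6 * A ^ 2 * B) := by
  rcases s.eq_empty_or_nonempty with rfl | ⟨a₀, h₀⟩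
  · simp
  refine card_le_nbox s (fun a => θ a * (θ a₀)⁻¹)
    (fun a ha b hb e => hθ ha hb (mul_right_cancel e)) fun a ha => ?_
  rw [map_mul, map_inv]
  exact mul_inv_mem_box hβ (hs a₀ h₀).1 (hs a ha).1 (hs a₀ h₀).2 (hs a ha).2

/-- a `δ`-net of directions: `3 (2/δ + 3)²` vectors of norm `≥ 1` -/
theorem exists_net {δ : ℝ} (hδ : 0 < δ) : ∃ t : Finset (Fin 3 → ℝ),
    (#t : ℝ) ≤ 3 * (2 / δ + 3) ^ 2 ∧ (∀ b ∈ t, 1 ≤ ‖b‖) ∧
      ∀ β : Fin 3 → ℝ, β ≠ 0 → ∃ c : ℝ, |c| * ‖β‖ = 1 ∧ ∃ b ∈ t, ‖c • β - b‖ ≤ δ := by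
  classical
  set M : ℤ := ⌈1 / δ⌉
  have hM : (M : ℝ) ≤ 1 / δ + 1 := (Int.ceil_lt_add_one _).le
  have hM' : 1 / δ ≤ M := Int.le_ceil _
  have hM0 : 0 ≤ M := Int.ceil_nonneg (by positivity)
  let f : Fin 3 × ℤ × ℤ → Fin 3 → ℝ := fun p j =>
    if j = p.1 then 1 else if j = p.1 + 1 then δ * p.2.1 else δ * p.2.2
  refine ⟨(univ ×ˢ Icc (-M) M ×ˢ Icc (-M) M).image f, ?_, ?_, fun β hβ => ?_⟩
  · refine le_trans (Nat.cast_le.2 card_image_le) ?_
    have e : (#(Icc (-M) M) : ℝ) = 2 * M + 1 := by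
      have : ((#(Icc (-M) M) : ℤ)) = 2 * M + 1 := by
        rw [Int.card_Icc, Int.toNat_of_nonneg (by omega)]; ring
      exact_mod_cast this
    rw [card_product, card_product, card_univ, Fintype.card_fin]
    push_cast
    rw [e]
    have : (0 : ℝ) ≤ M := by exact_mod_cast hM0
    have h2 : 2 * (M : ℝ) + 1 ≤ 2 / δ + 3 := by
      rw [show 2 / δ = 2 * (1 / δ) by ring]; linarith
    nlinarith
  · intro b hb
    obtain ⟨p, -, rfl⟩ := mem_image.1 hb
    simpa [f] using norm_le_pi_norm (f p) p.1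
  obtain ⟨i, hi⟩ := exists_norm_eq β
  have hb : 0 < ‖β‖ := norm_pos_iff.2 hβ
  have hi0 : β i ≠ 0 := fun h => by rw [h, abs_zero] at hi; exact hb.ne hi
  have hc : ∀ j, |(β i)⁻¹ * β j| ≤ 1 := fun j => by
    rw [abs_mul, abs_inv, hi, inv_mul_le_iff₀ hb, mul_one]; exact norm_le_pi_norm β j
  have hfl : ∀ j, ⌊(β i)⁻¹ * β j / δ⌋ ∈ Icc (-M) M := fun j => by
    have h1 := abs_le.1 (hc j)
    have a : -(1 / δ) ≤ (β i)⁻¹ * β j / δ := by rw [← neg_div]; gcongr; exact h1.1
    have b : (β i)⁻¹ * β j / δ ≤ 1 / δ := by gcongr; exact h1.2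
    refine mem_Icc.2 ⟨Int.le_floor.2 (by push_cast; linarith), ?_⟩
    exact_mod_cast (Int.floor_le _).trans (b.trans hM')
  have hap : ∀ j, |(β i)⁻¹ * β j - δ * ⌊(β i)⁻¹ * β j / δ⌋| ≤ δ := fun j => by
    set x := (β i)⁻¹ * β j
    have a := Int.floor_le (x / δ)
    have b := Int.lt_floor_add_one (x / δ)
    rw [le_div_iff₀ hδ] at a
    rw [div_lt_iff₀ hδ] at b
    rw [abs_le]; constructor <;> nlinarith
  refine ⟨(β i)⁻¹, by rw [abs_inv, hi, inv_mul_cancel₀ hb.ne'],
    f (i, ⌊(β i)⁻¹ * β (i + 1) / δ⌋, ⌊(β i)⁻¹ * β (i + 2) / δ⌋),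
    mem_image_of_mem f (by simp only [mem_product, mem_univ, hfl, and_self]), ?_⟩
  refine (pi_norm_le_iff_of_nonneg hδ.le).2 fun j => ?_
  simp only [Pi.sub_apply, Pi.smul_apply, smul_eq_mul, f, Real.norm_eq_abs]
  split_ifs with h1 h2
  · rw [h1, inv_mul_cancel₀ hi0]; simpa using hδ.le
  · rw [h2]; exact hap _
  · rw [show j = i + 2 by omega]; exact hap _




end Crest.Agent.N111
end

-- ▼ part N111/Lib/Geo3
section

/-! # Row 111: shell geometry and the overlap count. -/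

set_option autoImplicit false
set_option linter.unusedVariables false

namespace Crest.Agent.N111

open MeasureTheory Topology Filter Matrix

/-! shells -/
theorem Sh.le_nm {L R : ℝ} {μ : Γ} (hμ : μ ∈ Sh L R) : Real.exp (2 * L - R) ≤ nm (ι μ) :=
  (Real.le_log_iff_exp_le (nm_pos _)).1 (by linarith [(abs_le.1 hμ.1).1])

theorem Sh.nm_le {L R : ℝ} {μ : Γ} (hμ : μ ∈ Sh L R) : nm (ι μ) ≤ Real.exp (2 * L + R) :=
  (Real.log_le_iff_le_exp (nm_pos _)).1 (by linarith [(abs_le.1 hμ.1).2])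

theorem Sh.nm_dl_le {L R : ℝ} {μ : Γ} (hμ : μ ∈ Sh L R) : nm (dl (ι μ)) ≤ Real.exp (L + R) := by
  rw [nm_dl, ← map_inv]; exact (Real.log_le_iff_le_exp (nm_pos _)).1 hμ.2

/-- expanded vectors point to the attracting point -/
theorem cross_pt_le {L R θ : ℝ} (hθ : 0 < θ) {μ : Γ} (hμ : μ ∈ Sh L R) {v : V} (hv : v ≠ 0)
    (h : θ * Real.exp (2 * L) * ‖v‖ ≤ ‖ac (ι μ) v‖) :
    ‖ac (ι μ) v ⨯₃ pt μ‖
      ≤ (6 * Real.exp (2 * R) / θ * Real.exp (-3 * L)) * (‖ac (ι μ) v‖ * ‖pt μ‖) := by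
  have h1 := Sh.le_nm hμ
  have h2 := Sh.nm_dl_le hμ
  have h3 := norm_cross_le v (ev (jm μ))
  rw [norm_ev, mul_one] at h3
  rw [norm_pt, pt, ac_cross]
  calc _ ≤ 3 * nm (dl (ι μ)) * ‖v ⨯₃ ev (jm μ)‖ := norm_ac_le _ _
    _ ≤ 3 * Real.exp (L + R) * (2 * ‖v‖) := by gcongr
    _ = (6 * Real.exp (2 * R) / θ * Real.exp (-3 * L))
        * (θ * Real.exp (2 * L) * ‖v‖ * Real.exp (2 * L - R)) := by
      rw [show L + R = 2 * R + -3 * L + 2 * L + (2 * L - R) by ring, Real.exp_add, Real.exp_add,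
        Real.exp_add]
      field_simp
      ring
    _ ≤ _ := by gcongr

theorem close_pt {f : V → ℂ} (hf : Hom0 f) (hc : ContinuousOn f {0}ᶜ) (R : ℝ) {θ ε : ℝ}
    (hθ : 0 < θ) (hε : 0 < ε) : ∀ᶠ L in atTop, ∀ μ ∈ Sh L R, ∀ v : V, v ≠ 0 →
      θ * Real.exp (2 * L) * ‖v‖ ≤ ‖ac (ι μ) v‖ → ‖f (ac (ι μ) v) - f (pt μ)‖ ≤ ε := by
  obtain ⟨δ, hδ, h⟩ := hf.unif hc hε
  have ht : Tendsto (fun L : ℝ => 6 * Real.exp (2 * R) / θ * Real.exp (-3 * L)) atTop (𝓝 0) := by
    simpa using (Real.tendsto_exp_atBot.comp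
      (tendsto_id.const_mul_atTop_of_neg (r := (-3 : ℝ)) (by norm_num))).const_mul
        (6 * Real.exp (2 * R) / θ)
  filter_upwards [ht.eventually (ge_mem_nhds hδ)] with L hL μ hμ v hv h1
  exact h _ _ (ac_ne_zero _ hv) (pt_ne_zero μ) ((cross_pt_le hθ hμ hv h1).trans (by gcongr))

theorem close_pt_left {f : V → ℂ} (hf : Hom0 f) (hc : ContinuousOn f {0}ᶜ) (ν : Γ) (R : ℝ) {ε : ℝ}
    (hε : 0 < ε) : ∀ᶠ L in atTop, ∀ μ ∈ Sh L R,
      ‖f (ac (ι μ) (ev (jm (ν * μ)))) - f (pt μ)‖ ≤ ε := by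
  have p1 := nm_pos (ι ν)
  have p2 := nm_pos (ι ν)⁻¹
  filter_upwards [close_pt hf hc R (θ := Real.exp (-R) / (9 * nm (ι ν)⁻¹ * nm (ι ν)))
    (by positivity) hε] with L hL μ hμ
  refine hL μ hμ _ (ev_ne_zero _) ?_
  have h1 := Sh.le_nm hμ
  have h2 := nm_mul_le (ι ν)⁻¹ (ι (ν * μ))
  have h3 := norm_ac_le (ι ν) (ac (ι μ) (ev (jm (ν * μ))))
  rw [← ac_mul, ← map_mul, ← pt, norm_pt] at h3
  rw [map_mul, inv_mul_cancel_left, ← map_mul] at h2
  rw [norm_ev, mul_one, div_mul_eq_mul_div, ← Real.exp_add, div_le_iff₀ (by positivity),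
    neg_add_eq_sub]
  nlinarith [mul_le_mul_of_nonneg_left h3 p2.le]

/-- right slow variation of the attracting point on shells -/
theorem osc_pt {f : V → ℂ} (hf : Hom0 f) (hc : ContinuousOn f {0}ᶜ) (ν : Γ) (R : ℝ) {ε : ℝ}
    (hε : 0 < ε) : ∀ᶠ L in atTop, ∀ μ ∈ Sh L R, ‖f (pt (μ * ν)) - f (pt μ)‖ ≤ ε := by
  have p1 := nm_pos (ι ν)
  have p2 := nm_pos (ι ν)⁻¹
  filter_upwards [close_pt hf hc R (θ := Real.exp (-R) / (3 * nm (ι ν)⁻¹ * nm (ι ν)))
    (by positivity) hε] with L hL μ hμ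
  have e : pt (μ * ν) = ac (ι μ) (ac (ι ν) (ev (jm (μ * ν)))) := by rw [pt, map_mul, ac_mul]
  rw [e]
  refine hL μ hμ _ (ac_ne_zero _ (ev_ne_zero _)) ?_
  have h1 := Sh.le_nm hμ
  have h2 := nm_mul_le (ι (μ * ν)) (ι ν)⁻¹
  rw [map_mul, mul_inv_cancel_right, ← map_mul] at h2
  rw [← e, norm_pt]
  calc _ ≤ Real.exp (-R) / (3 * nm (ι ν)⁻¹ * nm (ι ν)) * Real.exp (2 * L) * nm (ι ν) := by
        gcongr; exact norm_ac_ev_le _ _
    _ = Real.exp (2 * L - R) / (3 * nm (ι ν)⁻¹) := by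
        rw [← neg_add_eq_sub, Real.exp_add]; field_simp
    _ ≤ _ := by rw [div_le_iff₀ (by positivity)]; linarith

/-- left equivariance of the attracting point on shells -/
theorem cov_pt {f : V → ℂ} (hf : Hom0 f) (hc : ContinuousOn f {0}ᶜ) (ν : Γ) (R : ℝ) {ε : ℝ}
    (hε : 0 < ε) : ∀ᶠ L in atTop, ∀ μ ∈ Sh L R, ‖f (pt (ν * μ)) - f (ac (ι ν) (pt μ))‖ ≤ ε := by
  filter_upwards [close_pt_left (hf.ac (ι ν))
    (hc.comp (continuous_ac _).continuousOn fun a ha => ac_ne_zero _ ha) ν R hε] with L hL μ hμ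
  rw [pt, map_mul, ac_mul]
  exact hL μ hμ

/-- the norm cocycle on shells -/
theorem cov_nm (ν : Γ) (R : ℝ) {ε : ℝ} (hε : 0 < ε) : ∀ᶠ L in atTop, ∀ μ ∈ Sh L R,
    |Real.log (nm (ι (ν * μ))) - Real.log (nm (ι μ)) - Real.log ‖ac (ι ν) (nrm (pt μ))‖| ≤ ε := by
  have hf : Hom0 fun a => ((Real.log (‖ac (ι ν) a‖ / ‖a‖) : ℝ) : ℂ) := fun z hz a => by
    simp only [ac_smul, norm_smul, mul_div_mul_left _ _ (norm_ne_zero_iff.2 hz)]
  have hc : ContinuousOn (fun a => ((Real.log (‖ac (ι ν) a‖ / ‖a‖) : ℝ) : ℂ)) {0}ᶜ :=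
    Complex.continuous_ofReal.comp_continuousOn (ContinuousOn.log
      (ContinuousOn.div (by fun_prop) (by fun_prop) fun a ha => norm_ne_zero_iff.2 ha)
      fun a ha => div_ne_zero (norm_ne_zero_iff.2 (ac_ne_zero _ ha)) (norm_ne_zero_iff.2 ha))
  filter_upwards [close_pt_left hf hc ν R hε] with L hL μ hμ
  have h := hL μ hμ
  have n1 : 0 < ‖ac (ι ν) (pt μ)‖ := norm_pos_iff.2 (ac_ne_zero _ (pt_ne_zero μ))
  have n2 : 0 < ‖ac (ι μ) (ev (jm (ν * μ)))‖ := norm_pos_iff.2 (ac_ne_zero _ (ev_ne_zero _))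
  have h1 := Real.log_le_log n2 (norm_ac_ev_le _ _)
  have h2 : Real.log ‖ac (ι ν) (pt μ)‖ ≤ Real.log (nm (ι (ν * μ))) := by
    refine Real.log_le_log n1 ?_
    rw [pt, ← ac_mul, ← map_mul]; exact norm_ac_ev_le _ _
  rw [← Complex.ofReal_sub, Complex.norm_real, Real.norm_eq_abs, ← ac_mul, ← map_mul, ← pt,
    norm_pt, norm_pt, Real.log_div (nm_pos _).ne' n2.ne', Real.log_div n1.ne' (nm_pos _).ne',
    abs_le] at h
  rw [nrm, ac_smul, norm_smul, norm_inv, norm_norm, norm_pt,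
    Real.log_mul (inv_ne_zero (nm_pos _).ne') n1.ne', Real.log_inv, abs_le]
  constructor <;> linarith [h.2]

theorem mul_mem_Sh (ν : Γ) : ∃ D : ℝ, ∀ L R μ, μ ∈ Sh L R →
    ν * μ ∈ Sh L (R + D) ∧ μ * ν ∈ Sh L (R + D) := by
  refine ⟨Real.log (3 * max (nm (ι ν)) (nm (ι ν)⁻¹)), fun L R μ hμ => ?_⟩
  obtain ⟨h1, h2⟩ := abs_log_nm_mul_sub_le (ι μ) (ι ν)
  obtain ⟨h3, h4⟩ := abs_log_nm_mul_sub_le (ι μ⁻¹) (ι ν)⁻¹
  obtain ⟨h5, h6⟩ := hμ
  rw [inv_inv, max_comm, ← map_inv, ← map_mul, ← _root_.mul_inv_rev, map_inv ι ν] at h3 h4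
  rw [← map_mul] at h1 h2
  rw [abs_le] at h1 h2 h3 h4 h5
  exact ⟨⟨abs_le.2 ⟨by linarith, by linarith⟩, by linarith⟩,
    ⟨abs_le.2 ⟨by linarith, by linarith⟩, by linarith⟩⟩

/-- a covector `ac (dl μ) b` that is not incident to the attracting point is contracted -/
theorem norm_ac_dl_le {L R θ : ℝ} (hθ : 0 < θ) {μ : Γ} (hμ : μ ∈ Sh L R) {b : V}
    (h : θ * (‖ac (ι (dl μ)) b‖ * ‖pt μ‖) ≤ |ac (ι (dl μ)) b ⬝ᵥ pt μ|) :
    ‖ac (ι (dl μ)) b‖ ≤ Real.exp R / θ * Real.exp (-2 * L) * ‖b‖ := by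
  have h1 := Sh.le_nm hμ
  rw [norm_pt, dotProduct_comm, pt] at h
  conv_rhs at h => rw [ι_dl, ac_dot_ac_dl, ev_dot]
  have h2 : θ * (‖ac (ι (dl μ)) b‖ * Real.exp (2 * L - R)) ≤ ‖b‖ :=
    le_trans (by gcongr) (h.trans (norm_le_pi_norm b _))
  calc _ = Real.exp R / θ * Real.exp (-2 * L)
        * (θ * (‖ac (ι (dl μ)) b‖ * Real.exp (2 * L - R))) := by
        have : Real.exp R * Real.exp (-2 * L) * Real.exp (2 * L - R) = 1 := by
          rw [← Real.exp_add, ← Real.exp_add, ← Real.exp_zero]; congr 1; ring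
        generalize Real.exp (-2 * L) = x at this ⊢
        field_simp
        linear_combination (-‖ac (ι (dl μ)) b‖) * this
    _ ≤ _ := by gcongr

/-- **overlap count** -/
theorem overlap (R θ : ℝ) : ∃ N : ℕ, ∀ (L : ℝ) (b : V), b ≠ 0 → ∀ F : Finset Γ,
    (∀ μ ∈ F, μ ∈ Sh L R ∧ ‖ac (ι (dl μ)) b‖ ≤ θ * Real.exp (-2 * L) * ‖b‖) → F.card ≤ N := by
  refine ⟨nbox (6 * Real.exp (2 * R) * θ), fun L b hb F hF => ?_⟩
  have := count_line F dl (fun μ _ μ' _ e => by rw [← dl_dl μ, e, dl_dl])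
    (A := Real.exp (L + R)) (B := θ * Real.exp (-2 * L)) hb fun μ hμ =>
      ⟨(nm_le_iff (Real.exp_pos _).le).1 (by rw [ι_dl]; exact Sh.nm_dl_le (hF μ hμ).1),
        (hF μ hμ).2⟩
  convert this using 2
  rw [← Real.exp_nat_mul, show 2 * R = (2 : ℕ) * (L + R) + -2 * L by push_cast; ring,
    Real.exp_add]
  ring

end Crest.Agent.N111
end

-- ▼ part N111/Lib/All

/-! # Row 111: the whole library. -/
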